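import Mathlib

/-!
# P113: statement-level definitions

Velocity fields and forces on the flat torus `T³ = (ℝ/ℤ)³` are represented by functions on
`V = Fin 3 → ℝ` that are invariant under adding `1` to any coordinate.
-/

open MeasureTheory Set Filter Topology

namespace Vale.Agent.P113

/-- Coordinates on `ℝ³`; the torus is `V / ℤ³`. -/
abbrev V := Fin 3 → ℝ

/-- `g : V → α` descends to the torus `(ℝ/ℤ)³`. -/
def Periodic3 {α : Type*} (g : V → α) : Prop :=
  ∀ (x : V) (k : Fin 3), g (x + Pi.single k 1) = g x

/-- The partial derivative `∂g/∂x_j`. -/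
noncomputable def pd (j : Fin 3) (g : V → ℝ) (x : V) : ℝ :=
  deriv (fun s : ℝ => g (Function.update x j s)) (x j)

/-- `(u, p)` is a classical solution on `[0,T]` of the forced incompressible Navier-Stokes system
on the torus, started from rest, with pressure of spatial mean zero. The time derivative is
one-sided at the ends of `[0,T]`. -/
structure IsClassicalSolution (ν : ℝ) (f : ℝ → V → V) (T : ℝ) (u : ℝ → V → V) (p : ℝ → V → ℝ) :
    Prop where
  /-- the fields live on the torus -/
  periodic_u : ∀ t ∈ Icc 0 T, Periodic3 (u t)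
  periodic_p : ∀ t ∈ Icc 0 T, Periodic3 (p t)
  /-- spatial regularity: `u` is twice and `p` once continuously differentiable in space -/
  smooth_u : ∀ t ∈ Icc 0 T, ContDiff ℝ 2 (u t)
  smooth_p : ∀ t ∈ Icc 0 T, ContDiff ℝ 1 (p t)
  /-- joint continuity of `u`, its spatial derivatives up to order two, `p` and `∇p` -/
  cont_u : ContinuousOn (fun q : ℝ × V => u q.1 q.2) (Icc 0 T ×ˢ univ)
  cont_du : ∀ i j, ContinuousOn (fun q : ℝ × V => pd j (fun x => u q.1 x i) q.2) (Icc 0 T ×ˢ univ)
  cont_ddu : ∀ i j k, ContinuousOn
    (fun q : ℝ × V => pd k (pd j (fun x => u q.1 x i)) q.2) (Icc 0 T ×ˢ univ)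
  cont_p : ContinuousOn (fun q : ℝ × V => p q.1 q.2) (Icc 0 T ×ˢ univ)
  cont_dp : ∀ j, ContinuousOn (fun q : ℝ × V => pd j (p q.1) q.2) (Icc 0 T ×ˢ univ)
  /-- the time derivative of `u` exists, is continuous, and the momentum equation holds -/
  momentum : ∃ ut : ℝ → V → V, ContinuousOn (fun q : ℝ × V => ut q.1 q.2) (Icc 0 T ×ˢ univ) ∧
    ∀ t ∈ Icc 0 T, ∀ x : V, HasDerivWithinAt (fun s => u s x) (ut t x) (Icc 0 T) t ∧
      ∀ i, ut t x i + ∑ j, u t x j * pd j (fun y => u t y i) x
        = -pd i (p t) x + ν * ∑ j, pd j (pd j (fun y => u t y i)) x + f t x i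
  /-- incompressibility -/
  div_free : ∀ t ∈ Icc 0 T, ∀ x, ∑ j, pd j (fun y => u t y j) x = 0
  /-- started from rest -/
  initial : ∀ x, u 0 x = 0
  /-- the pressure has mean zero on the torus -/
  mean_zero : ∀ t ∈ Icc 0 T, ∫ x in Icc (0 : V) 1, p t x = 0

/-- The trajectory of the point `a` (a lift to `V` of a particle path on the torus). -/
def IsTrajectory (u : ℝ → V → V) (a : V) (X : ℝ → V) : Prop :=
  X 0 = a ∧ ∀ t, 0 ≤ t → HasDerivWithinAt X (u t (X t)) (Ici 0) t

/-! ### Machines -/

/-- A deterministic one-tape Turing machine with states `0, …, numStates`, symbols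
`0, …, numSymbols`, a blank, a start state, a set of halting states and a transition function
giving the new state, the written symbol and the move `0, 1, 2` (left, stay, right). -/
structure Machine where
  numStates : ℕ
  numSymbols : ℕ
  start : Fin (numStates + 1)
  blank : Fin (numSymbols + 1)
  halting : Fin (numStates + 1) → Bool
  δ : Fin (numStates + 1) → Fin (numSymbols + 1) →
    Fin (numStates + 1) × Fin (numSymbols + 1) × Fin 3

namespace Machine

/-- A configuration: state, tape, head position. -/
structure Config (M : Machine) where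
  state : Fin (M.numStates + 1)
  tape : ℤ → Fin (M.numSymbols + 1)
  head : ℤ

/-- One step of the machine. -/
def step (M : Machine) (c : M.Config) : M.Config :=
  let r := M.δ c.state (c.tape c.head)
  { state := r.1
    tape := Function.update c.tape c.head r.2.1
    head := c.head + ((r.2.2 : ℕ) : ℤ) - 1 }

/-- Initial configuration on input `w`: the word is written on cells `0, …, |w|-1` of an otherwise
blank two-sided tape, the head is at its first cell. -/
def init (M : Machine) (w : List (Fin (M.numSymbols + 1))) : M.Config :=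
  { state := M.start
    tape := fun z => if 0 ≤ z then w.getD z.toNat M.blank else M.blank
    head := 0 }

/-- `M` halts on `w`: a halting state is reached after finitely many (possibly zero) steps. -/
def HaltsOn (M : Machine) (w : List (Fin (M.numSymbols + 1))) : Prop :=
  ∃ n : ℕ, M.halting ((M.step^[n] (M.init w)).state) = true

/-- Finite description of a machine, the data handed to an algorithm. -/
abbrev Code := (ℕ × ℕ) × (ℕ × ℕ) × List Bool × List (ℕ × ℕ × ℕ)

/-- The finite description of `M`: sizes, start state and blank, the list of halting flags, and the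
transition table in lexicographic order. -/
def code (M : Machine) : Code :=
  ((M.numStates, M.numSymbols), ((M.start : ℕ), (M.blank : ℕ)),
    List.ofFn M.halting,
    (List.ofFn fun q => List.ofFn fun a =>
      (((M.δ q a).1 : ℕ), ((M.δ q a).2.1 : ℕ), ((M.δ q a).2.2 : ℕ))).flatten)

end Machine

/-! ### Effectivity -/

/-- Finite description of a rational: `(a, b, d)` stands for `(a - b) / (d + 1)`. -/
abbrev RatCode := ℕ × ℕ × ℕ

/-- The rational number described by a triple of naturals. -/
noncomputable def RatCode.val (q : RatCode) : ℝ := ((q.1 : ℝ) - q.2.1) / (q.2.2 + 1)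

/-- A real number is computable if some algorithm gives rational approximations of any accuracy. -/
def ComputableReal (ν : ℝ) : Prop :=
  ∃ r : ℕ → RatCode, Computable r ∧ ∀ n : ℕ, |(r n).val - ν| ≤ 1 / (n + 1)

/-- Mixed derivative `∂_t^{α₀} ∂_{x₀}^{α₁} ∂_{x₁}^{α₂} ∂_{x₂}^{α₃} g`. -/
noncomputable def mixedDeriv (α : ℕ × ℕ × ℕ × ℕ) (g : ℝ → V → ℝ) : ℝ → V → ℝ :=
  (fun h : ℝ → V → ℝ => fun t x => deriv (fun s => h s x) t)^[α.1]
    ((fun h : ℝ → V → ℝ => fun t => pd 0 (h t))^[α.2.1]
      ((fun h : ℝ → V → ℝ => fun t => pd 1 (h t))^[α.2.2.1]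
        ((fun h : ℝ → V → ℝ => fun t => pd 2 (h t))^[α.2.2.2] g)))

/-- A query: component, order of the mixed derivative, rational space-time point `(t, x₀, x₁, x₂)`,
and accuracy parameter `n` (accuracy `1/(n+1)`). -/
abbrev Query := Fin 3 × (ℕ × ℕ × ℕ × ℕ) × (RatCode × RatCode × RatCode × RatCode) × ℕ

/-- The program `c` computes the force `f`: on each query at a rational point of `[0,∞) × ℝ³` it
halts and returns the value of the mixed derivative of the chosen component to the prescribed
accuracy. -/
def Computes (c : Nat.Partrec.Code) (f : ℝ → V → V) : Prop :=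
  ∀ (i : Fin 3) (α : ℕ × ℕ × ℕ × ℕ) (t x y z : RatCode) (n : ℕ), 0 ≤ t.val →
    ∃ r : RatCode, Encodable.encode r ∈ c.eval (Encodable.encode ((i, α, (t, x, y, z), n) : Query)) ∧
      |r.val - mixedDeriv α (fun s v => f s v i) t.val ![x.val, y.val, z.val]| ≤ 1 / (n + 1)

end Vale.Agent.P113
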