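import Vale.Agent.P113.CompReal
import Vale.Agent.P113.Defs

/-!
# P113: computability of the derivatives of the smooth transition function
-/

open Set Filter Topology

namespace Vale.Agent.P113

/-! ### Comparison with `RatCode` -/

theorem val_eq_qv (x : RatCode) : RatCode.val x = ((qv x : ℚ) : ℝ) := by
  simp [RatCode.val, qv]

theorem half_pow_le_inv (n : ℕ) : (1 / 2 : ℝ) ^ n ≤ 1 / (n + 1) := by
  rw [one_div, inv_pow, one_div]
  apply inv_anti₀ (by positivity)
  have : n + 1 ≤ 2 ^ n := Nat.lt_two_pow_self
  exact_mod_cast this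

theorem inv_two_pow_le (n : ℕ) : 1 / ((2 ^ n : ℕ) + 1 : ℝ) ≤ (1 / 2 : ℝ) ^ n := by
  rw [one_div, one_div, inv_pow]
  apply inv_anti₀ (by positivity)
  push_cast
  linarith

theorem compReal_iff {α : Type*} [Primcodable α] (F : α → ℝ) :
    CompReal F ↔ ∃ g : α → ℕ → RatCode, Computable₂ g ∧
      ∀ a n, |(g a n).val - F a| ≤ 1 / ((n : ℝ) + 1) := by
  constructor
  · rintro ⟨g, hg, h⟩
    refine ⟨fun a n => g (a, n), hg, fun a n => ?_⟩
    rw [val_eq_qv, abs_sub_comm]
    exact (h a n).trans (half_pow_le_inv n)
  · rintro ⟨g, hg, h⟩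
    refine ⟨fun p => g p.1 (2 ^ p.2), hg.comp Computable.fst
      (natPow_computable.comp (Computable.const 2) Computable.snd), fun a n => ?_⟩
    have := h a (2 ^ n)
    rw [val_eq_qv, abs_sub_comm] at this
    exact this.trans (by simpa using inv_two_pow_le n)

theorem ComputableReal.compReal {ν : ℝ} (h : ComputableReal ν) {α : Type*} [Primcodable α] :
    CompReal fun _ : α => ν := by
  obtain ⟨r, hr, hν⟩ := h
  exact (compReal_iff _).2 ⟨fun _ n => r n, hr.comp Computable.snd, fun _ n => hν n⟩

theorem CompReal.of_ratCode {α : Type*} [Primcodable α] {g : α → RatCode} (hg : Computable g) :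
    CompReal fun a => (g a).val :=
  (CompReal.of_qt hg).congr fun a => (val_eq_qv _).symm

/-! ### Exact arithmetic on `RatCode` -/

theorem val_qadd (x y : RatCode) : RatCode.val (qadd x y) = x.val + y.val := by
  rw [val_eq_qv, val_eq_qv, val_eq_qv, qv_add]; push_cast; rfl

theorem val_qmul (x y : RatCode) : RatCode.val (qmul x y) = x.val * y.val := by
  rw [val_eq_qv, val_eq_qv, val_eq_qv, qv_mul]; push_cast; rfl

theorem val_qneg (x : RatCode) : RatCode.val (qneg x) = - x.val := by
  rw [val_eq_qv, val_eq_qv, qv_neg]; push_cast; rfl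

theorem val_qinv (x : RatCode) : RatCode.val (qinv x) = (x.val)⁻¹ := by
  rw [val_eq_qv, val_eq_qv, qv_inv]; push_cast; rfl

theorem val_qnat (n : ℕ) : RatCode.val (qnat n) = n := by
  rw [val_eq_qv, qv_nat]; push_cast; rfl

/-- strict comparison of rational codes -/
def qlt (x y : RatCode) : Bool :=
  decide (x.1 * (y.2.2 + 1) + y.2.1 * (x.2.2 + 1) < y.1 * (x.2.2 + 1) + x.2.1 * (y.2.2 + 1))

theorem qlt_iff (x y : RatCode) : qlt x y = true ↔ x.val < y.val := by
  obtain ⟨p, q, r⟩ := x
  obtain ⟨p', q', r'⟩ := y
  simp only [qlt, RatCode.val, decide_eq_true_eq]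
  rw [div_lt_div_iff₀ (by positivity) (by positivity), ← Nat.cast_lt (α := ℝ)]
  push_cast
  constructor <;> intro h <;> linarith

theorem qlt_prim : Primrec₂ qlt := by
  unfold qlt
  have a1 : Primrec fun z : QT × QT => z.1.1 := Primrec.fst.comp Primrec.fst
  have a2 : Primrec fun z : QT × QT => z.1.2.1 := Primrec.fst.comp (Primrec.snd.comp Primrec.fst)
  have a3 : Primrec fun z : QT × QT => z.1.2.2 := Primrec.snd.comp (Primrec.snd.comp Primrec.fst)
  have b1 : Primrec fun z : QT × QT => z.2.1 := Primrec.fst.comp Primrec.snd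
  have b2 : Primrec fun z : QT × QT => z.2.2.1 := Primrec.fst.comp (Primrec.snd.comp Primrec.snd)
  have b3 : Primrec fun z : QT × QT => z.2.2.2 := Primrec.snd.comp (Primrec.snd.comp Primrec.snd)
  have a3' := Primrec.succ.comp a3
  have b3' := Primrec.succ.comp b3
  exact Primrec.nat_lt.decide.comp
    (Primrec.nat_add.comp (Primrec.nat_mul.comp a1 b3') (Primrec.nat_mul.comp b2 a3'))
    (Primrec.nat_add.comp (Primrec.nat_mul.comp b1 a3') (Primrec.nat_mul.comp a2 b3'))

/-- weak comparison -/
def qle (x y : RatCode) : Bool := !(qlt y x)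

theorem qle_iff (x y : RatCode) : qle x y = true ↔ x.val ≤ y.val := by
  unfold qle
  rw [Bool.not_eq_true', ← Bool.not_eq_true, qlt_iff, not_lt]

theorem qle_prim : Primrec₂ qle :=
  Primrec.not.comp (qlt_prim.comp Primrec.snd Primrec.fst)

/-- floor of a rational code, as a rational code -/
def qfloor (x : RatCode) : RatCode :=
  if x.2.1 ≤ x.1 then ((x.1 - x.2.1) / (x.2.2 + 1), 0, 0)
  else (0, (x.2.1 - x.1 + x.2.2) / (x.2.2 + 1), 0)

theorem val_qfloor (x : RatCode) : RatCode.val (qfloor x) = ⌊x.val⌋ := by
  obtain ⟨p, q, r⟩ := x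
  simp only [qfloor]
  split_ifs with h
  · have e : RatCode.val (p, q, r) = ((p - q : ℕ) : ℝ) / ((r : ℝ) + 1) := by
      simp only [RatCode.val]
      push_cast [Nat.cast_sub h]
      rfl
    have h1 : (p - q) / (r + 1) * (r + 1) ≤ p - q := Nat.div_mul_le_self _ _
    have h2 : p - q < ((p - q) / (r + 1) + 1) * (r + 1) := by
      have := Nat.lt_div_mul_add (a := p - q) (b := r + 1) (by omega)
      linarith
    have hf : ⌊RatCode.val (p, q, r)⌋ = (((p - q) / (r + 1) : ℕ) : ℤ) := by
      rw [Int.floor_eq_iff, e]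
      have hr : (0 : ℝ) < (r : ℝ) + 1 := by positivity
      constructor
      · rw [le_div_iff₀ hr]
        exact_mod_cast h1
      · rw [div_lt_iff₀ hr]
        exact_mod_cast h2
    rw [hf, Int.cast_natCast]
    simp [RatCode.val]
  · have hpq : p ≤ q := by omega
    have e : RatCode.val (p, q, r) = -((q - p : ℕ) : ℝ) / ((r : ℝ) + 1) := by
      simp only [RatCode.val]
      push_cast [Nat.cast_sub hpq]
      ring
    set c : ℕ := (q - p + r) / (r + 1) with hc
    have h1 : c * (r + 1) ≤ q - p + r := Nat.div_mul_le_self _ _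
    have h2 : q - p + r < (c + 1) * (r + 1) := by
      have := Nat.lt_div_mul_add (a := q - p + r) (b := r + 1) (by omega)
      rw [← hc] at this
      linarith
    have h3 : q - p ≤ c * (r + 1) := by
      have : (c + 1) * (r + 1) = c * (r + 1) + r + 1 := by ring
      omega
    have hf : ⌊RatCode.val (p, q, r)⌋ = -(c : ℤ) := by
      rw [Int.floor_eq_iff, e]
      have hr : (0 : ℝ) < (r : ℝ) + 1 := by positivity
      have h3' : ((q - p : ℕ) : ℝ) ≤ c * (r + 1) := by exact_mod_cast h3
      have h1' : (c : ℝ) * (r + 1) ≤ ((q - p : ℕ) : ℝ) + r := by exact_mod_cast h1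
      constructor
      · rw [le_div_iff₀ hr]
        push_cast
        linarith
      · rw [div_lt_iff₀ hr]
        push_cast
        linarith
    rw [hf, Int.cast_neg, Int.cast_natCast]
    simp [RatCode.val]

theorem qfloor_prim : Primrec qfloor := by
  unfold qfloor
  have a1 : Primrec fun z : QT => z.1 := Primrec.fst
  have a2 : Primrec fun z : QT => z.2.1 := Primrec.fst.comp Primrec.snd
  have a3 : Primrec fun z : QT => z.2.2 := Primrec.snd.comp Primrec.snd
  refine Primrec.ite (Primrec.nat_le.comp a2 a1) ?_ ?_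
  · exact Primrec.pair (Primrec.nat_div.comp (Primrec.nat_sub.comp a1 a2) (Primrec.succ.comp a3))
      (Primrec.const (0, 0))
  · exact Primrec.pair (Primrec.const 0) (Primrec.pair (Primrec.nat_div.comp
      (Primrec.nat_add.comp (Primrec.nat_sub.comp a2 a1) a3) (Primrec.succ.comp a3))
      (Primrec.const 0))

/-- rounding of a rational code, as a rational code -/
def qround (x : RatCode) : RatCode := qfloor (qadd x (1, 0, 1))

theorem val_qround (x : RatCode) : RatCode.val (qround x) = round x.val := by
  rw [qround, val_qfloor, val_qadd, round_eq]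
  congr 2
  simp [RatCode.val]
  norm_num

theorem qround_prim : Primrec qround :=
  qfloor_prim.comp (qadd_prim.comp Primrec.id (Primrec.const _))

/-- centered fractional part `x - round x` of a rational code -/
def qcf (x : RatCode) : RatCode := qadd x (qneg (qround x))

theorem val_qcf (x : RatCode) : RatCode.val (qcf x) = x.val - round x.val := by
  rw [qcf, val_qadd, val_qneg, val_qround]; ring

theorem qcf_prim : Primrec qcf :=
  qadd_prim.comp Primrec.id (qneg_prim.comp qround_prim)

/-- fractional part of a rational code -/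
def qfract (x : RatCode) : RatCode := qadd x (qneg (qfloor x))

theorem val_qfract (x : RatCode) : RatCode.val (qfract x) = Int.fract x.val := by
  rw [qfract, val_qadd, val_qneg, val_qfloor, Int.fract]; ring

theorem qfract_prim : Primrec qfract :=
  qadd_prim.comp Primrec.id (qneg_prim.comp qfloor_prim)

/-! ### Derivatives of the smooth transition function -/

/-- `(c, i, j, k)` stands for the monomial `c * a^i * b^j * s^k` -/
abbrev Mono : Type := QT × ℕ × ℕ × ℕ

/-- derivative of a monomial, where `a' = -a²`, `b' = b²`, `s' = (a² + b²) s (1 - s)` -/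
def monoDeriv (m : Mono) : List Mono :=
  [(qmul m.1 (qneg (qnat m.2.1)), m.2.1 + 1, m.2.2.1, m.2.2.2),
   (qmul m.1 (qnat m.2.2.1), m.2.1, m.2.2.1 + 1, m.2.2.2),
   (qmul m.1 (qnat m.2.2.2), m.2.1 + 2, m.2.2.1, m.2.2.2),
   (qmul m.1 (qneg (qnat m.2.2.2)), m.2.1 + 2, m.2.2.1, m.2.2.2 + 1),
   (qmul m.1 (qnat m.2.2.2), m.2.1, m.2.2.1 + 2, m.2.2.2),
   (qmul m.1 (qneg (qnat m.2.2.2)), m.2.1, m.2.2.1 + 2, m.2.2.2 + 1)]

/-- the list of monomials of the `m`-th derivative of the smooth transition function -/
def monos (m : ℕ) : List Mono :=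
  Nat.rec (motive := fun _ => List Mono) [(qnat 1, 0, 0, 1)] (fun _ l => l.flatMap monoDeriv) m

noncomputable def monoEval (a b s : ℝ) (m : Mono) : ℝ :=
  RatCode.val m.1 * a ^ m.2.1 * b ^ m.2.2.1 * s ^ m.2.2.2

noncomputable def polyEval (a b s : ℝ) (l : List Mono) : ℝ := (l.map (monoEval a b s)).sum

theorem monoDeriv_prim : Primrec monoDeriv := by
  unfold monoDeriv
  have c : Primrec fun m : Mono => m.1 := Primrec.fst
  have i : Primrec fun m : Mono => m.2.1 := Primrec.fst.comp Primrec.snd
  have j : Primrec fun m : Mono => m.2.2.1 := Primrec.fst.comp (Primrec.snd.comp Primrec.snd)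
  have k : Primrec fun m : Mono => m.2.2.2 := Primrec.snd.comp (Primrec.snd.comp Primrec.snd)
  have i1 := Primrec.succ.comp i
  have i2 := Primrec.succ.comp i1
  have j1 := Primrec.succ.comp j
  have j2 := Primrec.succ.comp j1
  have k1 := Primrec.succ.comp k
  have ni := qneg_prim.comp (qnat_prim.comp i)
  have pj := qnat_prim.comp j
  have pk := qnat_prim.comp k
  have nk := qneg_prim.comp pk
  refine Primrec.list_cons.comp (Primrec.pair (qmul_prim.comp c ni) (Primrec.pair i1
    (Primrec.pair j k))) ?_
  refine Primrec.list_cons.comp (Primrec.pair (qmul_prim.comp c pj) (Primrec.pair i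
    (Primrec.pair j1 k))) ?_
  refine Primrec.list_cons.comp (Primrec.pair (qmul_prim.comp c pk) (Primrec.pair i2
    (Primrec.pair j k))) ?_
  refine Primrec.list_cons.comp (Primrec.pair (qmul_prim.comp c nk) (Primrec.pair i2
    (Primrec.pair j k1))) ?_
  refine Primrec.list_cons.comp (Primrec.pair (qmul_prim.comp c pk) (Primrec.pair i
    (Primrec.pair j2 k))) ?_
  exact Primrec.list_cons.comp (Primrec.pair (qmul_prim.comp c nk) (Primrec.pair i
    (Primrec.pair j2 k1))) (Primrec.const [])

theorem monos_prim : Primrec monos := by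
  unfold monos
  exact Primrec.nat_rec₁ _ (Primrec.list_flatMap Primrec.snd
    (monoDeriv_prim.comp₂ Primrec₂.right))

/-- closed form of the transition function on `(0,1)` -/
theorem smoothTransition_eq {x : ℝ} (h0 : 0 < x) (h1 : x < 1) :
    Real.smoothTransition x = (1 + Real.exp (x⁻¹ - (1 - x)⁻¹))⁻¹ := by
  have h2 : 0 < 1 - x := by linarith
  have hE : Real.exp (x⁻¹ - (1 - x)⁻¹) = Real.exp (-(1 - x)⁻¹) / Real.exp (-x⁻¹) := by
    rw [← Real.exp_sub]; congr 1; ring
  rw [Real.smoothTransition, expNegInvGlue, expNegInvGlue, if_neg (not_le.2 h0),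
    if_neg (not_le.2 h2), hE]
  have e1 : (0 : ℝ) < Real.exp (-x⁻¹) := Real.exp_pos _
  have e2 : (0 : ℝ) < Real.exp (-(1 - x)⁻¹) := Real.exp_pos _
  generalize Real.exp (-x⁻¹) = u at e1 ⊢
  generalize Real.exp (-(1 - x)⁻¹) = v at e2 ⊢
  field_simp

theorem hasDerivAt_smoothTransition {x : ℝ} (h0 : 0 < x) (h1 : x < 1) :
    HasDerivAt Real.smoothTransition (((x⁻¹) ^ 2 + ((1 - x)⁻¹) ^ 2) * Real.smoothTransition x *
      (1 - Real.smoothTransition x)) x := by
  have h2 : 0 < 1 - x := by linarith
  have e : Real.smoothTransition =ᶠ[𝓝 x] fun y => (1 + Real.exp (y⁻¹ - (1 - y)⁻¹))⁻¹ := by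
    filter_upwards [Ioo_mem_nhds h0 h1] with y hy
    exact smoothTransition_eq hy.1 hy.2
  refine HasDerivAt.congr_of_eventuallyEq ?_ e
  have d1 : HasDerivAt (fun y : ℝ => y⁻¹) (-(x ^ 2)⁻¹) x := hasDerivAt_inv h0.ne'
  have d2 : HasDerivAt (fun y : ℝ => (1 - y)⁻¹) (-(-1) / (1 - x) ^ 2) x := by
    have := ((hasDerivAt_id x).const_sub 1).fun_inv h2.ne'
    simpa using this
  have d3 := ((d1.sub d2).exp.const_add 1).fun_inv (by positivity :
    (1 + Real.exp (x⁻¹ - (1 - x)⁻¹)) ≠ 0)
  refine d3.congr_deriv ?_
  rw [smoothTransition_eq h0 h1]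
  have hE : (0 : ℝ) < 1 + Real.exp (x⁻¹ - (1 - x)⁻¹) := by positivity
  simp only [Pi.sub_apply]
  set E := Real.exp (x⁻¹ - (1 - x)⁻¹)
  field_simp
  ring

theorem hasDerivAt_monoEval {x : ℝ} (h0 : 0 < x) (h1 : x < 1) (m : Mono) :
    HasDerivAt (fun y : ℝ => monoEval (y⁻¹) ((1 - y)⁻¹) (Real.smoothTransition y) m)
      (polyEval (x⁻¹) ((1 - x)⁻¹) (Real.smoothTransition x) (monoDeriv m)) x := by
  have h2 : 0 < 1 - x := by linarith
  obtain ⟨c, i, j, k⟩ := m
  have d1 : HasDerivAt (fun y : ℝ => y⁻¹) (-(x⁻¹) ^ 2) x := by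
    simpa [inv_pow] using hasDerivAt_inv h0.ne'
  have d2 : HasDerivAt (fun y : ℝ => (1 - y)⁻¹) (((1 - x)⁻¹) ^ 2) x := by
    have := ((hasDerivAt_id x).const_sub 1).fun_inv h2.ne'
    simpa [inv_pow, div_eq_mul_inv] using this
  have d3 := hasDerivAt_smoothTransition h0 h1
  have D := (((d1.fun_pow i).mul (d2.fun_pow j)).mul (d3.fun_pow k)).const_mul (RatCode.val c)
  have D' : HasDerivAt (fun y : ℝ => monoEval (y⁻¹) ((1 - y)⁻¹) (Real.smoothTransition y)
      (c, i, j, k)) _ x := D.congr_of_eventuallyEq (Eventually.of_forall fun y => by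
        simp only [monoEval, Pi.mul_apply]; ring)
  refine D'.congr_deriv ?_
  simp only [polyEval, monoDeriv, monoEval, List.map_cons, List.map_nil, List.sum_cons,
    List.sum_nil, val_qmul, val_qneg, val_qnat, Pi.mul_apply]
  set a := x⁻¹
  set b := (1 - x)⁻¹
  set s := Real.smoothTransition x
  have pi : (i : ℝ) * a ^ (i - 1) * a = i * a ^ i := by
    cases i with
    | zero => simp
    | succ i => simp [pow_succ]; ring
  have pj : (j : ℝ) * b ^ (j - 1) * b = j * b ^ j := by
    cases j with
    | zero => simp
    | succ i => simp [pow_succ]; ring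
  have pk : (k : ℝ) * s ^ (k - 1) * s = k * s ^ k := by
    cases k with
    | zero => simp
    | succ i => simp [pow_succ]; ring
  linear_combination (-RatCode.val c * a * b ^ j * s ^ k) * pi +
    (RatCode.val c * b * a ^ i * s ^ k) * pj +
    (RatCode.val c * a ^ i * b ^ j * (a ^ 2 + b ^ 2) * (1 - s)) * pk

theorem hasDerivAt_polyEval {x : ℝ} (h0 : 0 < x) (h1 : x < 1) (l : List Mono) :
    HasDerivAt (fun y : ℝ => polyEval (y⁻¹) ((1 - y)⁻¹) (Real.smoothTransition y) l)
      (polyEval (x⁻¹) ((1 - x)⁻¹) (Real.smoothTransition x) (l.flatMap monoDeriv)) x := by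
  induction l with
  | nil => simpa [polyEval] using hasDerivAt_const x (0 : ℝ)
  | cons m l ih =>
    have := (hasDerivAt_monoEval h0 h1 m).fun_add ih
    simpa [polyEval, List.flatMap_cons] using this

/-- the derivatives of the transition function inside `(0,1)` -/
theorem iteratedDeriv_smoothTransition (m : ℕ) {x : ℝ} (h0 : 0 < x) (h1 : x < 1) :
    iteratedDeriv m Real.smoothTransition x =
      polyEval (x⁻¹) ((1 - x)⁻¹) (Real.smoothTransition x) (monos m) := by
  induction m generalizing x with
  | zero => simp [monos, polyEval, monoEval, val_qnat]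
  | succ m ih =>
    rw [iteratedDeriv_succ]
    have e : iteratedDeriv m Real.smoothTransition =ᶠ[𝓝 x]
        fun y => polyEval (y⁻¹) ((1 - y)⁻¹) (Real.smoothTransition y) (monos m) := by
      filter_upwards [Ioo_mem_nhds h0 h1] with y hy
      exact ih hy.1 hy.2
    rw [e.deriv_eq, (hasDerivAt_polyEval h0 h1 (monos m)).deriv]
    rfl

theorem continuous_iteratedDeriv_smoothTransition (m : ℕ) :
    Continuous (iteratedDeriv m Real.smoothTransition) :=
  (Real.smoothTransition.contDiff (n := m)).continuous_iteratedDeriv m le_rfl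

theorem iteratedDeriv_smoothTransition_of_nonpos (m : ℕ) {x : ℝ} (h : x ≤ 0) :
    iteratedDeriv m Real.smoothTransition x = 0 := by
  have hc : IsClosed {y : ℝ | iteratedDeriv m Real.smoothTransition y = 0} :=
    isClosed_eq (continuous_iteratedDeriv_smoothTransition m) continuous_const
  have hs : Iio (0 : ℝ) ⊆ {y : ℝ | iteratedDeriv m Real.smoothTransition y = 0} := by
    intro y hy
    have e : Real.smoothTransition =ᶠ[𝓝 y] fun _ => (0 : ℝ) := by
      filter_upwards [Iio_mem_nhds hy] with z hz
      exact Real.smoothTransition.zero_of_nonpos (le_of_lt hz)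
    have := e.iteratedDeriv_eq m
    rw [mem_ofPred_eq, this]
    simp
  have := closure_minimal hs hc
  rw [closure_Iio] at this
  exact this h

theorem iteratedDeriv_smoothTransition_of_one_le (m : ℕ) {x : ℝ} (h : 1 ≤ x) :
    iteratedDeriv m Real.smoothTransition x = if m = 0 then 1 else 0 := by
  have hc : IsClosed {y : ℝ | iteratedDeriv m Real.smoothTransition y =
      if m = 0 then 1 else 0} :=
    isClosed_eq (continuous_iteratedDeriv_smoothTransition m) continuous_const
  have hs : Ioi (1 : ℝ) ⊆ {y : ℝ | iteratedDeriv m Real.smoothTransition y =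
      if m = 0 then 1 else 0} := by
    intro y hy
    have e : Real.smoothTransition =ᶠ[𝓝 y] fun _ => (1 : ℝ) := by
      filter_upwards [Ioi_mem_nhds hy] with z hz
      exact Real.smoothTransition.one_of_one_le (le_of_lt hz)
    have := e.iteratedDeriv_eq m
    rw [mem_ofPred_eq, this, iteratedDeriv_const]
  have := closure_minimal hs hc
  rw [closure_Ioi] at this
  exact this h

/-- All derivatives of the smooth transition function at rational points are uniformly
computable. -/
theorem CompReal.smoothTransition : CompReal fun p : ℕ × RatCode =>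
    iteratedDeriv p.1 Real.smoothTransition p.2.val := by
  -- the point, `a = 1/x`, `b = 1/(1-x)` and `σ`
  have ca : Primrec fun q : RatCode => qinv q := qinv_prim
  have cb : Primrec fun q : RatCode => qinv (qadd (qnat 1) (qneg q)) :=
    qinv_prim.comp (qadd_prim.comp (Primrec.const _) qneg_prim)
  have ra : CompReal fun q : RatCode => (q.val)⁻¹ :=
    (CompReal.of_ratCode ca.to_comp).congr fun q => val_qinv q
  have rb : CompReal fun q : RatCode => (1 - q.val)⁻¹ :=
    (CompReal.of_ratCode cb.to_comp).congr fun q => by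
      rw [val_qinv, val_qadd, val_qneg, val_qnat]; push_cast; ring
  have rs : CompReal fun q : RatCode => (1 + Real.exp ((q.val)⁻¹ - (1 - q.val)⁻¹))⁻¹ :=
    CompReal.inv (CompReal.one.add (ra.sub rb).exp) fun q => by positivity
  -- values of monomials
  have rm : CompReal fun z : (ℕ × RatCode) × Mono =>
      monoEval ((z.1.2.val)⁻¹) ((1 - z.1.2.val)⁻¹)
        ((1 + Real.exp ((z.1.2.val)⁻¹ - (1 - z.1.2.val)⁻¹))⁻¹) z.2 := by
    have pq : Computable fun z : (ℕ × RatCode) × Mono => z.1.2 :=
      Computable.snd.comp Computable.fst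
    have pc : Computable fun z : (ℕ × RatCode) × Mono => z.2.1 :=
      Computable.fst.comp Computable.snd
    have pi : Computable fun z : (ℕ × RatCode) × Mono => z.2.2.1 :=
      Computable.fst.comp (Computable.snd.comp Computable.snd)
    have pj : Computable fun z : (ℕ × RatCode) × Mono => z.2.2.2.1 :=
      Computable.fst.comp (Computable.snd.comp (Computable.snd.comp Computable.snd))
    have pk : Computable fun z : (ℕ × RatCode) × Mono => z.2.2.2.2 :=
      Computable.snd.comp (Computable.snd.comp (Computable.snd.comp Computable.snd))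
    exact (((CompReal.of_ratCode pc).mul ((ra.comp pq).pow pi)).mul ((rb.comp pq).pow pj)).mul
      ((rs.comp pq).pow pk)
  have rp : CompReal fun z : ℕ × RatCode =>
      polyEval ((z.2.val)⁻¹) ((1 - z.2.val)⁻¹)
        ((1 + Real.exp ((z.2.val)⁻¹ - (1 - z.2.val)⁻¹))⁻¹) (monos z.1) :=
    (rm.listSum (monos_prim.to_comp.comp Computable.fst)).congr fun z => rfl
  have c0 : Computable fun z : ℕ × RatCode => qle z.2 (qnat 0) :=
    (qle_prim.to_comp : Computable₂ _).comp Computable.snd (Computable.const _)
  have c1 : Computable fun z : ℕ × RatCode => qle (qnat 1) z.2 :=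
    (qle_prim.to_comp : Computable₂ _).comp (Computable.const _) Computable.snd
  have c2 : Computable fun z : ℕ × RatCode => decide (z.1 = 0) :=
    (Primrec.eq.decide.to_comp : Computable₂ fun a b : ℕ => decide (a = b)).comp Computable.fst
      (Computable.const 0)
  refine (CompReal.cond c0 CompReal.zero
    (CompReal.cond c1 (CompReal.cond c2 CompReal.one CompReal.zero) rp)).congr fun z => ?_
  obtain ⟨m, q⟩ := z
  simp only
  rcases le_or_gt q.val 0 with h | h
  · rw [iteratedDeriv_smoothTransition_of_nonpos m h, (qle_iff _ _).2 (by simpa [val_qnat] using h)]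
    rfl
  · have e0 : qle q (qnat 0) = false := by
      rw [Bool.eq_false_iff]
      intro hh
      have := (qle_iff _ _).1 hh
      rw [val_qnat] at this
      push_cast at this
      linarith
    rw [e0, cond_false]
    rcases le_or_gt 1 q.val with h' | h'
    · rw [iteratedDeriv_smoothTransition_of_one_le m h',
        (qle_iff _ _).2 (by simpa [val_qnat] using h'), cond_true]
      by_cases hm : m = 0 <;> simp [hm]
    · have e1 : qle (qnat 1) q = false := by
        rw [Bool.eq_false_iff]
        intro hh
        have := (qle_iff _ _).1 hh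
        rw [val_qnat] at this
        push_cast at this
        linarith
      rw [e1, cond_false, iteratedDeriv_smoothTransition m h h', smoothTransition_eq h h']

/-- the ramp function `T x = x * S x` -/
noncomputable def ramp (x : ℝ) : ℝ := x * Real.smoothTransition x

theorem iteratedDeriv_ramp (m : ℕ) (x : ℝ) : iteratedDeriv m ramp x =
    x * iteratedDeriv m Real.smoothTransition x +
      m * iteratedDeriv (m - 1) Real.smoothTransition x := by
  have hd : ∀ k : ℕ, ∀ y, HasDerivAt (iteratedDeriv k Real.smoothTransition)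
      (iteratedDeriv (k + 1) Real.smoothTransition y) y := by
    intro k y
    rw [iteratedDeriv_succ]
    exact ((Real.smoothTransition.contDiff (n := (k + 1 : ℕ))).differentiable_iteratedDeriv k
      (by exact_mod_cast Nat.lt_succ_self k) y).hasDerivAt
  induction m generalizing x with
  | zero => simp [ramp]
  | succ m ih =>
    rw [iteratedDeriv_succ]
    have e : iteratedDeriv m ramp = fun y => y * iteratedDeriv m Real.smoothTransition y +
      m * iteratedDeriv (m - 1) Real.smoothTransition y := funext ih
    rw [e]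
    have h1 := ((hasDerivAt_id' x).fun_mul (hd m x)).fun_add
      ((hd (m - 1) x).const_mul (m : ℝ))
    rw [h1.deriv]
    cases m with
    | zero => simp; ring
    | succ m => simp; ring

/-- All derivatives of the ramp function at rational points are uniformly computable. -/
theorem CompReal.ramp : CompReal fun p : ℕ × RatCode => iteratedDeriv p.1 ramp p.2.val := by
  have h1 : CompReal fun p : ℕ × RatCode => p.2.val := CompReal.of_ratCode Computable.snd
  have h2 : CompReal fun p : ℕ × RatCode => (p.1 : ℝ) := CompReal.nat Computable.fst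
  have h3 : CompReal fun p : ℕ × RatCode =>
      iteratedDeriv (p.1 - 1) Real.smoothTransition p.2.val :=
    CompReal.smoothTransition.comp (f := fun p : ℕ × RatCode => (p.1 - 1, p.2))
      (Computable.pair (Computable.pred.comp Computable.fst) Computable.snd)
  exact ((h1.mul CompReal.smoothTransition).add (h2.mul h3)).congr fun p =>
    (iteratedDeriv_ramp p.1 p.2.val).symm

/-! ### From uniform computability to a compiler -/

/-- A uniformly computable family of space-time functionals, indexed by problem instances `b : β`,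
is computed by programs obtained from `b` by an algorithm. -/
theorem exists_compiler {β : Type*} [Primcodable β]
    (F : β × (Fin 3 × (ℕ × ℕ × ℕ × ℕ) × (RatCode × RatCode × RatCode × RatCode)) → ℝ)
    (hF : CompReal F) : ∃ compile : β → Nat.Partrec.Code, Computable compile ∧
      ∀ (b : β) (i : Fin 3) (α : ℕ × ℕ × ℕ × ℕ) (t x y z : RatCode) (n : ℕ),
        ∃ r : RatCode, Encodable.encode r ∈ (compile b).eval
          (Encodable.encode ((i, α, (t, x, y, z), n) : Query)) ∧
          |r.val - F (b, (i, α, (t, x, y, z)))| ≤ 1 / ((n : ℝ) + 1) := by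
  obtain ⟨g, hg, h⟩ := (compReal_iff F).1 hF
  -- the partial recursive function on codes
  let G : β × Query → RatCode := fun p => g (p.1, (p.2.1, p.2.2.1, p.2.2.2.1)) p.2.2.2.2
  have hG : Computable G := by
    refine hg.comp (Computable.pair Computable.fst (Computable.pair ?_ (Computable.pair ?_ ?_))) ?_
    · exact Computable.fst.comp Computable.snd
    · exact Computable.fst.comp (Computable.snd.comp Computable.snd)
    · exact Computable.fst.comp (Computable.snd.comp (Computable.snd.comp Computable.snd))
    · exact Computable.snd.comp (Computable.snd.comp (Computable.snd.comp Computable.snd))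
  have hG' : Nat.Partrec fun n => Part.bind (Encodable.decode (α := β × Query) n)
      fun a => Part.map Encodable.encode (Part.some (G a)) := hG
  obtain ⟨c, hc⟩ := Nat.Partrec.Code.exists_code.1 hG'
  refine ⟨fun b => Nat.Partrec.Code.curry c (Encodable.encode b), ?_, fun b i α t x y z n =>
    ⟨G (b, (i, α, (t, x, y, z), n)), ?_, h _ _⟩⟩
  · exact (Nat.Partrec.Code.primrec₂_curry.comp (Primrec.const c) Primrec.encode).to_comp
  · rw [Nat.Partrec.Code.eval_curry, hc]
    have e : Nat.pair (Encodable.encode b)
        (Encodable.encode ((i, α, (t, x, y, z), n) : Query)) =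
        Encodable.encode ((b, (i, α, (t, x, y, z), n)) : β × Query) := rfl
    rw [e]
    beta_reduce
    rw [Encodable.encodek]
    simp

end Vale.Agent.P113
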