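import Mathlib

/-!
# Uniformly computable families of real numbers

`CompReal x` says that the family `x : α → ℝ` of real numbers can be approximated by one
computable function, to any prescribed accuracy.
-/

namespace Vale.Agent.P113

/-- A triple `(p, q, r)` of natural numbers, read as the rational number `(p - q) / (r + 1)`. -/
abbrev QT : Type := ℕ × ℕ × ℕ

/-- The rational number named by a triple. -/
def qv (x : QT) : ℚ := ((x.1 : ℚ) - (x.2.1 : ℚ)) / ((x.2.2 : ℚ) + 1)

/-- A family of reals is uniformly computable: one computable function returns, for every index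
`a` and every `n`, a rational number within `2⁻ⁿ` of `x a`. -/
def CompReal {α : Type*} [Primcodable α] (x : α → ℝ) : Prop :=
  ∃ g : α × ℕ → QT, Computable g ∧ ∀ a n, |x a - ((qv (g (a, n)) : ℚ) : ℝ)| ≤ (1 / 2 : ℝ) ^ n

section arithmetic

def qadd (x y : QT) : QT :=
  (x.1 * (y.2.2 + 1) + y.1 * (x.2.2 + 1), x.2.1 * (y.2.2 + 1) + y.2.1 * (x.2.2 + 1),
    (x.2.2 + 1) * (y.2.2 + 1) - 1)

def qneg (x : QT) : QT := (x.2.1, x.1, x.2.2)

def qmul (x y : QT) : QT :=
  (x.1 * y.1 + x.2.1 * y.2.1, x.1 * y.2.1 + x.2.1 * y.1, (x.2.2 + 1) * (y.2.2 + 1) - 1)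

def qinv (x : QT) : QT :=
  if x.2.1 < x.1 then (x.2.2 + 1, 0, x.1 - x.2.1 - 1)
  else if x.1 < x.2.1 then (0, x.2.2 + 1, x.2.1 - x.1 - 1) else (0, 0, 0)

theorem qv_add (x y : QT) : qv (qadd x y) = qv x + qv y := by
  obtain ⟨p, q, r⟩ := x
  obtain ⟨p', q', r'⟩ := y
  have h : (((r + 1) * (r' + 1) - 1 : ℕ) : ℚ) + 1 = (r + 1) * (r' + 1) := by
    rw [Nat.cast_sub (Nat.succ_le_of_lt (by positivity))]; push_cast; ring
  simp only [qv, qadd]
  rw [h]
  push_cast
  field_simp
  ring

theorem qv_neg (x : QT) : qv (qneg x) = - qv x := by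
  simp only [qv, qneg]; ring

theorem qv_mul (x y : QT) : qv (qmul x y) = qv x * qv y := by
  obtain ⟨p, q, r⟩ := x
  obtain ⟨p', q', r'⟩ := y
  have h : (((r + 1) * (r' + 1) - 1 : ℕ) : ℚ) + 1 = (r + 1) * (r' + 1) := by
    rw [Nat.cast_sub (Nat.succ_le_of_lt (by positivity))]; push_cast; ring
  simp only [qv, qmul]
  rw [h]
  push_cast
  field_simp
  ring

theorem qv_inv (x : QT) : qv (qinv x) = (qv x)⁻¹ := by
  obtain ⟨p, q, r⟩ := x
  simp only [qv, qinv]
  split_ifs with h1 h2
  · have : ((p - q - 1 : ℕ) : ℚ) + 1 = p - q := by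
      rw [Nat.cast_sub (by omega), Nat.cast_sub (by omega)]; push_cast; ring
    simp only [this]
    push_cast
    rw [inv_div]
    ring
  · have : ((q - p - 1 : ℕ) : ℚ) + 1 = q - p := by
      rw [Nat.cast_sub (by omega), Nat.cast_sub (by omega)]; push_cast; ring
    simp only [this]
    push_cast
    rw [inv_div, ← neg_sub (q : ℚ) (p : ℚ), div_neg, zero_sub, neg_div]
  · have : p = q := by omega
    subst this
    simp

theorem qadd_prim : Primrec₂ qadd := by
  unfold qadd
  have a1 : Primrec fun z : QT × QT => z.1.1 := Primrec.fst.comp Primrec.fst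
  have a2 : Primrec fun z : QT × QT => z.1.2.1 := Primrec.fst.comp (Primrec.snd.comp Primrec.fst)
  have a3 : Primrec fun z : QT × QT => z.1.2.2 := Primrec.snd.comp (Primrec.snd.comp Primrec.fst)
  have b1 : Primrec fun z : QT × QT => z.2.1 := Primrec.fst.comp Primrec.snd
  have b2 : Primrec fun z : QT × QT => z.2.2.1 := Primrec.fst.comp (Primrec.snd.comp Primrec.snd)
  have b3 : Primrec fun z : QT × QT => z.2.2.2 := Primrec.snd.comp (Primrec.snd.comp Primrec.snd)
  have a3' := Primrec.succ.comp a3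
  have b3' := Primrec.succ.comp b3
  exact Primrec.pair
    (Primrec.nat_add.comp (Primrec.nat_mul.comp a1 b3') (Primrec.nat_mul.comp b1 a3'))
    (Primrec.pair
      (Primrec.nat_add.comp (Primrec.nat_mul.comp a2 b3') (Primrec.nat_mul.comp b2 a3'))
      (Primrec.nat_sub.comp (Primrec.nat_mul.comp a3' b3') (Primrec.const 1)))

theorem qneg_prim : Primrec qneg :=
  Primrec.pair (Primrec.fst.comp Primrec.snd)
    (Primrec.pair Primrec.fst (Primrec.snd.comp Primrec.snd))

theorem qmul_prim : Primrec₂ qmul := by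
  unfold qmul
  have a1 : Primrec fun z : QT × QT => z.1.1 := Primrec.fst.comp Primrec.fst
  have a2 : Primrec fun z : QT × QT => z.1.2.1 := Primrec.fst.comp (Primrec.snd.comp Primrec.fst)
  have a3 : Primrec fun z : QT × QT => z.1.2.2 := Primrec.snd.comp (Primrec.snd.comp Primrec.fst)
  have b1 : Primrec fun z : QT × QT => z.2.1 := Primrec.fst.comp Primrec.snd
  have b2 : Primrec fun z : QT × QT => z.2.2.1 := Primrec.fst.comp (Primrec.snd.comp Primrec.snd)
  have b3 : Primrec fun z : QT × QT => z.2.2.2 := Primrec.snd.comp (Primrec.snd.comp Primrec.snd)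
  have a3' := Primrec.succ.comp a3
  have b3' := Primrec.succ.comp b3
  exact Primrec.pair
    (Primrec.nat_add.comp (Primrec.nat_mul.comp a1 b1) (Primrec.nat_mul.comp a2 b2))
    (Primrec.pair
      (Primrec.nat_add.comp (Primrec.nat_mul.comp a1 b2) (Primrec.nat_mul.comp a2 b1))
      (Primrec.nat_sub.comp (Primrec.nat_mul.comp a3' b3') (Primrec.const 1)))

theorem qinv_prim : Primrec qinv := by
  unfold qinv
  have a1 : Primrec fun z : QT => z.1 := Primrec.fst
  have a2 : Primrec fun z : QT => z.2.1 := Primrec.fst.comp Primrec.snd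
  have a3 : Primrec fun z : QT => z.2.2 := Primrec.snd.comp Primrec.snd
  refine Primrec.ite (Primrec.nat_lt.comp a2 a1) ?_ (Primrec.ite (Primrec.nat_lt.comp a1 a2) ?_ ?_)
  · exact Primrec.pair (Primrec.succ.comp a3) (Primrec.pair (Primrec.const 0)
      (Primrec.nat_sub.comp (Primrec.nat_sub.comp a1 a2) (Primrec.const 1)))
  · exact Primrec.pair (Primrec.const 0) (Primrec.pair (Primrec.succ.comp a3)
      (Primrec.nat_sub.comp (Primrec.nat_sub.comp a2 a1) (Primrec.const 1)))
  · exact Primrec.const _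

/-- a natural number as a triple -/
def qnat (n : ℕ) : QT := (n, 0, 0)

theorem qv_nat (n : ℕ) : qv (qnat n) = n := by simp [qv, qnat]

theorem qnat_prim : Primrec qnat :=
  Primrec.pair Primrec.id (Primrec.const (0, 0))

/-- a natural number bound for the absolute value of the rational number -/
def qbound (x : QT) : ℕ := x.1 + x.2.1

theorem qbound_prim : Primrec qbound :=
  Primrec.nat_add.comp Primrec.fst (Primrec.fst.comp Primrec.snd)

theorem abs_qv_le (x : QT) : |((qv x : ℚ) : ℝ)| ≤ qbound x := by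
  obtain ⟨p, q, r⟩ := x
  simp only [qv, qbound]
  push_cast
  rw [abs_div]
  have h1 : (1 : ℝ) ≤ |(r : ℝ) + 1| := by
    rw [abs_of_nonneg (by positivity)]; linarith [Nat.cast_nonneg (α := ℝ) r]
  have h2 : |(p : ℝ) - q| ≤ p + q := by
    rw [abs_le]; constructor <;> linarith [Nat.cast_nonneg (α := ℝ) p, Nat.cast_nonneg (α := ℝ) q]
  calc |(p : ℝ) - q| / |(r : ℝ) + 1| ≤ |(p : ℝ) - q| := div_le_self (abs_nonneg _) h1
    _ ≤ _ := h2

end arithmetic

section closure

variable {α β : Type*} [Primcodable α] [Primcodable β]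

theorem CompReal.of_qt {g : α → QT} (hg : Computable g) :
    CompReal fun a => ((qv (g a) : ℚ) : ℝ) :=
  ⟨fun p => g p.1, hg.comp Computable.fst, fun a n => by simp⟩

theorem CompReal.congr {x y : α → ℝ} (hx : CompReal x) (h : ∀ a, x a = y a) : CompReal y := by
  have : x = y := funext h
  exact this ▸ hx

theorem CompReal.comp {x : β → ℝ} (hx : CompReal x) {f : α → β} (hf : Computable f) :
    CompReal fun a => x (f a) := by
  obtain ⟨g, hg, h⟩ := hx
  exact ⟨fun p => g (f p.1, p.2),
    hg.comp (Computable.pair (hf.comp Computable.fst) Computable.snd), fun a n => h (f a) n⟩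

theorem CompReal.nat {f : α → ℕ} (hf : Computable f) : CompReal fun a => (f a : ℝ) := by
  refine (CompReal.of_qt (qnat_prim.to_comp.comp hf)).congr fun a => ?_
  rw [qv_nat]; simp

theorem CompReal.natConst (n : ℕ) : CompReal fun _ : α => (n : ℝ) :=
  CompReal.nat (Computable.const n)

theorem CompReal.zero : CompReal fun _ : α => (0 : ℝ) :=
  (CompReal.natConst 0).congr fun a => by simp

theorem CompReal.one : CompReal fun _ : α => (1 : ℝ) :=
  (CompReal.natConst 1).congr fun a => by simp

theorem half_pow_succ_add (n : ℕ) : (1 / 2 : ℝ) ^ (n + 1) + (1 / 2 : ℝ) ^ (n + 1)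
    = (1 / 2 : ℝ) ^ n := by
  rw [pow_succ]; ring

theorem CompReal.add {x y : α → ℝ} (hx : CompReal x) (hy : CompReal y) :
    CompReal fun a => x a + y a := by
  obtain ⟨g, hg, h⟩ := hx
  obtain ⟨g', hg', h'⟩ := hy
  have hs : Computable fun p : α × ℕ => (p.1, p.2 + 1) :=
    Computable.pair Computable.fst (Computable.succ.comp Computable.snd)
  refine ⟨fun p => qadd (g (p.1, p.2 + 1)) (g' (p.1, p.2 + 1)),
    (qadd_prim.to_comp : Computable₂ qadd).comp (hg.comp hs) (hg'.comp hs), fun a n => ?_⟩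
  have h1 := h a (n + 1)
  have h2 := h' a (n + 1)
  rw [qv_add, ← half_pow_succ_add]
  push_cast
  calc |x a + y a - ((qv (g (a, n + 1)) : ℝ) + (qv (g' (a, n + 1)) : ℝ))|
      = |(x a - (qv (g (a, n + 1)) : ℝ)) + (y a - (qv (g' (a, n + 1)) : ℝ))| := by
        congr 1; ring
    _ ≤ _ := (abs_add_le _ _).trans (add_le_add h1 h2)

theorem CompReal.neg {x : α → ℝ} (hx : CompReal x) : CompReal fun a => - x a := by
  obtain ⟨g, hg, h⟩ := hx
  refine ⟨fun p => qneg (g p), qneg_prim.to_comp.comp hg, fun a n => ?_⟩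
  rw [qv_neg]
  push_cast
  rw [← abs_neg]
  convert h a n using 2
  ring

theorem CompReal.sub {x y : α → ℝ} (hx : CompReal x) (hy : CompReal y) :
    CompReal fun a => x a - y a :=
  (hx.add hy.neg).congr fun a => by ring

/-- precision amplifier: `B * (1/2)^(n+B) ≤ (1/2)^n` -/
theorem nat_mul_half_pow (B n : ℕ) : (B : ℝ) * (1 / 2 : ℝ) ^ (n + B) ≤ (1 / 2 : ℝ) ^ n := by
  rw [pow_add]
  have h : (B : ℝ) * (1 / 2 : ℝ) ^ B ≤ 1 := by
    have h2 : (B : ℝ) ≤ 2 ^ B := by exact_mod_cast Nat.lt_two_pow_self.le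
    calc (B : ℝ) * (1 / 2 : ℝ) ^ B ≤ 2 ^ B * (1 / 2 : ℝ) ^ B := by gcongr
      _ = 1 := by rw [← mul_pow]; norm_num
  calc (B : ℝ) * ((1 / 2 : ℝ) ^ n * (1 / 2 : ℝ) ^ B) = (1 / 2 : ℝ) ^ n * (B * (1 / 2 : ℝ) ^ B) := by
        ring
    _ ≤ (1 / 2 : ℝ) ^ n * 1 := by gcongr
    _ = _ := by ring

/-- a computable bound for a uniformly computable family -/
theorem CompReal.bound {x : α → ℝ} (hx : CompReal x) :
    ∃ b : α → ℕ, Computable b ∧ ∀ a, |x a| ≤ b a := by
  obtain ⟨g, hg, h⟩ := hx
  refine ⟨fun a => qbound (g (a, 0)) + 1, Computable.succ.comp (qbound_prim.to_comp.comp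
    (hg.comp (Computable.pair Computable.id (Computable.const 0)))), fun a => ?_⟩
  have h0 := h a 0
  have h1 := abs_qv_le (g (a, 0))
  push_cast
  have h2 : |x a| ≤ |x a - (qv (g (a, 0)) : ℝ)| + |(qv (g (a, 0)) : ℝ)| := by
    have := abs_add_le (x a - (qv (g (a, 0)) : ℝ)) (qv (g (a, 0)) : ℝ)
    simpa using this
  simp at h0 h1 ⊢
  linarith

/-- approximations with a computable precision function -/
theorem CompReal.of_prec {x : α → ℝ} (g : α × ℕ → QT) (hg : Computable g)
    (B : α → ℕ) (hB : Computable B)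
    (h : ∀ a n, |x a - ((qv (g (a, n)) : ℚ) : ℝ)| ≤ B a * (1 / 2 : ℝ) ^ n) : CompReal x := by
  refine ⟨fun p => g (p.1, p.2 + B p.1), hg.comp (Computable.pair Computable.fst
    ((Primrec.nat_add.to_comp : Computable₂ _).comp Computable.snd (hB.comp Computable.fst))),
    fun a n => ?_⟩
  exact (h a (n + B a)).trans (nat_mul_half_pow _ _)

theorem CompReal.mul {x y : α → ℝ} (hx : CompReal x) (hy : CompReal y) :
    CompReal fun a => x a * y a := by
  obtain ⟨b, hb, hbx⟩ := hx.bound
  obtain ⟨c, hc, hcy⟩ := hy.bound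
  obtain ⟨g, hg, h⟩ := hx
  obtain ⟨g', hg', h'⟩ := hy
  refine CompReal.of_prec (fun p => qmul (g p) (g' p))
    ((qmul_prim.to_comp : Computable₂ qmul).comp hg hg') (fun a => b a + (c a + 1))
    ((Primrec.nat_add.to_comp : Computable₂ _).comp hb (Computable.succ.comp hc)) fun a n => ?_
  rw [qv_mul]
  push_cast
  have h1 := h a n
  have h2 := h' a n
  set u := (qv (g (a, n)) : ℝ)
  set v := (qv (g' (a, n)) : ℝ)
  have hp : (1 / 2 : ℝ) ^ n ≤ 1 := pow_le_one₀ (by norm_num) (by norm_num)
  have hp0 : (0 : ℝ) ≤ (1 / 2 : ℝ) ^ n := by positivity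
  have hv : |v| ≤ c a + 1 := by
    have : |v| ≤ |y a| + |y a - v| := by
      have := abs_add_le (y a) (-(y a - v))
      rw [abs_neg] at this
      simpa using this
    linarith [hcy a]
  calc |x a * y a - u * v| = |x a * (y a - v) + (x a - u) * v| := by congr 1; ring
    _ ≤ |x a| * |y a - v| + |x a - u| * |v| := by
        refine (abs_add_le _ _).trans ?_
        rw [abs_mul, abs_mul]
    _ ≤ b a * (1 / 2 : ℝ) ^ n + (1 / 2 : ℝ) ^ n * (c a + 1) := by
        gcongr
        exact hbx a
    _ = _ := by ring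

theorem CompReal.lim {x : α → ℝ} {y : α × ℕ → ℝ} (hy : CompReal y)
    (h : ∀ a n, |x a - y (a, n)| ≤ (1 / 2 : ℝ) ^ n) : CompReal x := by
  obtain ⟨g, hg, hgy⟩ := hy
  have hs : Computable fun p : α × ℕ => (((p.1, p.2 + 1), p.2 + 1) : (α × ℕ) × ℕ) :=
    Computable.pair (Computable.pair Computable.fst (Computable.succ.comp Computable.snd))
      (Computable.succ.comp Computable.snd)
  refine ⟨fun p => g ((p.1, p.2 + 1), p.2 + 1), hg.comp hs, fun a n => ?_⟩
  rw [← half_pow_succ_add]
  have h1 := h a (n + 1)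
  have h2 := hgy (a, n + 1) (n + 1)
  calc _ = |(x a - y (a, n + 1)) + (y (a, n + 1) - (qv (g ((a, n + 1), n + 1)) : ℝ))| := by
        congr 1; ring
    _ ≤ _ := (abs_add_le _ _).trans (add_le_add h1 h2)

theorem CompReal.cond {c : α → Bool} (hc : Computable c) {x y : α → ℝ} (hx : CompReal x)
    (hy : CompReal y) : CompReal fun a => bif c a then x a else y a := by
  obtain ⟨g, hg, h⟩ := hx
  obtain ⟨g', hg', h'⟩ := hy
  refine ⟨fun p => bif c p.1 then g p else g' p,
    Computable.cond (hc.comp Computable.fst) hg hg', fun a n => ?_⟩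
  cases hca : c a
  · simpa [hca] using h' a n
  · simpa [hca] using h a n

theorem CompReal.ite {c : α → Prop} [DecidablePred c] (hc : Computable fun a => decide (c a))
    {x y : α → ℝ} (hx : CompReal x) (hy : CompReal y) :
    CompReal fun a => if c a then x a else y a := by
  refine (CompReal.cond hc hx hy).congr fun a => ?_
  by_cases h : c a <;> simp [h]

/-- finite sums with a computable number of terms -/
theorem CompReal.sum {y : α × ℕ → ℝ} (hy : CompReal y) {f : α → ℕ} (hf : Computable f) :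
    CompReal fun a => ∑ i ∈ Finset.range (f a), y (a, i) := by
  obtain ⟨g, hg, h⟩ := hy
  -- partial sums at precision `m`
  let S : (α × ℕ) × ℕ → QT := fun p =>
    Nat.rec (motive := fun _ => QT) (0, 0, 0) (fun i s => qadd s (g ((p.1.1, i), p.2))) p.1.2
  have hS : Computable S := by
    refine Computable.nat_rec (f := fun p : (α × ℕ) × ℕ => p.1.2)
      (h := fun (p : (α × ℕ) × ℕ) (q : ℕ × QT) => qadd q.2 (g ((p.1.1, q.1), p.2)))
      (Computable.snd.comp Computable.fst) (Computable.const _) ?_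
    refine (qadd_prim.to_comp : Computable₂ qadd).comp (Computable.snd.comp Computable.snd) ?_
    refine hg.comp (Computable.pair (Computable.pair ?_ ?_) ?_)
    · exact Computable.fst.comp (Computable.fst.comp Computable.fst)
    · exact Computable.fst.comp Computable.snd
    · exact Computable.snd.comp Computable.fst
  refine CompReal.of_prec (fun p => S ((p.1, f p.1), p.2))
    (hS.comp (Computable.pair (Computable.pair Computable.fst (hf.comp Computable.fst))
      Computable.snd)) f hf fun a n => ?_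
  have key : ∀ k, |∑ i ∈ Finset.range k, y (a, i) - ((qv (S ((a, k), n)) : ℚ) : ℝ)|
      ≤ k * (1 / 2 : ℝ) ^ n := by
    intro k
    induction k with
    | zero => simp [S, qv]
    | succ k ih =>
      rw [Finset.sum_range_succ]
      have : S ((a, k + 1), n) = qadd (S ((a, k), n)) (g ((a, k), n)) := rfl
      rw [this, qv_add]
      push_cast
      have h2 := h (a, k) n
      calc _ = |(∑ i ∈ Finset.range k, y (a, i) - (qv (S ((a, k), n)) : ℝ)) +
            (y (a, k) - (qv (g ((a, k), n)) : ℝ))| := by congr 1; ring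
        _ ≤ _ := (abs_add_le _ _).trans (add_le_add ih h2)
        _ = _ := by ring
  exact key (f a)

/-- finite sums over computable lists -/
theorem CompReal.listSum {y : α × β → ℝ} (hy : CompReal y) {l : α → List β}
    (hl : Computable l) : CompReal fun a => ((l a).map fun b => y (a, b)).sum := by
  -- evaluate at the entries, with junk value `0` out of range
  have h1 : CompReal fun p : α × ℕ => (((l p.1)[p.2]?).map fun b => y (p.1, b)).getD 0 := by
    obtain ⟨g, hg, h⟩ := hy
    have hl' : Computable fun p : (α × ℕ) × ℕ => (l p.1.1)[p.1.2]? :=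
      (Computable.list_getElem? : Computable₂ _).comp
        (hl.comp (Computable.fst.comp Computable.fst)) (Computable.snd.comp Computable.fst)
    refine ⟨fun p => (((l p.1.1)[p.1.2]?).map fun b => g ((p.1.1, b), p.2)).getD (0, 0, 0), ?_,
      fun p n => ?_⟩
    · refine Computable.option_getD (Computable.option_map hl' ?_) (Computable.const _)
      refine hg.comp (Computable.pair (Computable.pair ?_ Computable.snd) ?_)
      · exact Computable.fst.comp (Computable.fst.comp Computable.fst)
      · exact Computable.snd.comp Computable.fst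
    · cases hc : (l p.1)[p.2]? with
      | none => simp [hc, qv]
      | some b => simpa [hc] using h (p.1, b) n
  refine (h1.sum (Computable.list_length.comp hl)).congr fun a => ?_
  simp only
  generalize l a = L
  induction L using List.reverseRecOn with
  | nil => simp
  | append_singleton L b ih =>
    have e : ∀ i ∈ Finset.range L.length, (((L ++ [b])[i]?).map fun b => y (a, b)).getD 0 =
        ((L[i]?).map fun b => y (a, b)).getD 0 := fun i hi => by
      rw [List.getElem?_append_left (Finset.mem_range.1 hi)]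
    rw [List.length_append, List.length_singleton, Finset.sum_range_succ, List.map_append,
      List.sum_append, ← ih, Finset.sum_congr rfl e]
    simp

/-- powers with computable natural exponents -/
theorem CompReal.pow {x : α → ℝ} (hx : CompReal x) {f : α → ℕ} (hf : Computable f) :
    CompReal fun a => x a ^ f a := by
  obtain ⟨b, hb, hbx⟩ := hx.bound
  obtain ⟨g, hg, h⟩ := hx
  let S : (α × ℕ) × ℕ → QT := fun p =>
    Nat.rec (motive := fun _ => QT) (1, 0, 0) (fun _ s => qmul s (g (p.1.1, p.2))) p.1.2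
  have hS : Computable S := by
    refine Computable.nat_rec (f := fun p : (α × ℕ) × ℕ => p.1.2)
      (h := fun (p : (α × ℕ) × ℕ) (q : ℕ × QT) => qmul q.2 (g (p.1.1, p.2)))
      (Computable.snd.comp Computable.fst) (Computable.const _) ?_
    refine (qmul_prim.to_comp : Computable₂ qmul).comp (Computable.snd.comp Computable.snd) ?_
    refine hg.comp (Computable.pair ?_ ?_)
    · exact Computable.fst.comp (Computable.fst.comp Computable.fst)
    · exact Computable.snd.comp Computable.fst
  have hpow : Computable fun a => f a * (b a + 1) ^ f a := by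
    have e : Computable fun p : ℕ × ℕ => p.1 ^ p.2 := by
      have := (Primrec₂.unpaired'.1 Nat.Primrec.pow)
      exact this.to_comp
    exact (Primrec.nat_mul.to_comp : Computable₂ _).comp hf
      (e.comp (Computable.pair (Computable.succ.comp hb) hf))
  refine CompReal.of_prec (fun p => S ((p.1, f p.1), p.2))
    (hS.comp (Computable.pair (Computable.pair Computable.fst (hf.comp Computable.fst))
      Computable.snd)) (fun a => f a * (b a + 1) ^ f a) hpow fun a n => ?_
  set q := (qv (g (a, n)) : ℝ) with hq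
  have hSq : ∀ k, ((qv (S ((a, k), n)) : ℚ) : ℝ) = q ^ k := by
    intro k
    induction k with
    | zero => simp [S, qv]
    | succ k ih =>
      have : S ((a, k + 1), n) = qmul (S ((a, k), n)) (g (a, n)) := rfl
      rw [this, qv_mul, pow_succ]
      push_cast
      rw [ih]
  have hp : (1 / 2 : ℝ) ^ n ≤ 1 := pow_le_one₀ (by norm_num) (by norm_num)
  have hp0 : (0 : ℝ) ≤ (1 / 2 : ℝ) ^ n := by positivity
  have h1 := h a n
  rw [← hq] at h1
  have hxb : |x a| ≤ (b a + 1 : ℝ) := (hbx a).trans (by linarith)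
  have hqb : |q| ≤ (b a + 1 : ℝ) := by
    have : |q| ≤ |x a| + |x a - q| := by
      have := abs_add_le (x a) (-(x a - q))
      rw [abs_neg] at this
      simpa using this
    linarith [hbx a]
  have key : ∀ k : ℕ, |x a ^ k - q ^ k| ≤ k * (b a + 1 : ℝ) ^ k * (1 / 2 : ℝ) ^ n := by
    intro k
    induction k with
    | zero => simp
    | succ k ih =>
      have hB : (1 : ℝ) ≤ b a + 1 := by linarith [Nat.cast_nonneg (α := ℝ) (b a)]
      have e : x a ^ (k + 1) - q ^ (k + 1) = (x a ^ k - q ^ k) * x a + q ^ k * (x a - q) := by ring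
      rw [e]
      calc _ ≤ |x a ^ k - q ^ k| * |x a| + |q| ^ k * |x a - q| := by
            refine (abs_add_le _ _).trans ?_
            rw [abs_mul, abs_mul, abs_pow]
        _ ≤ (k * (b a + 1 : ℝ) ^ k * (1 / 2 : ℝ) ^ n) * (b a + 1) +
            (b a + 1 : ℝ) ^ k * (1 / 2 : ℝ) ^ n := by gcongr
        _ ≤ (k * (b a + 1 : ℝ) ^ k * (1 / 2 : ℝ) ^ n) * (b a + 1) +
            (b a + 1 : ℝ) ^ k * (b a + 1) * (1 / 2 : ℝ) ^ n := by
            gcongr
            exact le_mul_of_one_le_right (by positivity) hB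
        _ = _ := by push_cast; ring
  rw [hSq]
  push_cast
  exact key (f a)

theorem CompReal.prod {y : α × ℕ → ℝ} (hy : CompReal y) {f : α → ℕ} (hf : Computable f)
    (hb : ∀ p, |y p| ≤ 2) :
    CompReal fun a => ∏ i ∈ Finset.range (f a), y (a, i) := by
  obtain ⟨g, hg, h⟩ := hy
  let S : (α × ℕ) × ℕ → QT := fun p =>
    Nat.rec (motive := fun _ => QT) (1, 0, 0) (fun i s => qmul s (g ((p.1.1, i), p.2))) p.1.2
  have hS : Computable S := by
    refine Computable.nat_rec (f := fun p : (α × ℕ) × ℕ => p.1.2)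
      (h := fun (p : (α × ℕ) × ℕ) (q : ℕ × QT) => qmul q.2 (g ((p.1.1, q.1), p.2)))
      (Computable.snd.comp Computable.fst) (Computable.const _) ?_
    refine (qmul_prim.to_comp : Computable₂ qmul).comp (Computable.snd.comp Computable.snd) ?_
    refine hg.comp (Computable.pair (Computable.pair ?_ ?_) ?_)
    · exact Computable.fst.comp (Computable.fst.comp Computable.fst)
    · exact Computable.fst.comp Computable.snd
    · exact Computable.snd.comp Computable.fst
  have hpow : Computable fun a => f a * 3 ^ f a := by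
    have e : Computable fun p : ℕ × ℕ => p.1 ^ p.2 := by
      have := (Primrec₂.unpaired'.1 Nat.Primrec.pow)
      exact this.to_comp
    exact (Primrec.nat_mul.to_comp : Computable₂ _).comp hf
      (e.comp (Computable.pair (Computable.const 3) hf))
  refine CompReal.of_prec (fun p => S ((p.1, f p.1), p.2))
    (hS.comp (Computable.pair (Computable.pair Computable.fst (hf.comp Computable.fst))
      Computable.snd)) (fun a => f a * 3 ^ f a) hpow fun a n => ?_
  have hp : (1 / 2 : ℝ) ^ n ≤ 1 := pow_le_one₀ (by norm_num) (by norm_num)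
  have hp0 : (0 : ℝ) ≤ (1 / 2 : ℝ) ^ n := by positivity
  have hgb : ∀ i, |((qv (g ((a, i), n)) : ℚ) : ℝ)| ≤ 3 := by
    intro i
    have h1 := h (a, i) n
    have := abs_add_le (y (a, i)) (-(y (a, i) - (qv (g ((a, i), n)) : ℝ)))
    rw [abs_neg] at this
    have e : y (a, i) + -(y (a, i) - (qv (g ((a, i), n)) : ℝ)) = (qv (g ((a, i), n)) : ℝ) := by ring
    rw [e] at this
    linarith [hb (a, i)]
  have key : ∀ k : ℕ, |∏ i ∈ Finset.range k, y (a, i) - ((qv (S ((a, k), n)) : ℚ) : ℝ)|
        ≤ k * 3 ^ k * (1 / 2 : ℝ) ^ n ∧ |((qv (S ((a, k), n)) : ℚ) : ℝ)| ≤ 3 ^ k := by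
    intro k
    induction k with
    | zero => simp [S, qv]
    | succ k ih =>
      rw [Finset.prod_range_succ]
      have : S ((a, k + 1), n) = qmul (S ((a, k), n)) (g ((a, k), n)) := rfl
      rw [this, qv_mul]
      push_cast
      have h2 := h (a, k) n
      constructor
      · have e : (∏ i ∈ Finset.range k, y (a, i)) * y (a, k) -
            (qv (S ((a, k), n)) : ℝ) * (qv (g ((a, k), n)) : ℝ) =
            (∏ i ∈ Finset.range k, y (a, i) - (qv (S ((a, k), n)) : ℝ)) * y (a, k) +
            (qv (S ((a, k), n)) : ℝ) * (y (a, k) - (qv (g ((a, k), n)) : ℝ)) := by ring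
        rw [e]
        calc _ ≤ |∏ i ∈ Finset.range k, y (a, i) - (qv (S ((a, k), n)) : ℝ)| * |y (a, k)| +
              |(qv (S ((a, k), n)) : ℝ)| * |y (a, k) - (qv (g ((a, k), n)) : ℝ)| := by
              refine (abs_add_le _ _).trans ?_
              rw [abs_mul, abs_mul]
          _ ≤ (k * 3 ^ k * (1 / 2 : ℝ) ^ n) * 3 + 3 ^ k * (1 / 2 : ℝ) ^ n := by
              have hy3 : |y (a, k)| ≤ 3 := (hb (a, k)).trans (by norm_num)
              gcongr
              · exact ih.1
              · exact ih.2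
          _ ≤ (k * 3 ^ k * (1 / 2 : ℝ) ^ n) * 3 + 3 ^ k * 3 * (1 / 2 : ℝ) ^ n := by
              gcongr
              exact le_mul_of_one_le_right (by positivity) (by norm_num)
          _ = _ := by ring
      · rw [abs_mul, pow_succ]
        exact mul_le_mul ih.2 (hgb k) (abs_nonneg _) (by positivity)
  have := (key (f a)).1
  push_cast
  exact this

end closure

section pi

theorem CompReal.wallis : CompReal fun k : ℕ => Real.Wallis.W k := by
  have hy : CompReal fun p : ℕ × ℕ =>
      ((2 * (p.2 : ℝ) + 2) / (2 * p.2 + 1) * ((2 * p.2 + 2) / (2 * p.2 + 3))) := by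
    have h1 : Primrec fun p : ℕ × ℕ =>
        qmul (qmul (qnat (2 * p.2 + 2)) (qinv (qnat (2 * p.2 + 1))))
        (qmul (qnat (2 * p.2 + 2)) (qinv (qnat (2 * p.2 + 3)))) := by
      have e1 : Primrec fun p : ℕ × ℕ => 2 * p.2 := Primrec.nat_double.comp Primrec.snd
      have e2 : Primrec fun p : ℕ × ℕ => qnat (2 * p.2 + 2) :=
        qnat_prim.comp (Primrec.succ.comp (Primrec.succ.comp e1))
      have e3 : Primrec fun p : ℕ × ℕ => qinv (qnat (2 * p.2 + 1)) :=
        qinv_prim.comp (qnat_prim.comp (Primrec.succ.comp e1))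
      have e4 : Primrec fun p : ℕ × ℕ => qinv (qnat (2 * p.2 + 3)) :=
        qinv_prim.comp (qnat_prim.comp (Primrec.succ.comp (Primrec.succ.comp
          (Primrec.succ.comp e1))))
      exact qmul_prim.comp (qmul_prim.comp e2 e3) (qmul_prim.comp e2 e4)
    refine (CompReal.of_qt h1.to_comp).congr fun p => ?_
    simp only [qv_mul, qv_inv, qv_nat]
    push_cast
    ring
  refine (hy.prod (f := fun k : ℕ => k) Computable.id fun p => ?_).congr fun k => rfl
  have h0 : (0 : ℝ) ≤ p.2 := Nat.cast_nonneg _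
  rw [abs_of_nonneg (by positivity), div_mul_div_comm, div_le_iff₀ (by positivity)]
  nlinarith

/-- `π` is computable (Wallis product). -/
theorem CompReal.pi {α : Type*} [Primcodable α] : CompReal fun _ : α => Real.pi := by
  have h2 : CompReal fun p : α × ℕ => 2 * Real.Wallis.W (2 ^ (p.2 + 1)) := by
    have e : Computable fun p : α × ℕ => 2 ^ (p.2 + 1) := by
      have e0 : Computable fun p : ℕ × ℕ => p.1 ^ p.2 := by
        have := (Primrec₂.unpaired'.1 Nat.Primrec.pow)
        exact this.to_comp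
      exact e0.comp (Computable.pair (Computable.const 2) (Computable.succ.comp Computable.snd))
    refine ((CompReal.natConst 2).mul (CompReal.wallis.comp e)).congr fun a => ?_
    norm_num
  refine CompReal.lim h2 fun a n => ?_
  set k : ℕ := 2 ^ (n + 1) with hk
  have hkr : (k : ℝ) = 2 ^ (n + 1) := by rw [hk]; push_cast; ring
  have hle := Real.Wallis.W_le k
  have hge := Real.Wallis.le_W k
  have hk0 : (0 : ℝ) < k := by rw [hkr]; positivity
  have hpi := Real.pi_le_four
  have hpi0 := Real.pi_pos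
  rw [abs_of_nonneg (by linarith)]
  have h3 : (Real.pi / 2) - Real.Wallis.W k ≤ (Real.pi / 2) / (2 * k + 2) := by
    have : (Real.pi / 2) - (2 * (k : ℝ) + 1) / (2 * k + 2) * (Real.pi / 2)
        = (Real.pi / 2) / (2 * k + 2) := by field_simp; ring
    linarith
  have h4 : (Real.pi / 2) / (2 * k + 2) ≤ 1 / k := by
    rw [div_le_div_iff₀ (by positivity) hk0]
    nlinarith
  have h5 : (1 : ℝ) / k = (1 / 2) ^ (n + 1) := by
    rw [hkr, one_div, one_div, inv_pow]
  rw [h5, pow_succ] at h4
  linarith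

end pi

section invexp

variable {α : Type*} [Primcodable α]

theorem natPow_computable : Computable₂ fun a b : ℕ => a ^ b :=
  (Primrec₂.unpaired'.1 Nat.Primrec.pow).to_comp

/-- Reciprocals of uniformly computable families without zeros. -/
theorem CompReal.inv {x : α → ℝ} (hx : CompReal x) (h0 : ∀ a, x a ≠ 0) :
    CompReal fun a => (x a)⁻¹ := by
  obtain ⟨g, hg, h⟩ := hx
  -- search for a precision at which `x a` is visibly nonzero
  let P : α → ℕ → Bool := fun a N =>
    decide (2 * ((g (a, N)).2.2 + 1) < ((g (a, N)).1 - (g (a, N)).2.1) * 2 ^ N +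
      ((g (a, N)).2.1 - (g (a, N)).1) * 2 ^ N)
  have hPspec : ∀ a N, P a N = true ↔ 2 * (1 / 2 : ℝ) ^ N < |((qv (g (a, N)) : ℚ) : ℝ)| := by
    intro a N
    simp only [P, decide_eq_true_eq, qv]
    generalize g (a, N) = z
    obtain ⟨p, q, r⟩ := z
    simp only
    have hr : (0 : ℝ) < (r : ℝ) + 1 := by positivity
    have h2 : (0 : ℝ) < 2 ^ N := by positivity
    push_cast
    rw [abs_div, abs_of_pos hr, lt_div_iff₀ hr, one_div, inv_pow]
    have e1 : (((p - q) * 2 ^ N + (q - p) * 2 ^ N : ℕ) : ℝ) = |(p : ℝ) - q| * 2 ^ N := by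
      rcases le_total p q with hpq | hpq
      · rw [Nat.sub_eq_zero_of_le hpq, zero_mul, zero_add]
        push_cast [Nat.cast_sub hpq]
        rw [abs_sub_comm, abs_of_nonneg (by simpa using hpq)]
      · rw [Nat.sub_eq_zero_of_le hpq, zero_mul, add_zero]
        push_cast [Nat.cast_sub hpq]
        rw [abs_of_nonneg (by simpa using hpq)]
    have e2 : (2 * (r + 1) < (p - q) * 2 ^ N + (q - p) * 2 ^ N) ↔
        (((2 * (r + 1) : ℕ) : ℝ) < (((p - q) * 2 ^ N + (q - p) * 2 ^ N : ℕ) : ℝ)) :=
      Nat.cast_lt.symm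
    rw [e2, e1]
    push_cast
    constructor
    · intro h
      have : 2 * ((2 : ℝ) ^ N)⁻¹ * (r + 1) = 2 * (r + 1) / 2 ^ N := by field_simp
      rw [this, div_lt_iff₀ h2]
      exact h
    · intro h
      have : 2 * ((2 : ℝ) ^ N)⁻¹ * (r + 1) = 2 * (r + 1) / 2 ^ N := by field_simp
      rw [this, div_lt_iff₀ h2] at h
      exact h
  have hP : Computable₂ P := by
    have hz : Computable fun p : α × ℕ => g p := hg
    have c1 : Computable fun p : α × ℕ => (g p).1 := Computable.fst.comp hz
    have c2 : Computable fun p : α × ℕ => (g p).2.1 :=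
      Computable.fst.comp (Computable.snd.comp hz)
    have c3 : Computable fun p : α × ℕ => (g p).2.2 :=
      Computable.snd.comp (Computable.snd.comp hz)
    have cp : Computable fun p : α × ℕ => 2 ^ p.2 :=
      natPow_computable.comp (Computable.const 2) Computable.snd
    have cl : Computable fun p : α × ℕ => 2 * ((g p).2.2 + 1) :=
      (Primrec.nat_mul.to_comp : Computable₂ _).comp (Computable.const 2)
        (Computable.succ.comp c3)
    have cr : Computable fun p : α × ℕ => ((g p).1 - (g p).2.1) * 2 ^ p.2 +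
        ((g p).2.1 - (g p).1) * 2 ^ p.2 :=
      (Primrec.nat_add.to_comp : Computable₂ _).comp
        ((Primrec.nat_mul.to_comp : Computable₂ _).comp
          ((Primrec.nat_sub.to_comp : Computable₂ _).comp c1 c2) cp)
        ((Primrec.nat_mul.to_comp : Computable₂ _).comp
          ((Primrec.nat_sub.to_comp : Computable₂ _).comp c2 c1) cp)
    have := (Primrec.nat_lt.decide.to_comp : Computable₂ _).comp cl cr
    exact this
  have hex : ∀ a, ∃ N, P a N = true := by
    intro a
    obtain ⟨N, hN⟩ := exists_pow_lt_of_lt_one (show (0 : ℝ) < |x a| / 3 by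
      have := abs_pos.2 (h0 a); positivity) (show (1 / 2 : ℝ) < 1 by norm_num)
    refine ⟨N, (hPspec a N).2 ?_⟩
    have h1 := h a N
    have h2 := abs_add_le (x a - (qv (g (a, N)) : ℝ)) (qv (g (a, N)) : ℝ)
    rw [sub_add_cancel] at h2
    linarith
  -- the search function
  have hN : ∃ N : α → ℕ, Computable N ∧ ∀ a, P a (N a) = true := by
    classical
    refine ⟨fun a => Nat.find (hex a), ?_, fun a => Nat.find_spec (hex a)⟩
    have hpr : Partrec fun a => Nat.rfind fun n => Part.some (P a n) :=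
      Partrec.rfind (hP.partrec₂)
    refine Partrec.of_eq_tot hpr fun a => ?_
    refine Nat.mem_rfind.2 ⟨?_, ?_⟩
    · simpa using (Nat.find_spec (hex a)).symm
    · intro m hm
      have := Nat.find_min (hex a) hm
      simp only [Part.mem_some_iff]
      exact (Bool.eq_false_iff.2 this).symm
  obtain ⟨N, hNc, hNs⟩ := hN
  -- the lower bound
  have hlow : ∀ a, (1 / 2 : ℝ) ^ N a ≤ |x a| := by
    intro a
    have h1 := (hPspec a (N a)).1 (hNs a)
    have h2 := h a (N a)
    have h3 := abs_add_le ((qv (g (a, N a)) : ℝ) - x a) (x a)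
    rw [sub_add_cancel, abs_sub_comm] at h3
    linarith
  refine CompReal.of_prec (fun p => qinv (g (p.1, p.2 + N p.1 + 1)))
    (qinv_prim.to_comp.comp (hg.comp (Computable.pair Computable.fst (Computable.succ.comp
      ((Primrec.nat_add.to_comp : Computable₂ _).comp Computable.snd (hNc.comp Computable.fst))))))
    (fun a => 2 ^ N a) (natPow_computable.comp (Computable.const 2) hNc) fun a n => ?_
  have h1 := h a (n + N a + 1)
  rw [qv_inv]
  push_cast
  set q := (qv (g (a, n + N a + 1)) : ℝ)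
  have hl := hlow a
  set L : ℝ := (1 / 2 : ℝ) ^ N a with hL
  have hLpos : 0 < L := by positivity
  have hpn : (1 / 2 : ℝ) ^ (n + N a + 1) = (1 / 2) ^ n * L * (1 / 2) := by
    rw [pow_succ, pow_add]
  rw [hpn] at h1
  have hn1 : (1 / 2 : ℝ) ^ n ≤ 1 := pow_le_one₀ (by norm_num) (by norm_num)
  have hn0 : (0 : ℝ) < (1 / 2 : ℝ) ^ n := by positivity
  have hq : L / 2 ≤ |q| := by
    have h3 := abs_add_le (x a - q) q
    rw [sub_add_cancel] at h3
    have : (1 / 2 : ℝ) ^ n * L * (1 / 2) ≤ L / 2 := by nlinarith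
    linarith
  have hqpos : 0 < |q| := by linarith
  have hq0 : q ≠ 0 := abs_pos.1 hqpos
  have e : (x a)⁻¹ - q⁻¹ = (q - x a) * ((x a)⁻¹ * q⁻¹) := by
    field_simp [h0 a, hq0]
  rw [e, abs_mul, abs_mul, abs_inv, abs_inv, abs_sub_comm]
  have hxp : 0 < |x a| := by linarith
  have i1 : |x a|⁻¹ ≤ L⁻¹ := inv_anti₀ hLpos hl
  have i2 : |q|⁻¹ ≤ (L / 2)⁻¹ := inv_anti₀ (by positivity) hq
  have i3 : L⁻¹ = 2 ^ N a := by rw [hL, one_div, inv_pow, inv_inv]
  calc |x a - q| * (|x a|⁻¹ * |q|⁻¹) ≤ ((1 / 2) ^ n * L * (1 / 2)) * (L⁻¹ * (L / 2)⁻¹) := by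
        gcongr
    _ = L⁻¹ * (1 / 2) ^ n := by field_simp
    _ = _ := by simp [i3]

/-- the elementary estimate behind `exp x = lim (1 + x/N)^N` -/
theorem abs_exp_sub_pow_le {x B : ℝ} {N : ℕ} (hxB : |x| ≤ B) (hBN : B ≤ N) (hN : 0 < N) :
    |Real.exp x - (1 + x / N) ^ N| ≤ Real.exp B * B ^ 2 / N := by
  have hN' : (0 : ℝ) < N := by exact_mod_cast hN
  have hB0 : 0 ≤ B := (abs_nonneg x).trans hxB
  set y := x / N with hy
  have hyB : |y| ≤ B / N := by
    rw [hy, abs_div, abs_of_pos hN']; gcongr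
  have hy1 : |y| ≤ 1 := hyB.trans ((div_le_one hN').2 hBN)
  have h1 : |Real.exp y - (1 + y)| ≤ y ^ 2 := by
    have := Real.abs_exp_sub_one_sub_id_le hy1
    rwa [sub_sub] at this
  have hE1 : |Real.exp y| ≤ Real.exp (B / N) := by
    rw [abs_of_pos (Real.exp_pos _)]
    exact Real.exp_le_exp.2 ((le_abs_self y).trans hyB)
  have hE2 : |1 + y| ≤ Real.exp (B / N) := by
    have h3 : |1 + y| ≤ 1 + |y| := by
      have := abs_add_le 1 y; simpa using this
    have h4 := Real.add_one_le_exp (B / N)
    linarith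
  have hE0 : 1 ≤ Real.exp (B / N) := Real.one_le_exp (by positivity)
  have key : ∀ k : ℕ, |Real.exp y ^ k - (1 + y) ^ k| ≤ k * Real.exp (B / N) ^ k * y ^ 2 := by
    intro k
    induction k with
    | zero => simp
    | succ k ih =>
      have e : Real.exp y ^ (k + 1) - (1 + y) ^ (k + 1) =
          (Real.exp y ^ k - (1 + y) ^ k) * Real.exp y + (1 + y) ^ k * (Real.exp y - (1 + y)) := by
        ring
      rw [e]
      calc _ ≤ |Real.exp y ^ k - (1 + y) ^ k| * |Real.exp y| +
            |1 + y| ^ k * |Real.exp y - (1 + y)| := by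
            refine (abs_add_le _ _).trans ?_
            rw [abs_mul, abs_mul, abs_pow]
        _ ≤ (k * Real.exp (B / N) ^ k * y ^ 2) * Real.exp (B / N) +
            Real.exp (B / N) ^ k * y ^ 2 := by gcongr
        _ ≤ (k * Real.exp (B / N) ^ k * y ^ 2) * Real.exp (B / N) +
            Real.exp (B / N) ^ k * Real.exp (B / N) * y ^ 2 := by
            gcongr
            exact le_mul_of_one_le_right (by positivity) hE0
        _ = _ := by push_cast; ring
  have h5 : Real.exp y ^ N = Real.exp x := by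
    rw [← Real.exp_nat_mul, hy, mul_div_cancel₀ _ hN'.ne']
  have h6 : Real.exp (B / N) ^ N = Real.exp B := by
    rw [← Real.exp_nat_mul, mul_div_cancel₀ _ hN'.ne']
  have h7 := key N
  rw [h5, h6] at h7
  have h8 : y ^ 2 ≤ (B / N) ^ 2 := by
    rw [← sq_abs y]; gcongr
  calc _ ≤ N * Real.exp B * y ^ 2 := h7
    _ ≤ N * Real.exp B * (B / N) ^ 2 := by gcongr
    _ = _ := by field_simp

/-- The exponential of a uniformly computable family. -/
theorem CompReal.exp {x : α → ℝ} (hx : CompReal x) : CompReal fun a => Real.exp (x a) := by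
  obtain ⟨b, hb, hbx⟩ := hx.bound
  -- number of factors
  let N : α × ℕ → ℕ := fun p => 3 ^ (b p.1) * (b p.1 + 1) ^ 2 * 2 ^ p.2
  have hN : Computable N := by
    have c1 : Computable fun p : α × ℕ => b p.1 := hb.comp Computable.fst
    have c2 : Computable fun p : α × ℕ => 3 ^ (b p.1) :=
      natPow_computable.comp (Computable.const 3) c1
    have c3 : Computable fun p : α × ℕ => (b p.1 + 1) ^ 2 :=
      natPow_computable.comp (Computable.succ.comp c1) (Computable.const 2)
    have c4 : Computable fun p : α × ℕ => 2 ^ p.2 :=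
      natPow_computable.comp (Computable.const 2) Computable.snd
    exact (Primrec.nat_mul.to_comp : Computable₂ _).comp
      ((Primrec.nat_mul.to_comp : Computable₂ _).comp c2 c3) c4
  have hbase : CompReal fun p : α × ℕ => 1 + x p.1 / N p := by
    have c : CompReal fun p : α × ℕ => ((qv (qinv (qnat (N p))) : ℚ) : ℝ) :=
      CompReal.of_qt (qinv_prim.to_comp.comp (qnat_prim.to_comp.comp hN))
    refine (CompReal.one.add ((hx.comp Computable.fst).mul c)).congr fun p => ?_
    rw [qv_inv, qv_nat]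
    push_cast
    rw [div_eq_mul_inv]
  have hy := hbase.pow hN
  refine CompReal.lim hy fun a n => ?_
  set B : ℝ := (b a : ℝ) with hB
  have hBN : B ≤ N (a, n) := by
    have : b a ≤ N (a, n) := by
      simp only [N]
      have h1 : b a + 1 ≤ (b a + 1) ^ 2 := Nat.le_self_pow (by norm_num) _
      have h2 : 1 ≤ 3 ^ b a := Nat.one_le_pow _ _ (by norm_num)
      have h3 : 1 ≤ 2 ^ n := Nat.one_le_pow _ _ (by norm_num)
      calc b a ≤ 1 * (b a + 1) ^ 2 * 1 := by omega
        _ ≤ 3 ^ b a * (b a + 1) ^ 2 * 2 ^ n := by gcongr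
    rw [hB]
    exact_mod_cast this
  have hNpos : 0 < N (a, n) := by simp only [N]; positivity
  have hN' : (0 : ℝ) < N (a, n) := by exact_mod_cast hNpos
  refine (abs_exp_sub_pow_le (hbx a) hBN hNpos).trans ?_
  rw [div_le_iff₀ hN']
  have e : ((N (a, n) : ℕ) : ℝ) = 3 ^ (b a) * (B + 1) ^ 2 * 2 ^ n := by
    simp only [N]; push_cast; rfl
  rw [e]
  have hexp : Real.exp B ≤ 3 ^ (b a) := by
    have h3 : Real.exp 1 ≤ 3 := by
      have := Real.exp_one_lt_d9; linarith
    calc Real.exp B = Real.exp 1 ^ (b a) := by rw [← Real.exp_nat_mul]; simp [hB]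
      _ ≤ 3 ^ (b a) := by gcongr
  have hB0 : (0 : ℝ) ≤ B := by positivity
  have h2 : (1 / 2 : ℝ) ^ n * 2 ^ n = 1 := by rw [← mul_pow]; norm_num
  calc Real.exp B * B ^ 2 ≤ 3 ^ (b a) * (B + 1) ^ 2 := by gcongr; linarith
    _ = (1 / 2 : ℝ) ^ n * (3 ^ (b a) * (B + 1) ^ 2 * 2 ^ n) := by
        linear_combination (-(3 ^ (b a) * (B + 1) ^ 2)) * h2

end invexp

end Vale.Agent.P113
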