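import Vale.Agent.P113.RevSim

/-!
# P113: the nine phases of a period act on coded configurations as one machine step
-/

open MeasureTheory Set Filter Topology
open scoped ContDiff

namespace Vale.Agent.P113

namespace RevMachine

variable (m : RevMachine)

/-- Number of digits. -/
def q : ℕ := m.ns + m.nd

theorem q_pos : 1 ≤ m.q := by have := m.nd_pos; unfold q; omega

theorem base_eq : base m.ns m.nd = 2 * m.q := rfl

/-- The base as a real number. -/
noncomputable def b : ℝ := ((2 * m.q : ℕ) : ℝ)

theorem b_ge : (2 : ℝ) ≤ m.b := by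
  unfold b
  have := m.q_pos
  have : 2 ≤ 2 * m.q := by omega
  exact_mod_cast this

theorem b_pos : 0 < m.b := by have := m.b_ge; linarith

/-- The `x` and `y` expansions of a configuration. -/
noncomputable def X (c : MConf) : ℝ := ev (2 * m.q) c.R
noncomputable def Y (c : MConf) : ℝ := ev (2 * m.q) (scons c.s c.L)

variable {m}

theorem Ok.L_lt {c : MConf} (h : m.Ok c) (i : ℕ) : c.L i < m.q := by
  have := h.2.1 i; unfold q; omega
theorem Ok.R_lt {c : MConf} (h : m.Ok c) (i : ℕ) : c.R i < m.q := by
  have := h.2.2 i; unfold q; omega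
theorem Ok.s_lt {c : MConf} (h : m.Ok c) : c.s < m.q := by
  have := h.1; unfold q; omega

theorem Ok.sL_lt {c : MConf} (h : m.Ok c) (i : ℕ) : scons c.s c.L i < m.q := by
  cases i with
  | zero => exact h.s_lt
  | succ i => exact h.L_lt i

theorem X_eq {c : MConf} (h : m.Ok c) : m.X c = (c.R 0 + ev (2 * m.q) (stail c.R)) / m.b :=
  ev_eq m.q_pos h.R_lt

theorem Y_eq {c : MConf} (h : m.Ok c) : m.Y c = (c.s + ev (2 * m.q) c.L) / m.b :=
  ev_scons m.q_pos h.L_lt h.s_lt

theorem L_eq {c : MConf} (h : m.Ok c) :
    ev (2 * m.q) c.L = (c.L 0 + ev (2 * m.q) (stail c.L)) / m.b :=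
  ev_eq m.q_pos h.L_lt

theorem X_nonneg (c : MConf) : 0 ≤ m.X c := ev_nonneg _ _
theorem Y_nonneg (c : MConf) : 0 ≤ m.Y c := ev_nonneg _ _
theorem X_le {c : MConf} (h : m.Ok c) : m.X c ≤ 1 / 2 := ev_le_half m.q_pos h.R_lt
theorem Y_le {c : MConf} (h : m.Ok c) : m.Y c ≤ 1 / 2 := ev_le_half m.q_pos h.sL_lt

/-- Scale factor. -/
noncomputable def sg (m : RevMachine) : ℝ := 1 / (16 * m.b)

theorem sg_pos : 0 < m.sg := by
  unfold sg
  have := m.b_pos
  positivity

theorem sg_mul_b : m.sg * m.b = 1 / 16 := by
  unfold sg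
  have := m.b_pos
  field_simp

theorem sg_le : m.sg ≤ 1 / 32 := by
  have h1 := m.b_ge
  have h2 := m.sg_mul_b
  have h3 := m.sg_pos
  nlinarith

/-- Rules applied to a well-formed configuration give well-formed configurations. -/
theorem step_ok {c : MConf} (h : m.Ok c) : m.Ok (m.step c) := by
  unfold step
  cases htr : m.tr c.s (c.R 0) with
  | none => exact h
  | some p =>
    obtain ⟨s', w, d⟩ := p
    have hb := m.bound c.s (c.R 0) s' w d h.1 (h.2.2 0) htr
    simp only
    by_cases hd0 : d = 0
    · simp only [hd0, if_true]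
      refine ⟨hb.1, fun i => h.2.1 (i + 1), fun i => ?_⟩
      match i with
      | 0 => exact h.2.1 0
      | 1 => exact hb.2.1
      | i + 2 => exact h.2.2 (i + 1)
    · by_cases hd1 : d = 1
      · simp only [hd1]
        refine ⟨hb.1, h.2.1, fun i => ?_⟩
        match i with
        | 0 => exact hb.2.1
        | i + 1 => exact h.2.2 (i + 1)
      · simp only [hd0, hd1, if_false]
        refine ⟨hb.1, fun i => ?_, fun i => h.2.2 (i + 1)⟩
        match i with
        | 0 => exact hb.2.1
        | i + 1 => exact h.2.1 i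

theorem iterate_ok {c : MConf} (h : m.Ok c) (n : ℕ) : m.Ok (m.step^[n] c) := by
  induction n with
  | zero => exact h
  | succ n ih => rw [Function.iterate_succ_apply']; exact step_ok ih

/-! ### Bumps on coded points -/

theorem abs_small {x : ℝ} (h0 : 0 ≤ x) (h1 : x ≤ 1 / 2) : |m.sg * x| < 1 / 2 := by
  have h2 := m.sg_le
  have h3 := m.sg_pos
  rw [abs_lt]
  constructor <;> nlinarith

/-- One leading digit. -/
theorem bump_one {f : ℕ → ℕ} (hf : ∀ i, f i < m.q) (k : ℕ) :
    Fac.eval (bumpFac (32 * base m.ns m.nd ^ 2) k) (m.sg * ev (2 * m.q) f)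
      = if f 0 = k then 1 else 0 := by
  apply bump_eval (abs_small (ev_nonneg _ _) (ev_le_half m.q_pos hf))
    (ε := ev (2 * m.q) (stail f)) _ (ev_nonneg _ _) (ev_le_half m.q_pos fun i => hf (i + 1))
  have h1 := ev_eq m.q_pos hf
  rw [base_eq]
  have hb : ((2 * m.q : ℕ) : ℝ) = m.b := rfl
  push_cast at hb ⊢
  rw [h1]
  push_cast
  rw [hb]
  unfold sg
  have := m.b_pos
  field_simp
  ring

/-- Two leading digits. -/
theorem bump_two {f : ℕ → ℕ} (hf : ∀ i, f i < m.q) (k₀ k₁ : ℕ) (hk₁ : k₁ < m.q) :
    Fac.eval (bumpFac (32 * base m.ns m.nd ^ 3) (k₀ * base m.ns m.nd + k₁))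
      (m.sg * ev (2 * m.q) f) = if f 0 = k₀ ∧ f 1 = k₁ then 1 else 0 := by
  have key : Fac.eval (bumpFac (32 * base m.ns m.nd ^ 3) (k₀ * base m.ns m.nd + k₁))
      (m.sg * ev (2 * m.q) f)
      = if f 0 * base m.ns m.nd + f 1 = k₀ * base m.ns m.nd + k₁ then 1 else 0 := by
    apply bump_eval (abs_small (ev_nonneg _ _) (ev_le_half m.q_pos hf))
      (ε := ev (2 * m.q) (stail (stail f))) _ (ev_nonneg _ _)
      (ev_le_half m.q_pos fun i => hf (i + 2))
    have h1 := ev_eq m.q_pos hf
    have h2 := ev_eq m.q_pos (f := stail f) fun i => hf (i + 1)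
    rw [base_eq]
    have hb : ((2 * m.q : ℕ) : ℝ) = m.b := rfl
    have hs : stail f 0 = f 1 := rfl
    rw [h1, h2, hs]
    push_cast at hb ⊢
    rw [hb]
    unfold sg
    have := m.b_pos
    field_simp
    ring
  rw [key]
  by_cases h : f 0 = k₀ ∧ f 1 = k₁
  · rw [if_pos h, h.1, h.2, if_pos rfl]
  · rw [if_neg h, if_neg]
    intro hc
    apply h
    have hf1 := hf 1
    exact pair_inj (n := base m.ns m.nd) (by rw [base_eq]; omega) (by rw [base_eq]; omega) hc

/-- Three leading digits. -/
theorem bump_three {f : ℕ → ℕ} (hf : ∀ i, f i < m.q) (k₀ k₁ k₂ : ℕ) (hk₁ : k₁ < m.q)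
    (hk₂ : k₂ < m.q) :
    Fac.eval (bumpFac (32 * base m.ns m.nd ^ 4) ((k₀ * base m.ns m.nd + k₁) * base m.ns m.nd + k₂))
      (m.sg * ev (2 * m.q) f) = if f 0 = k₀ ∧ f 1 = k₁ ∧ f 2 = k₂ then 1 else 0 := by
  have key : Fac.eval (bumpFac (32 * base m.ns m.nd ^ 4)
      ((k₀ * base m.ns m.nd + k₁) * base m.ns m.nd + k₂)) (m.sg * ev (2 * m.q) f)
      = if (f 0 * base m.ns m.nd + f 1) * base m.ns m.nd + f 2
        = (k₀ * base m.ns m.nd + k₁) * base m.ns m.nd + k₂ then 1 else 0 := by
    apply bump_eval (abs_small (ev_nonneg _ _) (ev_le_half m.q_pos hf))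
      (ε := ev (2 * m.q) (stail (stail (stail f)))) _ (ev_nonneg _ _)
      (ev_le_half m.q_pos fun i => hf (i + 3))
    have h1 := ev_eq m.q_pos hf
    have h2 := ev_eq m.q_pos (f := stail f) fun i => hf (i + 1)
    have h3 := ev_eq m.q_pos (f := stail (stail f)) fun i => hf (i + 2)
    rw [base_eq]
    have hb : ((2 * m.q : ℕ) : ℝ) = m.b := rfl
    have hs : stail f 0 = f 1 := rfl
    have hs2 : stail (stail f) 0 = f 2 := rfl
    rw [h1, h2, h3, hs, hs2]
    push_cast at hb ⊢
    rw [hb]
    unfold sg
    have := m.b_pos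
    field_simp
    ring
  rw [key]
  by_cases h : f 0 = k₀ ∧ f 1 = k₁ ∧ f 2 = k₂
  · rw [if_pos h, h.1, h.2.1, h.2.2, if_pos rfl]
  · rw [if_neg h, if_neg]
    intro hc
    apply h
    have hf1 := hf 1
    have hf2 := hf 2
    have h1 := pair_inj (n := base m.ns m.nd) (by rw [base_eq]; omega) (by rw [base_eq]; omega) hc
    have h2 := pair_inj (n := base m.ns m.nd) (by rw [base_eq]; omega) (by rw [base_eq]; omega) h1.1
    exact ⟨h2.1, h2.2, h1.2⟩

/-- The workspace coordinate of a label. -/
noncomputable def kap (m : RevMachine) (j : ℕ) : ℝ := 2 * j / (zslope m.ns m.nd : ℝ)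

theorem zslope_pos : (0 : ℝ) < zslope m.ns m.nd := by
  have : 0 < zslope m.ns m.nd := by unfold zslope; positivity
  exact_mod_cast this

theorem kap_nonneg (j : ℕ) : 0 ≤ m.kap j := by
  unfold kap
  have := m.zslope_pos
  positivity

theorem kap_le {j : ℕ} (hj : j ≤ m.ns * m.nd * m.nd) : m.kap j ≤ 1 / 8 := by
  unfold kap
  rw [div_le_iff₀ m.zslope_pos]
  have h1 : 16 * j ≤ zslope m.ns m.nd := by unfold zslope; omega
  have h2 : (16 : ℝ) * j ≤ zslope m.ns m.nd := by exact_mod_cast h1
  linarith

theorem bump_z {j k : ℕ} (hj : j ≤ m.ns * m.nd * m.nd) :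
    Fac.eval (bumpFac (zslope m.ns m.nd) k) (m.kap j) = if j = k then 1 else 0 := by
  have h1 := kap_le hj
  have h0 := m.kap_nonneg j
  apply bump_eval (ε := 0) (by rw [abs_lt]; constructor <;> linarith) _ le_rfl (by norm_num)
  unfold kap
  have := m.zslope_pos
  field_simp
  ring

theorem kap_zero : m.kap 0 = 0 := by simp [kap]

/-! ### The phases -/

/-- The point of the torus coding a configuration, with workspace value `z`. -/
noncomputable def pt (m : RevMachine) (c : MConf) (z : ℝ) : V := ![m.sg * m.X c, m.sg * m.Y c, z]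

theorem signal_eval {c : MConf} (h : m.Ok c) (v : V) (hv : v 1 = m.sg * m.Y c) :
    Profile.eval 1 (signalP m.ns m.nd m.hs) v = if m.hs c.s = true then 1 / 2 else 0 := by
  unfold signalP
  rw [Profile.eval_flatMap_range, Finset.sum_eq_single c.s]
  · by_cases hh : m.hs c.s = true
    · rw [if_pos hh, if_pos hh, Profile.eval_single]
      simp only [one_eval, hv]
      have := bump_one (m := m) h.sL_lt c.s
      rw [Y, this]
      simp [scons, RatCode.val]
      norm_num
    · rw [if_neg hh, if_neg hh, Profile.eval_nil]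
  · intro s _ hne
    by_cases hh : m.hs s = true
    · rw [if_pos hh, Profile.eval_single]
      simp only [one_eval, hv]
      have := bump_one (m := m) h.sL_lt s
      rw [Y, this, if_neg]
      · simp
      · simpa [scons] using Ne.symm hne
    · rw [if_neg hh, Profile.eval_nil]
  · intro hc
    exact absurd (Finset.mem_range.2 h.1) hc

/-- The label of a configuration: `0` if no rule applies. -/
def clab (m : RevMachine) (c : MConf) : ℕ :=
  match m.tr c.s (c.R 0) with
  | none => 0
  | some _ => lab m.nd c.s (c.R 0) (c.L 0)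

theorem clab_le {c : MConf} (h : m.Ok c) : m.clab c ≤ m.ns * m.nd * m.nd := by
  unfold clab
  cases m.tr c.s (c.R 0) with
  | none => simp
  | some p => exact lab_le h.1 (h.2.2 0) (h.2.1 0)

theorem val_nat_pred {a n : ℕ} (hn : 0 < n) :
    RatCode.val ((a, 0, n - 1) : RatCode) = (a : ℝ) / n := by
  unfold RatCode.val
  simp only [Nat.cast_zero, sub_zero]
  have : ((n - 1 : ℕ) : ℝ) + 1 = n := by
    have : n - 1 + 1 = n := by omega
    exact_mod_cast this
  rw [this]

theorem val_pred {a b n : ℕ} (hn : 0 < n) :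
    RatCode.val ((a, b, n - 1) : RatCode) = ((a : ℝ) - b) / n := by
  unfold RatCode.val
  have : ((n - 1 : ℕ) : ℝ) + 1 = n := by
    have : n - 1 + 1 = n := by omega
    exact_mod_cast this
  simp only [this]

theorem zslope_pos' : 0 < zslope m.ns m.nd := by unfold zslope; positivity

theorem label_eval {c : MConf} (h : m.Ok c) (v : V) (h0 : v 0 = m.sg * m.X c)
    (h1 : v 1 = m.sg * m.Y c) :
    Profile.eval 1 (labelP m.ns m.nd m.tr) v = m.kap (m.clab c) := by
  unfold labelP
  rw [Profile.eval_overRules_single 1 m.ns m.nd m.tr _ v h.1 (h.2.2 0) (h.2.1 0)]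
  · unfold clab
    cases htr : m.tr c.s (c.R 0) with
    | none => simp [kap_zero]
    | some p =>
      simp only
      rw [Profile.eval_single]
      simp only [one_eval, h0, h1]
      have e1 := bump_one (m := m) h.R_lt (c.R 0)
      have e2 := bump_two (m := m) h.sL_lt c.s (c.L 0) (h.L_lt 0)
      rw [X, Y, e1, e2, val_nat_pred zslope_pos']
      simp [scons, kap]
  · intro s r l s' w d hs hr hl htr hne
    rw [Profile.eval_single]
    simp only [one_eval, h0, h1]
    have e1 := bump_one (m := m) h.R_lt r
    have e2 := bump_two (m := m) h.sL_lt s l (by unfold q; omega)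
    rw [X, Y, e1, e2]
    have h3 : scons c.s c.L 0 = c.s := rfl
    have h4 : scons c.s c.L 1 = c.L 0 := rfl
    rw [h3, h4]
    by_cases ha : c.R 0 = r
    · by_cases hb : c.s = s ∧ c.L 0 = l
      · exfalso
        apply hne
        rw [ha, hb.1, hb.2]
      · rw [if_neg hb]; ring
    · rw [if_neg ha]; ring

/-- Evaluation of the workspace-controlled profiles. -/
theorem ctrl_eval {c : MConf} (h : m.Ok c) (v : V) (hz : v 2 = m.kap (m.clab c))
    (G : ℕ → ℕ → ℕ → ℕ → ℕ → ℕ → RatCode) (fx fy : Fac) :
    Profile.eval 1 (overRules m.ns m.nd m.tr fun s r l s' w d =>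
      [(G s r l s' w d, false, fx, fy, bumpFac (zslope m.ns m.nd) (lab m.nd s r l))]) v
      = match m.tr c.s (c.R 0) with
        | none => 0
        | some (s', w, d) => RatCode.val (G c.s (c.R 0) (c.L 0) s' w d) *
            (Fac.eval fx (v 0) * Fac.eval fy (v 1)) := by
  rw [Profile.eval_overRules_single 1 m.ns m.nd m.tr _ v h.1 (h.2.2 0) (h.2.1 0)]
  · cases htr : m.tr c.s (c.R 0) with
    | none => rfl
    | some p =>
      simp only
      rw [Profile.eval_single]
      simp only [hz, bump_z (clab_le h)]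
      have : m.clab c = lab m.nd c.s (c.R 0) (c.L 0) := by unfold clab; rw [htr]
      rw [if_pos this, mul_one]
  · intro s r l s' w d hs hr hl htr hne
    rw [Profile.eval_single]
    simp only [hz, bump_z (clab_le h)]
    rw [if_neg]
    · ring
    · intro hc
      unfold clab at hc
      cases htr2 : m.tr c.s (c.R 0) with
      | none =>
        rw [htr2] at hc
        have := lab_pos m.nd s r l
        simp only at hc
        omega
      | some p =>
        rw [htr2] at hc
        simp only at hc
        exact hne (lab_inj (h.2.2 0) (h.2.1 0) hr hl hc).symm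

/-- Evaluation of the unlabelling profile on the image configuration. -/
theorem unlabel_eval {c : MConf} (h : m.Ok c) (v : V)
    (htr : m.tr c.s (c.R 0) ≠ none)
    (h0 : v 0 = m.sg * m.X (m.step c)) (h1 : v 1 = m.sg * m.Y (m.step c)) :
    Profile.eval 1 (unlabelP m.ns m.nd m.tr) v = -m.kap (m.clab c) := by
  have hok := step_ok h
  obtain ⟨p, hp⟩ := Option.ne_none_iff_exists'.1 htr
  obtain ⟨s', w, d⟩ := p
  have hb := m.bound c.s (c.R 0) s' w d h.1 (h.2.2 0) hp
  have hst : m.step c = if d = 0 then ⟨s', stail c.L, scons (c.L 0) (scons w (stail c.R))⟩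
    else if d = 1 then ⟨s', c.L, scons w (stail c.R)⟩
    else ⟨s', scons w c.L, stail c.R⟩ := by
    unfold step; rw [hp]
  have hs' : (m.step c).s = s' := by
    rw [hst]; split_ifs <;> rfl
  unfold unlabelP
  rw [Profile.eval_overRules_single 1 m.ns m.nd m.tr _ v h.1 (h.2.2 0) (h.2.1 0)]
  · rw [hp]
    simp only
    have hclab : m.clab c = lab m.nd c.s (c.R 0) (c.L 0) := by unfold clab; rw [hp]
    by_cases hd0 : d = 0
    · simp only [hd0, if_true]
      rw [Profile.eval_single]
      simp only [one_eval, h0, h1]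
      have e1 := bump_two (m := m) hok.R_lt (c.L 0) w (by unfold q; omega)
      have e2 := bump_one (m := m) hok.sL_lt s'
      rw [X, Y, e1, e2, val_pred zslope_pos', hclab]
      have r0 : (m.step c).R 0 = c.L 0 := by rw [hst, if_pos hd0]; rfl
      have r1 : (m.step c).R 1 = w := by rw [hst, if_pos hd0]; rfl
      rw [if_pos ⟨r0, r1⟩, if_pos (show scons (m.step c).s (m.step c).L 0 = s' from hs')]
      simp [kap]
      ring
    · by_cases hd1 : d = 1
      · simp only [hd1, if_true]
        rw [if_neg (by norm_num), Profile.eval_single]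
        simp only [one_eval, h0, h1]
        have e1 := bump_one (m := m) hok.R_lt w
        have e2 := bump_two (m := m) hok.sL_lt s' (c.L 0) (h.L_lt 0)
        rw [X, Y, e1, e2, val_pred zslope_pos', hclab]
        have r0 : (m.step c).R 0 = w := by rw [hst, if_neg hd0, if_pos hd1]; rfl
        have r1 : (m.step c).L 0 = c.L 0 := by rw [hst, if_neg hd0, if_pos hd1]
        rw [if_pos r0, if_pos (show scons (m.step c).s (m.step c).L 0 = s' ∧
          scons (m.step c).s (m.step c).L 1 = c.L 0 from ⟨hs', r1⟩)]
        simp [kap]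
        ring
      · simp only [hd0, hd1, if_false]
        rw [Profile.eval_single]
        simp only [one_eval, h1]
        have e2 := bump_three (m := m) hok.sL_lt s' w (c.L 0) (by unfold q; omega) (h.L_lt 0)
        rw [Y, e2, val_pred zslope_pos', hclab]
        have r0 : (m.step c).L 0 = w := by rw [hst, if_neg hd0, if_neg hd1]; rfl
        have r1 : (m.step c).L 1 = c.L 0 := by rw [hst, if_neg hd0, if_neg hd1]; rfl
        rw [if_pos (show scons (m.step c).s (m.step c).L 0 = s' ∧
          scons (m.step c).s (m.step c).L 1 = w ∧ scons (m.step c).s (m.step c).L 2 = c.L 0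
          from ⟨hs', r0, r1⟩)]
        simp [kap]
        ring
  · intro s r l s₂ w₂ d₂ hs hr hl htr2 hne
    have hb2 := m.bound s r s₂ w₂ d₂ hs hr htr2
    -- if the bump at the head of `Y` is nonzero then the directions agree
    have hdir : s₂ = s' → d₂ = d := by
      intro hss
      subst hss
      exact m.dir_unique s r c.s (c.R 0) _ w₂ w d₂ d hs hr h.1 (h.2.2 0) htr2 hp
    by_cases hd0 : d₂ = 0
    · simp only [hd0, if_true]
      rw [Profile.eval_single]
      simp only [one_eval, h0, h1]
      have e1 := bump_two (m := m) hok.R_lt l w₂ (by unfold q; omega)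
      have e2 := bump_one (m := m) hok.sL_lt s₂
      rw [X, Y, e1, e2]
      by_cases ha : scons (m.step c).s (m.step c).L 0 = s₂
      · have ha' : s₂ = s' := by rw [← ha]; exact hs'
        have hdd := hdir ha'
        by_cases hbb : (m.step c).R 0 = l ∧ (m.step c).R 1 = w₂
        · exfalso
          have hd0' : d = 0 := by omega
          have r0 : (m.step c).R 0 = c.L 0 := by rw [hst, if_pos hd0']; rfl
          have r1 : (m.step c).R 1 = w := by rw [hst, if_pos hd0']; rfl
          rw [r0, r1] at hbb
          subst ha'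
          have hw : w₂ = w := hbb.2.symm
          subst hw
          have := m.inj s r c.s (c.R 0) s₂ w₂ d₂ d hs hr h.1 (h.2.2 0) htr2 hp
          apply hne
          rw [this.1, this.2, hbb.1]
        · rw [if_neg hbb]; ring
      · rw [if_neg ha]; ring
    · by_cases hd1 : d₂ = 1
      · simp only [hd1]
        rw [if_neg (by norm_num), if_pos trivial, Profile.eval_single]
        simp only [one_eval, h0, h1]
        have e1 := bump_one (m := m) hok.R_lt w₂
        have e2 := bump_two (m := m) hok.sL_lt s₂ l (by unfold q; omega)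
        rw [X, Y, e1, e2]
        by_cases ha : scons (m.step c).s (m.step c).L 0 = s₂ ∧ scons (m.step c).s (m.step c).L 1 = l
        · have ha' : s₂ = s' := by rw [← ha.1]; exact hs'
          have hdd := hdir ha'
          by_cases hbb : (m.step c).R 0 = w₂
          · exfalso
            have hd0' : d ≠ 0 := by omega
            have hd1' : d = 1 := by omega
            have r0 : (m.step c).R 0 = w := by rw [hst, if_neg hd0', if_pos hd1']; rfl
            have r1 : (m.step c).L 0 = c.L 0 := by rw [hst, if_neg hd0', if_pos hd1']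
            have hl' : scons (m.step c).s (m.step c).L 1 = c.L 0 := r1
            rw [r0] at hbb
            subst ha'
            have hw : w₂ = w := hbb.symm
            subst hw
            have := m.inj s r c.s (c.R 0) s₂ w₂ d₂ d hs hr h.1 (h.2.2 0) htr2 hp
            apply hne
            rw [this.1, this.2, ← ha.2, hl']
          · rw [if_neg hbb]; ring
        · rw [if_neg ha]; ring
      · simp only [hd0, hd1, if_false]
        rw [Profile.eval_single]
        simp only [one_eval, h1]
        have e2 := bump_three (m := m) hok.sL_lt s₂ w₂ l (by unfold q; omega) (by unfold q; omega)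
        rw [Y, e2]
        by_cases ha : scons (m.step c).s (m.step c).L 0 = s₂ ∧
          scons (m.step c).s (m.step c).L 1 = w₂ ∧ scons (m.step c).s (m.step c).L 2 = l
        · exfalso
          have ha' : s₂ = s' := by rw [← ha.1]; exact hs'
          have hdd := hdir ha'
          have hd0' : d ≠ 0 := by omega
          have hd1' : d ≠ 1 := by omega
          have r0 : (m.step c).L 0 = w := by rw [hst, if_neg hd0', if_neg hd1']; rfl
          have r1 : (m.step c).L 1 = c.L 0 := by rw [hst, if_neg hd0', if_neg hd1']; rfl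
          have q1 : scons (m.step c).s (m.step c).L 1 = w := r0
          have q2 : scons (m.step c).s (m.step c).L 2 = c.L 0 := r1
          rw [q1, q2] at ha
          subst ha'
          have hw : w₂ = w := ha.2.1.symm
          subst hw
          have := m.inj s r c.s (c.R 0) s₂ w₂ d₂ d hs hr h.1 (h.2.2 0) htr2 hp
          apply hne
          rw [this.1, this.2, ha.2.2]
        · rw [if_neg ha]; ring

end RevMachine

end Vale.Agent.P113
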