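import Vale.Agent.P113.Steps

/-!
# P113: the particle enters the target set iff the machine reaches a flagged state
-/

open MeasureTheory Set Filter Topology
open scoped ContDiff

namespace Vale.Agent.P113

/-- The target set: third coordinate within `1/4` of `1/2` modulo `1`. -/
def target : Set V := {v | Real.cos (2 * Real.pi * v 2) < 0}

theorem target_open : IsOpen target := by
  apply isOpen_lt _ continuous_const
  exact Real.continuous_cos.comp (continuous_const.mul (continuous_apply 2))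

theorem target_periodic (x : V) (k : Fin 3) : x + Pi.single k 1 ∈ target ↔ x ∈ target := by
  unfold target
  simp only [mem_setOf_eq, Pi.add_apply]
  by_cases hk : k = 2
  · subst hk
    have : 2 * Real.pi * (x 2 + (Pi.single 2 1 : V) 2) = 2 * Real.pi * x 2 + 2 * Real.pi := by
      simp only [Pi.single_eq_same]; ring
    rw [this, Real.cos_add_two_pi]
  · have : (Pi.single k 1 : V) 2 = 0 := by
      rw [Pi.single_eq_of_ne (Ne.symm hk)]
    rw [this, add_zero]

theorem not_target {v : V} (h0 : 0 ≤ v 2) (h1 : v 2 ≤ 1 / 8) : v ∉ target := by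
  unfold target
  simp only [mem_setOf_eq, not_lt]
  have hpi := Real.pi_pos
  apply Real.cos_nonneg_of_neg_pi_div_two_le_of_le <;> nlinarith

theorem in_target {v : V} (h : v 2 = 1 / 2) : v ∈ target := by
  unfold target
  simp only [mem_setOf_eq]
  have : 2 * Real.pi * v 2 = Real.pi := by rw [h]; ring
  rw [this, Real.cos_pi]; norm_num

namespace RevMachine

variable {m : RevMachine}

/-- The configuration after `n` steps. -/
def cn (m : RevMachine) (s0 : ℕ) (R : List ℕ) (n : ℕ) : MConf := m.step^[n] (conf0 s0 R)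

theorem cn_ok {s0 : ℕ} {R : List ℕ} (hs : s0 < m.ns) (hR : ∀ a ∈ R, a < m.nd) (n : ℕ) :
    m.Ok (m.cn s0 R n) := iterate_ok (conf0_ok hs hR) n

theorem cn_succ (s0 : ℕ) (R : List ℕ) (n : ℕ) : m.cn s0 R (n + 1) = m.step (m.cn s0 R n) := by
  unfold cn; rw [Function.iterate_succ_apply']

theorem P_period {s0 : ℕ} {R : List ℕ} (hs : s0 < m.ns) (hR : ∀ a ∈ R, a < m.nd)
    (hst : ∀ n, m.hs (m.cn s0 R n).s = true ∨ m.tr (m.cn s0 R n).s ((m.cn s0 R n).R 0) ≠ none)
    (n : ℕ) (hf : ∀ k < n, m.hs (m.cn s0 R k).s ≠ true) :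
    m.P s0 R (2 + 9 * n) = m.pt (m.cn s0 R n) 0 := by
  induction n with
  | zero => exact P_two hs hR
  | succ n ih =>
    have h0 := ih fun k hk => hf k (Nat.lt_succ_of_lt hk)
    have hn := hf n (Nat.lt_succ_self n)
    have hok := cn_ok hs hR n
    have h1 := phase0 hok h0
    rw [if_neg hn] at h1
    have h2 := phase1 hok h1
    have h3 := period_step hok ((hst n).resolve_left hn) h2
    rw [cn_succ, ← h3]
    congr 1

theorem P_succ_two (s0 : ℕ) (R : List ℕ) {N : ℕ} (h : progDir N ≠ 2) :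
    m.P s0 R (N + 1) 2 = m.P s0 R N 2 := by
  rw [P_succ, Function.update_of_ne (Ne.symm h)]

theorem P_z_bound {s0 : ℕ} {R : List ℕ} (hs : s0 < m.ns) (hR : ∀ a ∈ R, a < m.nd)
    (hst : ∀ n, m.hs (m.cn s0 R n).s = true ∨ m.tr (m.cn s0 R n).s ((m.cn s0 R n).R 0) ≠ none)
    (hf : ∀ k, m.hs (m.cn s0 R k).s ≠ true) (N : ℕ) :
    0 ≤ m.P s0 R N 2 ∧ m.P s0 R N 2 ≤ 1 / 8 := by
  have h8 : (0 : ℝ) ≤ 1 / 8 := by norm_num
  by_cases hN0 : N = 0
  · subst hN0
    have : m.P s0 R 0 2 = 0 := rfl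
    rw [this]; exact ⟨le_rfl, h8⟩
  by_cases hN1 : N = 1
  · subst hN1
    rw [P_one hR, vec2]; exact ⟨le_rfl, h8⟩
  obtain ⟨n, k, hk, rfl⟩ : ∃ n k, k < 9 ∧ N = 2 + 9 * n + k :=
    ⟨(N - 2) / 9, (N - 2) % 9, Nat.mod_lt _ (by norm_num), by omega⟩
  have hok := cn_ok hs hR n
  have h0 := P_period hs hR hst n fun k _ => hf k
  have h1 := phase0 hok h0
  rw [if_neg (hf n)] at h1
  have h2 := phase1 hok h1
  have hκ0 := m.kap_nonneg (m.clab (m.cn s0 R n))
  have hκ1 := kap_le (clab_le hok)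
  have hd : ∀ j, 2 ≤ j → j < 8 → progDir (2 + 9 * n + j) ≠ 2 := by
    intro j h2 h8
    rw [progDir_period n j (by omega)]
    have : j = 2 ∨ j = 3 ∨ j = 4 ∨ j = 5 ∨ j = 6 ∨ j = 7 := by omega
    rcases this with rfl | rfl | rfl | rfl | rfl | rfl <;> decide
  have hz : ∀ j, j ≤ 6 → m.P s0 R (2 + 9 * n + (j + 2)) 2 = m.kap (m.clab (m.cn s0 R n)) := by
    intro j
    induction j with
    | zero => intro _; rw [h2]; rfl
    | succ j ih =>
      intro hj
      have := m.P_succ_two s0 R (hd (j + 2) (by omega) (by omega))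
      rw [← ih (by omega), ← this]
      rfl
  by_cases k0 : k = 0
  · subst k0; rw [add_zero, h0]; exact ⟨le_rfl, h8⟩
  by_cases k1 : k = 1
  · subst k1; rw [h1]; exact ⟨le_rfl, h8⟩
  · have := hz (k - 2) (by omega)
    rw [show k - 2 + 2 = k by omega] at this
    rw [this]; exact ⟨hκ0, hκ1⟩

/-- A trajectory started at the origin enters the target iff the machine reaches a flagged state. -/
theorem enters_iff {s0 : ℕ} {R : List ℕ} (hs : s0 < m.ns) (hR : ∀ a ∈ R, a < m.nd)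
    (hst : ∀ n, m.hs (m.cn s0 R n).s = true ∨ m.tr (m.cn s0 R n).s ((m.cn s0 R n).R 0) ≠ none)
    {X : ℝ → V} (hX : IsTrajectory (m.prog s0 R).sched.vel 0 X) :
    (∃ t, 0 ≤ t ∧ X t ∈ target) ↔ m.Reaches (conf0 s0 R) := by
  classical
  constructor
  · rintro ⟨t, ht, hXt⟩
    by_contra hno
    have hf : ∀ k, m.hs (m.cn s0 R k).s ≠ true := fun k hk => hno ⟨k, hk⟩
    apply not_target _ _ hXt
    all_goals
      have hn1 : ((⌊t⌋₊ : ℕ) : ℝ) ≤ t := Nat.floor_le ht
      have hn2 : t < ⌊t⌋₊ + 1 := Nat.lt_floor_add_one t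
      have hpath := (m.prog s0 R).sched.traj_eq 0 hX ⌊t⌋₊ ⟨hn1, le_of_lt hn2⟩
      have hb0 := P_z_bound hs hR hst hf ⌊t⌋₊
      have hb1 := P_z_bound hs hR hst hf (⌊t⌋₊ + 1)
      have hpp : (m.prog s0 R).sched.pos 0 ⌊t⌋₊ = m.P s0 R ⌊t⌋₊ := rfl
      have hS0 : 0 ≤ S (t - ⌊t⌋₊) := Real.smoothTransition.nonneg _
      have hS1 : S (t - ⌊t⌋₊) ≤ 1 := Real.smoothTransition.le_one _
      rw [hpath]
      unfold Schedule.path
      rw [hpp]
      by_cases hd : (m.prog s0 R).sched.dir ⌊t⌋₊ = 2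
      · rw [hd, Function.update_self]
        have hsucc : m.P s0 R (⌊t⌋₊ + 1) 2 = m.P s0 R ⌊t⌋₊ 2
            + (m.prog s0 R).sched.g ⌊t⌋₊ (m.P s0 R ⌊t⌋₊) := by
          have h3 : m.P s0 R (⌊t⌋₊ + 1) = Function.update (m.P s0 R ⌊t⌋₊)
            ((m.prog s0 R).sched.dir ⌊t⌋₊) (m.P s0 R ⌊t⌋₊ ((m.prog s0 R).sched.dir ⌊t⌋₊)
              + (m.prog s0 R).sched.g ⌊t⌋₊ (m.P s0 R ⌊t⌋₊)) := rfl
          rw [h3, hd, Function.update_self]
        have hg : (m.prog s0 R).sched.g ⌊t⌋₊ (m.P s0 R ⌊t⌋₊)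
            = m.P s0 R (⌊t⌋₊ + 1) 2 - m.P s0 R ⌊t⌋₊ 2 := by rw [hsucc]; ring
        rw [hg]
        nlinarith [hb0.1, hb0.2, hb1.1, hb1.2]
      · rw [Function.update_of_ne (Ne.symm hd)]
        first
          | exact hb0.1
          | exact hb0.2
  · rintro hr
    obtain ⟨n, hn, hmin⟩ : ∃ n, m.hs (m.cn s0 R n).s = true ∧
        ∀ k < n, m.hs (m.cn s0 R k).s ≠ true := by
      have hex : ∃ n, m.hs (m.cn s0 R n).s = true := hr
      exact ⟨Nat.find hex, Nat.find_spec hex, fun k hk => Nat.find_min hex hk⟩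
    have hok := cn_ok hs hR n
    have h0 := P_period hs hR hst n hmin
    have h1 := phase0 hok h0
    rw [if_pos hn] at h1
    refine ⟨((2 + 9 * n + 1 : ℕ) : ℝ), Nat.cast_nonneg _, ?_⟩
    apply in_target
    rw [(m.prog s0 R).sched.traj_pos 0 hX]
    change m.P s0 R (2 + 9 * n + 1) 2 = 1 / 2
    rw [h1]; rfl

end RevMachine

end Vale.Agent.P113
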