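import Mathlib
import Vale.Agent.P113.Defs

/-!
# P113: uniqueness of classical solutions of the forced Navier-Stokes system on the torus
-/

open MeasureTheory Set Filter Topology

namespace Vale.Agent.P113

/-! ### Partial derivatives -/

lemma hasDerivAt_fderiv_single {g : V → ℝ} {x : V} (h : DifferentiableAt ℝ g x) (j : Fin 3) :
    HasDerivAt (fun s : ℝ => g (Function.update x j s)) (fderiv ℝ g x (Pi.single j 1)) (x j) := by
  have h1 : HasDerivAt (Function.update x j) (Pi.single j (1:ℝ)) (x j) :=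
    hasDerivAt_update x j (x j)
  have h2 : HasFDerivAt g (fderiv ℝ g x) (Function.update x j (x j)) := by
    rw [Function.update_eq_self]; exact h.hasFDerivAt
  exact h2.comp_hasDerivAt (x j) h1

lemma pd_eq_fderiv {g : V → ℝ} {x : V} (h : DifferentiableAt ℝ g x) (j : Fin 3) :
    pd j g x = fderiv ℝ g x (Pi.single j 1) :=
  (hasDerivAt_fderiv_single h j).deriv

lemma hasDerivAt_pd {g : V → ℝ} {x : V} (h : DifferentiableAt ℝ g x) (j : Fin 3) :
    HasDerivAt (fun s : ℝ => g (Function.update x j s)) (pd j g x) (x j) := by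
  rw [pd_eq_fderiv h]; exact hasDerivAt_fderiv_single h j

lemma pd_eq_fun_fderiv {g : V → ℝ} (h : Differentiable ℝ g) (j : Fin 3) :
    pd j g = fun x => fderiv ℝ g x (Pi.single j 1) := by
  funext x; exact pd_eq_fderiv (h x) j

lemma contDiff_pd {g : V → ℝ} {n m : WithTop ℕ∞} (h : ContDiff ℝ n g) (hmn : m + 1 ≤ n)
    (j : Fin 3) : ContDiff ℝ m (pd j g) := by
  have hn : n ≠ 0 := by
    rintro rfl
    simp at hmn
  rw [pd_eq_fun_fderiv (h.differentiable hn)]
  exact (h.fderiv_right hmn).clm_apply contDiff_const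

lemma periodic3_iff {α : Type*} {g : V → α} :
    Periodic3 g ↔ ∀ k : Fin 3, Function.Periodic g (Pi.single k (1:ℝ)) := by
  constructor
  · intro h k x; exact h x k
  · intro h x k; exact h k x

lemma update_add_single (x : V) (j k : Fin 3) (s : ℝ) :
    Function.update x j s + Pi.single k (1:ℝ)
      = Function.update (x + Pi.single k (1:ℝ)) j (s + (Pi.single k (1:ℝ) : V) j) := by
  ext i
  by_cases h : i = j
  · subst h; simp
  · simp [Function.update_of_ne h]

lemma periodic3_pd {g : V → ℝ} (hg : Periodic3 g) (j : Fin 3) : Periodic3 (pd j g) := by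
  intro x k
  unfold pd
  have h1 : (fun s : ℝ => g (Function.update x j s)) =
      fun s : ℝ => g (Function.update (x + Pi.single k (1:ℝ)) j
        (s + (Pi.single k (1:ℝ) : V) j)) := by
    funext s
    rw [← update_add_single, hg]
  have h2 := deriv_comp_add_const (fun s : ℝ => g (Function.update (x + Pi.single k (1:ℝ)) j s))
    ((Pi.single k (1:ℝ) : V) j) (x j)
  rw [h1, h2]
  rfl

/-- The integral of a partial derivative of a periodic function over the unit cube vanishes. -/
lemma integral_pd_eq_zero {g : V → ℝ} (hg : ContDiff ℝ 1 g) (hp : Periodic3 g) (j : Fin 3) :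
    ∫ x in Icc (0:V) 1, pd j g x = 0 := by
  have hd : Differentiable ℝ g := hg.differentiable (by simp)
  have key := integral_divergence_of_hasFDerivAt_off_countable' (0:V) 1 zero_le_one
    (fun i => if i = j then g else 0)
    (fun i => if i = j then fderiv ℝ g else 0) ∅ countable_empty
    (by
      intro i
      by_cases h : i = j
      · simp only [h, if_true]; exact hg.continuous.continuousOn
      · simp only [h, if_false]; exact continuousOn_const)
    (by
      intro x _ i
      by_cases h : i = j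
      · simp only [h, if_true]; exact (hd x).hasFDerivAt
      · simp only [h, if_false]; exact hasFDerivAt_const (0:ℝ) x)
    (by
      apply Continuous.integrableOn_Icc
      apply continuous_finsetSum
      intro i _
      by_cases h : i = j
      · simp only [h, if_true]
        exact (hg.continuous_fderiv (by simp)).clm_apply continuous_const
      · simp only [h, if_false]; exact continuous_const)
  have h1 : (fun x : V => ∑ i, (if i = j then fderiv ℝ g else 0) x (Pi.single i 1))
      = pd j g := by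
    funext x
    rw [pd_eq_fderiv (hd x), Finset.sum_eq_single j]
    · simp
    · intro b _ hb; simp [hb]
    · simp
  rw [h1] at key
  rw [key]
  apply Finset.sum_eq_zero
  intro i _
  by_cases h : i = j
  · subst h
    simp only [if_true]
    rw [sub_eq_zero]
    congr 1
    funext y
    have : (i.insertNth ((1:V) i) y : V) = i.insertNth ((0:V) i) y + Pi.single i (1:ℝ) := by
      ext k
      refine Fin.succAboveCases i ?_ ?_ k
      · simp
      · intro k'; simp
    rw [this, hp]
  · simp [h]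

/-! ### The spatial energy inequality -/

/-- The flux whose divergence appears in the energy balance. -/
noncomputable def flux (ν : ℝ) (W U' : Fin 3 → V → ℝ) (q : V → ℝ) (j : Fin 3) (x : V) : ℝ :=
  -(U' j x * ∑ i, (W i x) ^ 2) - 2 * (q x * W j x) + 2 * ν * ∑ i, W i x * pd j (W i) x

lemma hasDerivAt_flux {ν : ℝ} {W U' : Fin 3 → V → ℝ} {q : V → ℝ}
    (hW : ∀ i, ContDiff ℝ 2 (W i)) (hU' : ∀ i, ContDiff ℝ 2 (U' i)) (hq : ContDiff ℝ 1 q)
    (j : Fin 3) (x : V) :
    pd j (flux ν W U' q j) x =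
      -(pd j (U' j) x * (∑ i, (W i x) ^ 2) + U' j x * ∑ i, 2 * W i x * pd j (W i) x)
      - 2 * (pd j q x * W j x + q x * pd j (W j) x)
      + 2 * ν * ∑ i, (pd j (W i) x * pd j (W i) x + W i x * pd j (pd j (W i)) x) := by
  have dW : ∀ i, HasDerivAt (fun s : ℝ => W i (Function.update x j s)) (pd j (W i) x) (x j) :=
    fun i => hasDerivAt_pd ((hW i).differentiable (by simp) x) j
  have dU : HasDerivAt (fun s : ℝ => U' j (Function.update x j s)) (pd j (U' j) x) (x j) :=
    hasDerivAt_pd ((hU' j).differentiable (by simp) x) j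
  have dq : HasDerivAt (fun s : ℝ => q (Function.update x j s)) (pd j q x) (x j) :=
    hasDerivAt_pd (hq.differentiable (by simp) x) j
  have ddW : ∀ i, HasDerivAt (fun s : ℝ => pd j (W i) (Function.update x j s))
      (pd j (pd j (W i)) x) (x j) :=
    fun i => hasDerivAt_pd ((contDiff_pd (m := 1) (hW i) (by norm_num) j).differentiable
      (by simp) x) j
  have h1 : HasDerivAt (fun s : ℝ => ∑ i, (W i (Function.update x j s)) ^ 2)
      (∑ i, 2 * W i (Function.update x j (x j)) * pd j (W i) x) (x j) := by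
    apply HasDerivAt.fun_sum
    intro i _
    have := (dW i).fun_pow 2
    simpa using this
  have h2 : HasDerivAt (fun s : ℝ => ∑ i, W i (Function.update x j s) *
        pd j (W i) (Function.update x j s))
      (∑ i, (pd j (W i) x * pd j (W i) (Function.update x j (x j)) +
        W i (Function.update x j (x j)) * pd j (pd j (W i)) x)) (x j) := by
    apply HasDerivAt.fun_sum
    intro i _
    exact (dW i).mul (ddW i)
  have h3 := ((dU.mul h1).neg.sub ((dq.mul (dW j)).const_mul 2)).add (h2.const_mul (2 * ν))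
  have h4 := h3.deriv
  simp only [Function.update_eq_self] at h4
  rw [← h4]
  rfl

lemma contDiff_flux {ν : ℝ} {W U' : Fin 3 → V → ℝ} {q : V → ℝ}
    (hW : ∀ i, ContDiff ℝ 2 (W i)) (hU' : ∀ i, ContDiff ℝ 2 (U' i)) (hq : ContDiff ℝ 1 q)
    (j : Fin 3) : ContDiff ℝ 1 (flux ν W U' q j) := by
  have hW1 : ∀ i, ContDiff ℝ 1 (W i) := fun i => (hW i).of_le (by norm_num)
  have hU1 : ∀ i, ContDiff ℝ 1 (U' i) := fun i => (hU' i).of_le (by norm_num)
  have hd : ∀ i, ContDiff ℝ 1 (pd j (W i)) := fun i => contDiff_pd (hW i) (by norm_num) j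
  unfold flux
  refine ContDiff.add (ContDiff.sub (ContDiff.neg (ContDiff.mul (hU1 j) ?_))
    (ContDiff.mul contDiff_const (hq.mul (hW1 j)))) (ContDiff.mul contDiff_const ?_)
  · exact ContDiff.sum fun i _ => (hW1 i).pow 2
  · exact ContDiff.sum fun i _ => (hW1 i).mul (hd i)

lemma periodic3_flux {ν : ℝ} {W U' : Fin 3 → V → ℝ} {q : V → ℝ}
    (hW : ∀ i, Periodic3 (W i)) (hU' : ∀ i, Periodic3 (U' i)) (hq : Periodic3 q)
    (j : Fin 3) : Periodic3 (flux ν W U' q j) := by
  intro x k
  unfold flux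
  have h1 : ∀ i, pd j (W i) (x + Pi.single k 1) = pd j (W i) x :=
    fun i => periodic3_pd (hW i) j x k
  simp only [hW _ x k, hU' _ x k, hq x k, h1]

lemma pd_sub_apply {g h : V → ℝ} {x : V} (hg : DifferentiableAt ℝ g x)
    (hh : DifferentiableAt ℝ h x) (j : Fin 3) :
    pd j (fun y => g y - h y) x = pd j g x - pd j h x :=
  ((hasDerivAt_pd hg j).sub (hasDerivAt_pd hh j)).deriv

lemma continuous_pd {g : V → ℝ} (hg : ContDiff ℝ 1 g) (j : Fin 3) : Continuous (pd j g) :=
  (contDiff_pd (m := 0) hg (by simp) j).continuous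

/-- Spatial energy inequality at a fixed time. -/
lemma energy_spatial {ν M : ℝ} (hν : 0 ≤ ν) {U U' : Fin 3 → V → ℝ} {q : V → ℝ}
    (hU : ∀ i, ContDiff ℝ 2 (U i)) (hU' : ∀ i, ContDiff ℝ 2 (U' i)) (hq : ContDiff ℝ 1 q)
    (pU : ∀ i, Periodic3 (U i)) (pU' : ∀ i, Periodic3 (U' i)) (pq : Periodic3 q)
    (dU : ∀ x, ∑ j, pd j (U j) x = 0) (dU' : ∀ x, ∑ j, pd j (U' j) x = 0)
    (hM : ∀ i j, ∀ x ∈ Icc (0:V) 1, |pd j (U i) x| ≤ M) :
    ∫ x in Icc (0:V) 1, ∑ i, 2 * (U i x - U' i x) *
      (-(∑ j, (U j x * pd j (U i) x - U' j x * pd j (U' i) x)) - pd i q x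
        + ν * ∑ j, pd j (pd j (fun y => U i y - U' i y)) x)
    ≤ 6 * M * ∫ x in Icc (0:V) 1, ∑ i, (U i x - U' i x) ^ 2 := by
  obtain ⟨W, hWd⟩ : ∃ W : Fin 3 → V → ℝ, ∀ i, W i = fun y => U i y - U' i y := ⟨_, fun _ => rfl⟩
  have hW : ∀ i, ContDiff ℝ 2 (W i) := fun i => by rw [hWd]; exact (hU i).sub (hU' i)
  have pW : ∀ i, Periodic3 (W i) := fun i => by
    rw [hWd]; intro x k; simp only [pU i x k, pU' i x k]
  have hWx : ∀ i x, U i x - U' i x = W i x := fun i x => by rw [hWd]
  have dWx : ∀ i j x, pd j (U' i) x = pd j (U i) x - pd j (W i) x := fun i j x => by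
    rw [hWd, pd_sub_apply ((hU i).differentiable (by simp) x)
      ((hU' i).differentiable (by simp) x)]
    ring
  have hU'x : ∀ i x, U' i x = U i x - W i x := fun i x => by rw [hWd]; ring
  -- pointwise identity
  have hid : ∀ x, ∑ i, 2 * (U i x - U' i x) *
      (-(∑ j, (U j x * pd j (U i) x - U' j x * pd j (U' i) x)) - pd i q x
        + ν * ∑ j, pd j (pd j (fun y => U i y - U' i y)) x)
      = (- 2 * (∑ i, ∑ j, W i x * W j x * pd j (U i) x)
          - 2 * ν * ∑ i, ∑ j, (pd j (W i) x) ^ 2) + ∑ j, pd j (flux ν W U' q j) x := by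
    intro x
    have e1 := dU x
    have e2 := dU' x
    simp only [hWx, hasDerivAt_flux hW hU' hq, Fin.sum_univ_three] at e1 e2 ⊢
    simp only [dWx, hU'x] at e1 e2 ⊢
    linear_combination ((W 0 x) ^ 2 + (W 1 x) ^ 2 + (W 2 x) ^ 2) * e2 + 2 * q x * (e1 - e2)
  have hW1 : ∀ i, ContDiff ℝ 1 (W i) := fun i => (hW i).of_le (by norm_num)
  have hU1 : ∀ i, ContDiff ℝ 1 (U i) := fun i => (hU i).of_le (by norm_num)
  have c1 : Continuous (fun x => - 2 * (∑ i, ∑ j, W i x * W j x * pd j (U i) x)
          - 2 * ν * ∑ i, ∑ j, (pd j (W i) x) ^ 2) := by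
    refine Continuous.sub (continuous_const.mul ?_) (continuous_const.mul ?_)
    · exact continuous_finsetSum _ fun i _ => continuous_finsetSum _ fun j _ =>
        ((hW i).continuous.mul (hW j).continuous).mul (continuous_pd (hU1 i) j)
    · exact continuous_finsetSum _ fun i _ => continuous_finsetSum _ fun j _ =>
        (continuous_pd (hW1 i) j).pow 2
  have c2 : ∀ j, Continuous (pd j (flux ν W U' q j)) := fun j =>
    continuous_pd (contDiff_flux hW hU' hq j) j
  have c3 : Continuous (fun x => ∑ j, pd j (flux ν W U' q j) x) :=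
    continuous_finsetSum _ fun j _ => c2 j
  have c4 : Continuous (fun x => ∑ i, (U i x - U' i x) ^ 2) :=
    continuous_finsetSum _ fun i _ => ((hU i).continuous.sub (hU' i).continuous).pow 2
  simp only [hid]
  rw [integral_add c1.integrableOn_Icc c3.integrableOn_Icc,
    integral_finsetSum _ fun j _ => (c2 j).integrableOn_Icc]
  have hz : ∑ j : Fin 3, ∫ x in Icc (0:V) 1, pd j (flux ν W U' q j) x = 0 :=
    Finset.sum_eq_zero fun j _ =>
      integral_pd_eq_zero (contDiff_flux hW hU' hq j) (periodic3_flux pW pU' pq j) j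
  rw [hz, add_zero, ← integral_const_mul]
  refine setIntegral_mono_on c1.integrableOn_Icc (c4.const_mul _).integrableOn_Icc
    measurableSet_Icc ?_
  intro x hx
  simp only [hWx]
  have hd : 0 ≤ ∑ i, ∑ j, (pd j (W i) x) ^ 2 :=
    Finset.sum_nonneg fun i _ => Finset.sum_nonneg fun j _ => sq_nonneg _
  have hM' : ∀ i j, -(2 * (W i x * W j x * pd j (U i) x)) ≤ M * ((W i x) ^ 2 + (W j x) ^ 2) := by
    intro i j
    have h0 := hM i j x hx
    have hM0 : 0 ≤ M := le_trans (abs_nonneg _) h0
    have h1 : |W i x * W j x * pd j (U i) x| ≤ (|W i x| * |W j x|) * M := by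
      rw [abs_mul, abs_mul]
      exact mul_le_mul_of_nonneg_left h0 (by positivity)
    have h2 : 2 * (|W i x| * |W j x|) ≤ (W i x) ^ 2 + (W j x) ^ 2 := by
      have := sq_nonneg (|W i x| - |W j x|)
      rw [← sq_abs (W i x), ← sq_abs (W j x)]
      nlinarith
    have h3 := neg_abs_le (W i x * W j x * pd j (U i) x)
    nlinarith
  have hsum : - 2 * (∑ i, ∑ j, W i x * W j x * pd j (U i) x) ≤ 6 * M * ∑ i, (W i x) ^ 2 := by
    simp only [Fin.sum_univ_three]
    have a := fun i j => hM' i j
    nlinarith [a 0 0, a 0 1, a 0 2, a 1 0, a 1 1, a 1 2, a 2 0, a 2 1, a 2 2]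
  nlinarith [mul_nonneg hν hd]

/-! ### The energy argument in time -/

lemma continuousOn_slice {T : ℝ} {A : ℝ → V → ℝ}
    (hA : ContinuousOn (fun q : ℝ × V => A q.1 q.2) (Icc 0 T ×ˢ univ)) {t : ℝ}
    (ht : t ∈ Icc 0 T) : Continuous (A t) := by
  rw [← continuousOn_univ]
  have : ContinuousOn (fun x : V => ((t, x) : ℝ × V)) univ := by fun_prop
  exact hA.comp this (fun x _ => ⟨ht, mem_univ _⟩)

lemma continuousOn_time {T : ℝ} {A : ℝ → V → ℝ}
    (hA : ContinuousOn (fun q : ℝ × V => A q.1 q.2) (Icc 0 T ×ˢ univ)) (x : V) :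
    ContinuousOn (fun t => A t x) (Icc 0 T) := by
  have : ContinuousOn (fun t : ℝ => ((t, x) : ℝ × V)) (Icc 0 T) := by fun_prop
  exact hA.comp this (fun t ht => ⟨ht, mem_univ _⟩)

lemma exists_bound_slab {T : ℝ} {A : ℝ → V → ℝ}
    (hA : ContinuousOn (fun q : ℝ × V => A q.1 q.2) (Icc 0 T ×ˢ univ)) :
    ∃ K : ℝ, 0 ≤ K ∧ ∀ t ∈ Icc 0 T, ∀ x ∈ Icc (0:V) 1, |A t x| ≤ K := by
  have hc : IsCompact (Icc (0:ℝ) T ×ˢ Icc (0:V) 1) := isCompact_Icc.prod isCompact_Icc
  obtain ⟨K, hK⟩ := hc.exists_bound_of_continuousOn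
    (hA.mono (prod_mono_right (subset_univ _)))
  refine ⟨max K 0, le_max_right _ _, fun t ht x hx => ?_⟩
  exact le_trans (hK (t, x) ⟨ht, hx⟩) (le_max_left _ _)

lemma continuousOn_cube_integral {T : ℝ} {A : ℝ → V → ℝ}
    (hA : ContinuousOn (fun q : ℝ × V => A q.1 q.2) (Icc 0 T ×ˢ univ)) :
    ContinuousOn (fun t => ∫ x in Icc (0:V) 1, A t x) (Icc 0 T) := by
  obtain ⟨K, hK0, hK⟩ := exists_bound_slab hA
  apply continuousOn_of_dominated (bound := fun _ => K)
  · intro t ht
    exact (continuousOn_slice hA ht).aestronglyMeasurable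
  · intro t ht
    rw [ae_restrict_iff' measurableSet_Icc]
    exact Eventually.of_forall fun x hx => hK t ht x hx
  · exact integrableOn_const (by
      rw [Real.volume_Icc_pi]
      exact (ENNReal.prod_lt_top (fun i _ => ENNReal.ofReal_lt_top)).ne)
  · exact Eventually.of_forall fun x => continuousOn_time hA x

lemma cube_fubini {T : ℝ} {R : ℝ → V → ℝ}
    (hR : ContinuousOn (fun q : ℝ × V => R q.1 q.2) (Icc 0 T ×ˢ univ)) {t : ℝ}
    (ht : t ∈ Icc 0 T) :
    ∫ x in Icc (0:V) 1, ∫ s in (0:ℝ)..t, R s x = ∫ s in (0:ℝ)..t, ∫ x in Icc (0:V) 1, R s x := by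
  simp only [intervalIntegral.integral_of_le ht.1]
  apply integral_integral_swap
  rw [Measure.prod_restrict]
  have h1 : IntegrableOn (fun p : V × ℝ => R p.2 p.1) (Icc (0:V) 1 ×ˢ Icc 0 t) volume := by
    apply ContinuousOn.integrableOn_compact (isCompact_Icc.prod isCompact_Icc)
    have : ContinuousOn (fun p : V × ℝ => ((p.2, p.1) : ℝ × V)) (Icc (0:V) 1 ×ˢ Icc 0 t) := by
      fun_prop
    exact hR.comp this (fun p hp => ⟨⟨hp.2.1, hp.2.2.trans ht.2⟩, mem_univ _⟩)
  exact h1.mono_set (prod_mono_right Ioc_subset_Icc_self)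

/-- Integral form of Gronwall's inequality. -/
lemma gronwall_integral {T C : ℝ} (hT : 0 < T) (hC : 0 ≤ C) {E : ℝ → ℝ}
    (hE : ContinuousOn E (Icc 0 T)) (hle : ∀ t ∈ Icc 0 T, E t ≤ C * ∫ s in (0:ℝ)..t, E s) :
    ∀ t ∈ Icc 0 T, E t ≤ 0 := by
  set F : ℝ → ℝ := IccExtend hT.le ((Icc 0 T).domRestrict E) with hF
  have hFc : Continuous F := (continuousOn_iff_continuous_domRestrict.mp hE).Icc_extend'
  have hFE : ∀ t ∈ Icc 0 T, F t = E t := fun t ht => by
    rw [hF, IccExtend_of_mem _ _ ht]; rfl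
  set G : ℝ → ℝ := fun t => ∫ s in (0:ℝ)..t, F s with hG
  have hGd : ∀ t, HasDerivAt G (F t) t := fun t =>
    intervalIntegral.integral_hasDerivAt_right (hFc.intervalIntegrable _ _)
      (hFc.stronglyMeasurableAtFilter _ _) hFc.continuousAt
  have hGE : ∀ t ∈ Icc 0 T, G t = ∫ s in (0:ℝ)..t, E s := fun t ht => by
    rw [hG]
    apply intervalIntegral.integral_congr
    intro s hs
    rw [uIcc_of_le ht.1] at hs
    exact hFE s ⟨hs.1, hs.2.trans ht.2⟩
  set H : ℝ → ℝ := fun t => Real.exp (-C * t) * G t with hH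
  have hHd : ∀ t, HasDerivAt H (Real.exp (-C * t) * (F t - C * G t)) t := by
    intro t
    have h1 : HasDerivAt (fun t => Real.exp (-C * t)) (Real.exp (-C * t) * (-C)) t := by
      have := ((hasDerivAt_id t).const_mul (-C)).exp
      simpa using this
    exact (h1.fun_mul (hGd t)).congr_deriv (by ring)
  have hHanti : AntitoneOn H (Icc 0 T) := by
    apply antitoneOn_of_deriv_nonpos (convex_Icc 0 T)
    · exact fun t _ => (hHd t).continuousAt.continuousWithinAt
    · exact fun t _ => (hHd t).differentiableAt.differentiableWithinAt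
    · intro t ht
      rw [interior_Icc] at ht
      have ht' : t ∈ Icc 0 T := Ioo_subset_Icc_self ht
      rw [(hHd t).deriv]
      have := hle t ht'
      rw [← hGE t ht', ← hFE t ht'] at this
      apply mul_nonpos_of_nonneg_of_nonpos (Real.exp_pos _).le
      linarith
  intro t ht
  have h0 : H t ≤ H 0 := hHanti ⟨le_rfl, hT.le⟩ ht ht.1
  have hH0 : H 0 = 0 := by simp [hH, hG]
  rw [hH0] at h0
  have hG0 : G t ≤ 0 := by
    by_contra hcon
    push Not at hcon
    have := mul_pos (Real.exp_pos (-C * t)) hcon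
    simp only [hH] at h0
    linarith
  have := hle t ht
  rw [← hGE t ht] at this
  nlinarith

lemma gronwall_torus {T C : ℝ} (hT : 0 < T) (hC0 : 0 ≤ C) {A R : ℝ → V → ℝ}
    (hA : ContinuousOn (fun q : ℝ × V => A q.1 q.2) (Icc 0 T ×ˢ univ))
    (hR : ContinuousOn (fun q : ℝ × V => R q.1 q.2) (Icc 0 T ×ˢ univ))
    (hd : ∀ t ∈ Icc 0 T, ∀ x, HasDerivWithinAt (fun s => A s x) (R t x) (Icc 0 T) t)
    (h0 : ∀ x, A 0 x = 0) (hpos : ∀ t x, 0 ≤ A t x)
    (hC : ∀ t ∈ Icc 0 T, ∫ x in Icc (0:V) 1, R t x ≤ C * ∫ x in Icc (0:V) 1, A t x) :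
    ∀ t ∈ Icc 0 T, ∀ x ∈ Icc (0:V) 1, A t x = 0 := by
  have hE : ∀ t ∈ Icc 0 T, (∫ x in Icc (0:V) 1, A t x) ≤ 0 := by
    apply gronwall_integral hT hC0 (continuousOn_cube_integral hA)
    intro t ht
    have h1 : ∀ x : V, A t x = ∫ s in (0:ℝ)..t, R s x := by
      intro x
      have h2 : ∀ s ∈ Ioo 0 t, HasDerivWithinAt (fun s => A s x) (R s x) (Ioi s) s := by
        intro s hs
        have hs' : s ∈ Ioo 0 T := ⟨hs.1, hs.2.trans_le ht.2⟩
        exact ((hd s (Ioo_subset_Icc_self hs') x).hasDerivAt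
          (Icc_mem_nhds hs'.1 hs'.2)).hasDerivWithinAt
      have h3 := intervalIntegral.integral_eq_sub_of_hasDeriv_right_of_le ht.1
        ((continuousOn_time hA x).mono (Icc_subset_Icc_right ht.2)) h2
        (((continuousOn_time hR x).mono (Icc_subset_Icc_right ht.2)).intervalIntegrable_of_Icc ht.1)
      rw [h3, h0, sub_zero]
    simp_rw [h1]
    rw [cube_fubini hR ht, ← intervalIntegral.integral_const_mul]
    have hsub : Icc 0 t ⊆ Icc 0 T := Icc_subset_Icc_right ht.2
    apply intervalIntegral.integral_mono_on ht.1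
    · exact ((continuousOn_cube_integral hR).mono hsub).intervalIntegrable_of_Icc ht.1
    · have h4 := ((continuousOn_cube_integral hA).mono hsub).intervalIntegrable_of_Icc
        (μ := volume) ht.1
      exact h4.const_mul C
    · intro s hs
      exact hC s (hsub hs)
  intro t ht x hx
  have hcont : Continuous (A t) := continuousOn_slice hA ht
  have hint : ∫ x in Icc (0:V) 1, A t x = 0 :=
    le_antisymm (hE t ht) (integral_nonneg fun x => hpos t x)
  rw [setIntegral_eq_zero_iff_of_nonneg_ae (Eventually.of_forall fun x => hpos t x)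
    hcont.integrableOn_Icc] at hint
  set U : Set V := univ.pi fun _ : Fin 3 => Ioo (0:ℝ) 1 with hU
  have hUo : IsOpen U := isOpen_set_pi finite_univ fun _ _ => isOpen_Ioo
  have hUs : U ⊆ Icc (0:V) 1 := by
    intro y hy
    exact ⟨fun i => (hy i (mem_univ i)).1.le, fun i => (hy i (mem_univ i)).2.le⟩
  have h5 : A t =ᵐ[volume.restrict U] 0 := ae_restrict_of_ae_restrict_of_subset hUs hint
  have h6 : EqOn (A t) 0 U :=
    Measure.eqOn_open_of_ae_eq h5 hUo hcont.continuousOn continuousOn_const
  have h7 : EqOn (A t) 0 (closure U) := h6.closure hcont continuous_const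
  apply h7
  rw [hU, closure_pi_set]
  intro i _
  rw [closure_Ioo (by norm_num)]
  exact ⟨hx.1 i, hx.2 i⟩

/-! ### Reduction to the unit cube -/

lemma Periodic3.add_single_int {α : Type*} {g : V → α} (hg : Periodic3 g) (k : Fin 3) (m : ℤ)
    (x : V) : g (x + Pi.single k (m : ℝ)) = g x := by
  have h1 : Function.Periodic g (m • Pi.single k (1:ℝ)) := (periodic3_iff.mp hg k).zsmul m
  have h2 : (m • Pi.single k (1:ℝ) : V) = Pi.single k (m : ℝ) := by
    ext i
    by_cases h : i = k
    · subst h; simp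
    · simp [h]
  rw [← h2]
  exact h1 x

lemma Periodic3.fract {α : Type*} {g : V → α} (hg : Periodic3 g) (x : V) :
    g (fun i => Int.fract (x i)) = g x := by
  have h : (fun i => Int.fract (x i)) = ((x + Pi.single 0 ((-⌊x 0⌋ : ℤ) : ℝ))
      + Pi.single 1 ((-⌊x 1⌋ : ℤ) : ℝ)) + Pi.single 2 ((-⌊x 2⌋ : ℤ) : ℝ) := by
    ext i
    fin_cases i <;> simp [Int.fract, sub_eq_add_neg]
  rw [h, hg.add_single_int, hg.add_single_int, hg.add_single_int]

lemma Periodic3.ext_cube {α : Type*} {g h : V → α} (hg : Periodic3 g) (hh : Periodic3 h)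
    (heq : ∀ x ∈ Icc (0:V) 1, g x = h x) : g = h := by
  funext x
  rw [← hg.fract, ← hh.fract]
  apply heq
  exact ⟨fun i => Int.fract_nonneg _, fun i => (Int.fract_lt_one _).le⟩

lemma volume_cube : (volume : Measure V) (Icc (0:V) 1) = 1 := by
  rw [Real.volume_Icc_pi]
  simp

/-- Classical solutions of the forced Navier-Stokes system on the torus, started from rest, are
unique. -/
theorem uniqueness {ν T : ℝ} (hν : 0 < ν) (hT : 0 < T) {f : ℝ → V → V} {u u' : ℝ → V → V}
    {p p' : ℝ → V → ℝ} (h : IsClassicalSolution ν f T u p)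
    (h' : IsClassicalSolution ν f T u' p') :
    ∀ t ∈ Icc 0 T, u t = u' t ∧ p t = p' t := by
  obtain ⟨ut, hutc, hut⟩ := h.momentum
  obtain ⟨ut', hutc', hut'⟩ := h'.momentum
  have smU : ∀ t ∈ Icc 0 T, ∀ i, ContDiff ℝ 2 (fun x => u t x i) := fun t ht i =>
    contDiff_pi.mp (h.smooth_u t ht) i
  have smU' : ∀ t ∈ Icc 0 T, ∀ i, ContDiff ℝ 2 (fun x => u' t x i) := fun t ht i =>
    contDiff_pi.mp (h'.smooth_u t ht) i
  have perU : ∀ t ∈ Icc 0 T, ∀ i, Periodic3 (fun x => u t x i) := fun t ht i x k => by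
    simp only [h.periodic_u t ht x k]
  have perU' : ∀ t ∈ Icc 0 T, ∀ i, Periodic3 (fun x => u' t x i) := fun t ht i x k => by
    simp only [h'.periodic_u t ht x k]
  choose K hK0 hK using fun i j =>
    exists_bound_slab (A := fun t => pd j (fun x => u t x i)) (h.cont_du i j)
  set M : ℝ := ∑ i, ∑ j, K i j with hMdef
  have hM0 : 0 ≤ M := Finset.sum_nonneg fun i _ => Finset.sum_nonneg fun j _ => hK0 i j
  have hKM : ∀ i j, K i j ≤ M := fun i j =>
    (Finset.single_le_sum (fun j _ => hK0 i j) (Finset.mem_univ j)).trans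
      (Finset.single_le_sum (f := fun i => ∑ j, K i j)
        (fun i _ => Finset.sum_nonneg fun j _ => hK0 i j) (Finset.mem_univ i))
  have cu : ∀ i, ContinuousOn (fun q : ℝ × V => u q.1 q.2 i) (Icc 0 T ×ˢ univ) := fun i =>
    (continuousOn_pi.mp h.cont_u) i
  have cu' : ∀ i, ContinuousOn (fun q : ℝ × V => u' q.1 q.2 i) (Icc 0 T ×ˢ univ) := fun i =>
    (continuousOn_pi.mp h'.cont_u) i
  have cut : ∀ i, ContinuousOn (fun q : ℝ × V => ut q.1 q.2 i) (Icc 0 T ×ˢ univ) := fun i =>
    (continuousOn_pi.mp hutc) i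
  have cut' : ∀ i, ContinuousOn (fun q : ℝ × V => ut' q.1 q.2 i) (Icc 0 T ×ˢ univ) := fun i =>
    (continuousOn_pi.mp hutc') i
  have hzero := gronwall_torus (C := 6 * M) hT (by positivity)
    (A := fun t x => ∑ i, (u t x i - u' t x i) ^ 2)
    (R := fun t x => ∑ i, 2 * (u t x i - u' t x i) * (ut t x i - ut' t x i))
    (by
      refine continuousOn_finsetSum _ fun i _ => ?_
      exact ((cu i).sub (cu' i)).pow 2)
    (by
      refine continuousOn_finsetSum _ fun i _ => ?_
      exact (continuousOn_const.mul ((cu i).sub (cu' i))).mul ((cut i).sub (cut' i)))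
    (by
      intro t ht x
      refine HasDerivWithinAt.fun_sum fun i _ => ?_
      have d1 := hasDerivWithinAt_pi.mp (hut t ht x).1 i
      have d2 := hasDerivWithinAt_pi.mp (hut' t ht x).1 i
      have d3 := (d1.fun_sub d2).fun_pow 2
      simpa using d3)
    (by
      intro x
      simp [h.initial, h'.initial])
    (by
      intro t x
      exact Finset.sum_nonneg fun i _ => sq_nonneg _)
    (by
      intro t ht
      have key := energy_spatial (M := M) hν.le (smU t ht) (smU' t ht)
        (q := fun x => p t x - p' t x) ((h.smooth_p t ht).sub (h'.smooth_p t ht))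
        (perU t ht) (perU' t ht)
        (fun x k => by simp only [h.periodic_p t ht x k, h'.periodic_p t ht x k])
        (h.div_free t ht) (h'.div_free t ht)
        (fun i j x hx => (hK i j t ht x hx).trans (hKM i j))
      refine le_trans (le_of_eq ?_) key
      refine setIntegral_congr_fun measurableSet_Icc fun x _ => ?_
      refine Finset.sum_congr rfl fun i _ => ?_
      congr 1
      have e1 := (hut t ht x).2 i
      have e2 := (hut' t ht x).2 i
      have e3 : pd i (fun x => p t x - p' t x) x = pd i (p t) x - pd i (p' t) x :=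
        pd_sub_apply ((h.smooth_p t ht).differentiable (by simp) x)
          ((h'.smooth_p t ht).differentiable (by simp) x) i
      have e4 : ∀ j, pd j (pd j (fun y => u t y i - u' t y i)) x
          = pd j (pd j (fun y => u t y i)) x - pd j (pd j (fun y => u' t y i)) x := by
        intro j
        have e5 : pd j (fun y => u t y i - u' t y i)
            = fun y => pd j (fun y => u t y i) y - pd j (fun y => u' t y i) y := by
          funext y
          exact pd_sub_apply ((smU t ht i).differentiable (by simp) y)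
            ((smU' t ht i).differentiable (by simp) y) j
        rw [e5]
        exact pd_sub_apply
          ((contDiff_pd (m := 1) (smU t ht i) (by norm_num) j).differentiable (by simp) x)
          ((contDiff_pd (m := 1) (smU' t ht i) (by norm_num) j).differentiable (by simp) x) j
      simp only [e3, e4, Finset.sum_sub_distrib]
      linear_combination e1 - e2)
  have hu : ∀ t ∈ Icc 0 T, u t = u' t := by
    intro t ht
    refine (h.periodic_u t ht).ext_cube (h'.periodic_u t ht) fun x hx => ?_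
    have h1 := hzero t ht x hx
    rw [Finset.sum_eq_zero_iff_of_nonneg (fun i _ => sq_nonneg _)] at h1
    funext i
    have h2 := h1 i (Finset.mem_univ i)
    exact sub_eq_zero.mp (pow_eq_zero_iff (by norm_num) |>.mp h2)
  intro t ht
  refine ⟨hu t ht, ?_⟩
  have hutt : ∀ x, ut t x = ut' t x := by
    intro x
    have d1 := (hut t ht x).1
    have d2 : HasDerivWithinAt (fun s => u s x) (ut' t x) (Icc 0 T) t :=
      (hut' t ht x).1.congr (fun s hs => by rw [hu s hs]) (by rw [hu t ht])
    exact (uniqueDiffOn_Icc hT t ht).eq_deriv _ d1 d2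
  have dp : Differentiable ℝ (p t) := (h.smooth_p t ht).differentiable (by simp)
  have dp' : Differentiable ℝ (p' t) := (h'.smooth_p t ht).differentiable (by simp)
  have hpd : ∀ x i, pd i (p t) x = pd i (p' t) x := by
    intro x i
    have e1 := (hut t ht x).2 i
    have e2 := (hut' t ht x).2 i
    rw [hutt x, hu t ht] at e1
    linarith
  have dpp : Differentiable ℝ (fun y => p t y - p' t y) := dp.fun_sub dp'
  have hfd : ∀ x, fderiv ℝ (fun y => p t y - p' t y) x = 0 := by
    intro x
    apply ContinuousLinearMap.ext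
    intro v
    have hv : v = ∑ i, v i • (Pi.single i (1:ℝ) : V) := by
      ext k; simp [Pi.single_apply]
    rw [hv, map_sum]
    simp only [map_smul]
    refine Finset.sum_eq_zero fun i _ => ?_
    rw [← pd_eq_fderiv (dpp x) i, pd_sub_apply (dp x) (dp' x), hpd x i]
    simp
  have hconst := is_const_of_fderiv_eq_zero dpp hfd
  have hint : ∫ x in Icc (0:V) 1, (p t x - p' t x) = 0 := by
    rw [integral_sub (h.smooth_p t ht).continuous.integrableOn_Icc
      (h'.smooth_p t ht).continuous.integrableOn_Icc, h.mean_zero t ht, h'.mean_zero t ht, sub_zero]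
  have hc0 : p t 0 - p' t 0 = 0 := by
    have h1 : ∫ x in Icc (0:V) 1, (p t x - p' t x) = ∫ x in Icc (0:V) 1, (p t 0 - p' t 0) :=
      setIntegral_congr_fun measurableSet_Icc fun x _ => hconst x 0
    rw [h1, setIntegral_const] at hint
    simpa [Measure.real, volume_cube] using hint
  funext x
  have := hconst x 0
  linarith

end Vale.Agent.P113
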