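import Vale.Agent.P113.Raw
import Vale.Agent.P113.NSU

/-!
# P113: the fluid-dynamical half of the theorem for a given reversible machine
-/

open MeasureTheory Set Filter Topology
open scoped ContDiff

namespace Vale.Agent.P113

theorem ddS_of_one_le {x : ℝ} (h : 1 ≤ x) : deriv (deriv S) x = 0 := by
  have := iteratedDeriv_S_of_one_le 1 h
  rwa [iteratedDeriv_succ, iteratedDeriv_one] at this

namespace Schedule

variable (P : Schedule)

theorem force_on (ν : ℝ) {n : ℕ} {t : ℝ} (h1 : (n : ℝ) ≤ t) (h2 : t ≤ n + 1) (x : V) (i : Fin 3) :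
    P.force ν t x i = if P.dir n = i then
      deriv (deriv S) (t - n) * P.g n x - ν * (deriv S (t - n) * lap (P.g n) x) else 0 := by
  have hc : ⌈t⌉₊ ≤ n + 1 := Nat.ceil_le.2 (by push_cast; exact h2)
  rw [P.force_eq ν hc, Finset.sum_range_succ, Finset.sum_eq_zero, zero_add]
  intro m hm
  rw [Finset.mem_range] at hm
  have hmn : (m : ℝ) + 1 ≤ n := by exact_mod_cast hm
  have e1 : deriv S (t - m) = 0 := deriv_S_of_one_le (by linarith)
  have e2 : deriv (deriv S) (t - m) = 0 := ddS_of_one_le (by linarith)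
  simp [e1, e2]

/-- Comparison of the forces of two schedules at shifted times. -/
theorem force_shift (P Q : Schedule) (ν : ℝ) {t : ℝ} (ht : 0 ≤ t) (k : ℕ)
    (hd : Q.dir (⌊t⌋₊ + k) = P.dir ⌊t⌋₊) (hg : Q.g (⌊t⌋₊ + k) = P.g ⌊t⌋₊) (x : V) :
    Q.force ν (t + k) x = P.force ν t x := by
  funext i
  have hn1 : ((⌊t⌋₊ : ℕ) : ℝ) ≤ t := Nat.floor_le ht
  have hn2 : t < ⌊t⌋₊ + 1 := Nat.lt_floor_add_one t
  rw [P.force_on ν hn1 (le_of_lt hn2), Q.force_on ν (n := ⌊t⌋₊ + k) (by push_cast; linarith)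
    (by push_cast; linarith), hd, hg]
  have : t + (k : ℝ) - ((⌊t⌋₊ + k : ℕ) : ℝ) = t - ⌊t⌋₊ := by push_cast; ring
  rw [this]

end Schedule

namespace RevMachine

variable (m : RevMachine)

theorem progProf_tail (s0 s0' : ℕ) (R R' : List ℕ) {n : ℕ} (hn : 2 ≤ n) :
    progProf m.ns m.nd m.tr m.hs s0 R n = progProf m.ns m.nd m.tr m.hs s0' R' n := by
  unfold progProf
  rw [if_neg (by omega), if_neg (by omega), if_neg (by omega), if_neg (by omega)]

theorem progProf_nine (s0 : ℕ) (R : List ℕ) {n : ℕ} (hn : 2 ≤ n) :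
    progProf m.ns m.nd m.tr m.hs s0 R (n + 9) = progProf m.ns m.nd m.tr m.hs s0 R n := by
  unfold progProf
  rw [if_neg (by omega), if_neg (by omega), if_neg (by omega), if_neg (by omega)]
  congr 1
  omega

theorem progDir_nine {n : ℕ} (hn : 2 ≤ n) : progDir (n + 9) = progDir n := by
  unfold progDir
  rw [if_neg (by omega), if_neg (by omega), if_neg (by omega), if_neg (by omega)]
  congr 1
  omega

theorem two_le_floor {t : ℝ} (ht : 2 ≤ t) : 2 ≤ ⌊t⌋₊ := Nat.le_floor (by exact_mod_cast ht)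

/-- The force is periodic in time after time `2`. -/
theorem force_nine (s0 : ℕ) (R : List ℕ) (ν : ℝ) {t : ℝ} (ht : 2 ≤ t) (x : V) :
    (m.prog s0 R).sched.force ν (t + 9) x = (m.prog s0 R).sched.force ν t x := by
  have h := Schedule.force_shift (m.prog s0 R).sched (m.prog s0 R).sched ν
    (by linarith : 0 ≤ t) 9 (progDir_nine (two_le_floor ht)) (by
      change Profile.eval 1 (progProf m.ns m.nd m.tr m.hs s0 R (⌊t⌋₊ + 9))
        = Profile.eval 1 (progProf m.ns m.nd m.tr m.hs s0 R ⌊t⌋₊)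
      rw [m.progProf_nine s0 R (two_le_floor ht)]) x
  exact_mod_cast h

/-- The force does not depend on the input after time `2`. -/
theorem force_tail (s0 s0' : ℕ) (R R' : List ℕ) (ν : ℝ) {t : ℝ} (ht : 2 ≤ t) (x : V) :
    (m.prog s0 R).sched.force ν t x = (m.prog s0' R').sched.force ν t x := by
  have h := Schedule.force_shift (m.prog s0' R').sched (m.prog s0 R).sched ν
    (by linarith : 0 ≤ t) 0 rfl (by
      change Profile.eval 1 (progProf m.ns m.nd m.tr m.hs s0 R (⌊t⌋₊ + 0))
        = Profile.eval 1 (progProf m.ns m.nd m.tr m.hs s0' R' ⌊t⌋₊)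
      rw [add_zero, m.progProf_tail s0 s0' R R' (two_le_floor ht)]) x
  simpa using h

/-- The position of the particle at time `2` codes the input. -/
theorem traj_two {s0 : ℕ} {R : List ℕ} (hs : s0 < m.ns) (hR : ∀ a ∈ R, a < m.nd) {X : ℝ → V}
    (hX : IsTrajectory (m.prog s0 R).sched.vel 0 X) :
    X 2 = ![RatCode.val (digVal (base m.ns m.nd) R, 0,
        16 * base m.ns m.nd * base m.ns m.nd ^ R.length - 1),
      RatCode.val (s0, 0, 16 * base m.ns m.nd * base m.ns m.nd - 1), 0] := by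
  have h2 := (m.prog s0 R).sched.traj_pos 0 hX 2
  have h3 : (m.prog s0 R).sched.pos 0 2 = m.pt (conf0 s0 R) 0 := m.P_two hs hR
  rw [h3] at h2
  push_cast at h2
  rw [h2]
  unfold pt
  have hR' : ∀ a ∈ R, a < m.q := fun a ha => lt_q_of_nd (hR a ha)
  have hb : ((2 * m.q : ℕ) : ℝ) = m.b := rfl
  have hbp := m.b_pos
  have hpos : 0 < 16 * base m.ns m.nd * base m.ns m.nd ^ R.length := by
    have := m.base_pos
    positivity
  have hpos' : 0 < 16 * base m.ns m.nd * base m.ns m.nd := by
    have := m.base_pos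
    positivity
  rw [val_nat_pred hpos, val_nat_pred hpos']
  congr 1
  · rw [RevMachine.X, conf0, ev_listTape m.q_pos hR', base_eq, hb]
    unfold sg
    push_cast at hb ⊢
    rw [hb]
    field_simp
  · congr 1
    rw [Y_eq (conf0_ok hs hR)]
    have : ev (2 * m.q) (conf0 s0 R).L = 0 := by
      simp only [conf0]; rw [listTape_nil, ev_zero]
    rw [this, base_eq]
    unfold sg
    push_cast at hb ⊢
    rw [hb]
    simp only [conf0]
    field_simp
    ring

end RevMachine

end Vale.Agent.P113
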