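import Vale.Agent.P113.Micro

/-!
# P113: the data of the compiled micro machine are primitive recursive in the description
-/

namespace Vale.Agent.P113

namespace Micro

open Machine (Code)

variable {α : Type*} [Primcodable α]

lemma primrec_nQ {c : α → Code} (hc : Primrec c) : Primrec fun x => nQ (c x) :=
  Primrec.succ.comp (Primrec.fst.comp (Primrec.fst.comp hc))

lemma primrec_nA {c : α → Code} (hc : Primrec c) : Primrec fun x => nA (c x) :=
  Primrec.succ.comp (Primrec.snd.comp (Primrec.fst.comp hc))

lemma primrec_st0 {c : α → Code} (hc : Primrec c) : Primrec fun x => st0 (c x) :=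
  Primrec.fst.comp (Primrec.fst.comp (Primrec.snd.comp hc))

lemma primrec_bl {c : α → Code} (hc : Primrec c) : Primrec fun x => bl (c x) :=
  Primrec.snd.comp (Primrec.fst.comp (Primrec.snd.comp hc))

lemma primrec_pr {c : α → Code} {q a : α → ℕ} (hc : Primrec c) (hq : Primrec q)
    (ha : Primrec a) : Primrec fun x => pr (c x) (q x) (a x) :=
  Primrec.nat_add.comp (Primrec.nat_mul.comp hq (primrec_nA hc)) ha

lemma primrec_dl {c : α → Code} {q a : α → ℕ} (hc : Primrec c) (hq : Primrec q)
    (ha : Primrec a) : Primrec fun x => dl (c x) (q x) (a x) :=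
  (Primrec.list_getD (0, 0, 0)).comp
    (Primrec.snd.comp (Primrec.snd.comp (Primrec.snd.comp hc))) (primrec_pr hc hq ha)

lemma primrec_hl {c : α → Code} {q : α → ℕ} (hc : Primrec c) (hq : Primrec q) :
    Primrec fun x => hl (c x) (q x) :=
  (Primrec.list_getD false).comp
    (Primrec.fst.comp (Primrec.snd.comp (Primrec.snd.comp hc))) hq

lemma primrec_sw {c : α → Code} {a : α → ℕ} (hc : Primrec c) (ha : Primrec a) :
    Primrec fun x => sw (c x) (a x) :=
  Primrec.ite (Primrec.eq.comp ha (primrec_bl hc)) (Primrec.const 0)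
    (Primrec.ite (Primrec.eq.comp ha (Primrec.const 0)) (primrec_bl hc) ha)

lemma primrec_enc {c : α → Code} {a m r : α → ℕ} (hc : Primrec c) (ha : Primrec a)
    (hm : Primrec m) (hr : Primrec r) : Primrec fun x => enc (c x) (a x) (m x) (r x) :=
  Primrec.nat_add.comp
    (Primrec.nat_mul.comp
      (Primrec.nat_add.comp (Primrec.nat_mul.comp hr (Primrec.const 2)) hm) (primrec_nA hc))
    (primrec_sw hc ha)

lemma primrec_dA {c : α → Code} {d : α → ℕ} (hc : Primrec c) (hd : Primrec d) :
    Primrec fun x => dA (c x) (d x) :=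
  primrec_sw hc (Primrec.nat_mod.comp hd (primrec_nA hc))

lemma primrec_dM {c : α → Code} {d : α → ℕ} (hc : Primrec c) (hd : Primrec d) :
    Primrec fun x => dM (c x) (d x) :=
  Primrec.nat_mod.comp (Primrec.nat_div.comp hd (primrec_nA hc)) (Primrec.const 2)

lemma primrec_dR {c : α → Code} {d : α → ℕ} (hc : Primrec c) (hd : Primrec d) :
    Primrec fun x => dR (c x) (d x) :=
  Primrec.nat_div.comp (Primrec.nat_div.comp hd (primrec_nA hc)) (Primrec.const 2)

lemma primrec_stM {c : α → Code} {q a : α → ℕ} (hc : Primrec c) (hq : Primrec q)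
    (ha : Primrec a) : Primrec fun x => stM (c x) (q x) (a x) :=
  Primrec.nat_add.comp (Primrec.nat_mul.comp (Primrec.const 2) (primrec_nQ hc))
    (primrec_pr hc hq ha)

lemma primrec_stN {c : α → Code} {q : α → ℕ} (hc : Primrec c) (hq : Primrec q) :
    Primrec fun x => stN (c x) (q x) :=
  Primrec.nat_add.comp (primrec_nQ hc) hq

lemma primrec_ns {c : α → Code} (hc : Primrec c) : Primrec fun x => ns (c x) :=
  Primrec.nat_add.comp (Primrec.nat_mul.comp (Primrec.const 2) (primrec_nQ hc))
    (Primrec.nat_mul.comp (Primrec.const 2) (Primrec.nat_mul.comp (primrec_nQ hc) (primrec_nA hc)))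

lemma primrec_nd {c : α → Code} (hc : Primrec c) : Primrec fun x => nd (c x) :=
  Primrec.nat_mul.comp
    (Primrec.nat_mul.comp
      (Primrec.nat_add.comp (Primrec.const 2) (Primrec.nat_mul.comp (primrec_nQ hc) (primrec_nA hc)))
      (Primrec.const 2)) (primrec_nA hc)

lemma primrec_hs {c : α → Code} {s : α → ℕ} (hc : Primrec c) (hs' : Primrec s) :
    Primrec fun x => hs (c x) (s x) :=
  Primrec.ite (Primrec.nat_lt.comp hs' (primrec_nQ hc)) (primrec_hl hc hs') (Primrec.const false)

lemma primrec_tr {c : α → Code} {s d : α → ℕ} (hc : Primrec c) (hs' : Primrec s)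
    (hd : Primrec d) : Primrec fun x => tr (c x) (s x) (d x) := by
  have hQ := primrec_nQ hc
  have hA := primrec_nA hc
  have hQA := Primrec.nat_mul.comp hQ hA
  have h2Q := Primrec.nat_mul.comp (Primrec.const 2) hQ
  have hdA := primrec_dA hc hd
  have hdM := primrec_dM hc hd
  have hdR := primrec_dR hc hd
  have hdl := primrec_dl hc hs' hdA
  have hk := Primrec.nat_sub.comp (Primrec.nat_sub.comp hs' h2Q) hQA
  have hdl2 := primrec_dl hc (Primrec.nat_div.comp hk hA) (Primrec.nat_mod.comp hk hA)
  unfold tr
  refine Primrec.ite (Primrec.nat_lt.comp hs' hQ) ?_ ?_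
  · refine Primrec.ite (Primrec.eq.comp hdM (Primrec.const 1)) ?_ ?_
    · exact Primrec.option_some.comp (Primrec.pair (primrec_stM hc hs' hdA)
        (Primrec.pair (primrec_enc hc (Primrec.fst.comp (Primrec.snd.comp hdl)) (Primrec.const 0)
          hdR) (Primrec.snd.comp (Primrec.snd.comp hdl))))
    · exact Primrec.ite (Primrec.eq.comp hdR (Primrec.const 1)) (Primrec.const none)
        (Primrec.option_some.comp (Primrec.pair hs' (Primrec.pair hd (Primrec.const 0))))
  refine Primrec.ite (Primrec.nat_lt.comp hs' h2Q) ?_ ?_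
  · refine Primrec.ite (Primrec.eq.comp hdM (Primrec.const 0)) ?_ (Primrec.const none)
    refine Primrec.ite (Primrec.eq.comp hdR (Primrec.const 0)) ?_ (Primrec.const none)
    exact Primrec.option_some.comp (Primrec.pair (Primrec.nat_sub.comp hs' hQ)
      (Primrec.pair (primrec_enc hc hdA (Primrec.const 0) (Primrec.const 1)) (Primrec.const 0)))
  refine Primrec.ite (Primrec.nat_lt.comp hs' (Primrec.nat_add.comp h2Q hQA)) ?_ ?_
  · refine Primrec.ite (Primrec.eq.comp hdM (Primrec.const 0)) ?_ (Primrec.const none)
    exact Primrec.option_some.comp (Primrec.pair (Primrec.nat_add.comp hs' hQA)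
      (Primrec.pair (primrec_enc hc hdA (Primrec.const 1) hdR) (Primrec.const 2)))
  refine Primrec.ite (Primrec.eq.comp hdM (Primrec.const 0)) ?_ (Primrec.const none)
  refine Primrec.ite (Primrec.eq.comp hdR (Primrec.const 1)) ?_ ?_
  · exact Primrec.option_some.comp (Primrec.pair (primrec_stN hc (Primrec.fst.comp hdl2))
      (Primrec.pair (primrec_enc hc hdA (Primrec.const 0)
        (Primrec.nat_add.comp (Primrec.const 2) hk)) (Primrec.const 2)))
  · exact Primrec.option_some.comp (Primrec.pair hs' (Primrec.pair hd (Primrec.const 2)))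

lemma primrec_ini {c : α → Code} {l : α → List ℕ} (hc : Primrec c) (hl' : Primrec l) :
    Primrec fun x => ini (c x) (l x) := by
  unfold ini
  refine Primrec.list_map (Primrec.list_range.comp
    (Primrec.nat_max.comp (Primrec.list_length.comp hl') (Primrec.const 3))) ?_
  have hc' : Primrec fun p : α × ℕ => c p.1 := hc.comp Primrec.fst
  have hl'' : Primrec fun p : α × ℕ => l p.1 := hl'.comp Primrec.fst
  have hi : Primrec fun p : α × ℕ => p.2 := Primrec.snd
  have h1 : Primrec fun p : α × ℕ => (l p.1).getD p.2 (bl (c p.1)) := by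
    have : (fun p : α × ℕ => (l p.1).getD p.2 (bl (c p.1)))
        = fun p : α × ℕ => ((l p.1)[p.2]?).getD (bl (c p.1)) := by
      funext p; rw [List.getD_eq_getElem?_getD]
    rw [this]
    exact Primrec.option_getD.comp (Primrec.list_getElem?.comp hl'' hi) (primrec_bl hc')
  exact primrec_enc hc' h1
    (Primrec.ite (Primrec.eq.comp hi (Primrec.const 0)) (Primrec.const 1) (Primrec.const 0))
    (Primrec.ite (Primrec.eq.comp hi (Primrec.const 2)) (Primrec.const 1) (Primrec.const 0))

/-- The rule table is computable, uniformly in the description of the machine. -/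
theorem computable_tr : Computable fun x : Code × ℕ × ℕ => tr x.1 x.2.1 x.2.2 :=
  (primrec_tr Primrec.fst (Primrec.fst.comp Primrec.snd) (Primrec.snd.comp Primrec.snd)).to_comp

/-- The flags are computable, uniformly in the description of the machine. -/
theorem computable_hs : Computable fun x : Code × ℕ => hs x.1 x.2 :=
  (primrec_hs Primrec.fst Primrec.snd).to_comp

theorem computable_ns : Computable ns := (primrec_ns Primrec.id).to_comp

theorem computable_nd : Computable nd := (primrec_nd Primrec.id).to_comp

theorem computable_st0 : Computable st0 := (primrec_st0 Primrec.id).to_comp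

/-- The initial tape is computable from the description and the input word. -/
theorem computable_ini : Computable fun x : Code × List ℕ => ini x.1 x.2 :=
  (primrec_ini Primrec.fst Primrec.snd).to_comp

end Micro

end Vale.Agent.P113
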