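import Vale.Agent.P113.Prog

/-!
# P113: the program data are primitive recursive in the tables
-/

namespace Vale.Agent.P113

namespace PC

variable {α : Type*} [Primcodable α]

theorem add {f g : α → ℕ} (hf : Primrec f) (hg : Primrec g) : Primrec fun a => f a + g a :=
  Primrec.nat_add.comp hf hg

theorem sub {f g : α → ℕ} (hf : Primrec f) (hg : Primrec g) : Primrec fun a => f a - g a :=
  Primrec.nat_sub.comp hf hg

theorem mul {f g : α → ℕ} (hf : Primrec f) (hg : Primrec g) : Primrec fun a => f a * g a :=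
  Primrec.nat_mul.comp hf hg

theorem const (n : ℕ) : Primrec fun _ : α => n := Primrec.const n

theorem powc {f : α → ℕ} (hf : Primrec f) (n : ℕ) : Primrec fun a => f a ^ n := by
  induction n with
  | zero => simpa using const 1
  | succ n ih => simpa [pow_succ] using mul ih hf

theorem pow2 : Primrec₂ fun a n : ℕ => a ^ n := by
  refine (Primrec.nat_rec' (f := fun x : ℕ × ℕ => x.2) (g := fun _ => 1)
    (h := fun x p => p.2 * x.1) Primrec.snd (Primrec.const 1)
    (Primrec.nat_mul.comp (Primrec.snd.comp Primrec.snd)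
      (Primrec.fst.comp Primrec.fst))).of_eq fun x => ?_
  obtain ⟨a, n⟩ := x
  show Nat.rec (motive := fun _ => ℕ) 1 (fun y ih => ih * a) n = a ^ n
  induction n with
  | zero => rfl
  | succ n ih => rw [pow_succ, ← ih]

theorem pow {f g : α → ℕ} (hf : Primrec f) (hg : Primrec g) : Primrec fun a => f a ^ g a :=
  pow2.comp hf hg

theorem tri {f g h : α → ℕ} (hf : Primrec f) (hg : Primrec g) (hh : Primrec h) :
    Primrec fun a => ((f a, g a, h a) : RatCode) :=
  Primrec.pair hf (Primrec.pair hg hh)

theorem atom {q : α → RatCode} {k : α → ℕ} {u v : α → RatCode} (hq : Primrec q) (hk : Primrec k)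
    (hu : Primrec u) (hv : Primrec v) : Primrec fun a => ((q a, k a, u a, v a) : Atom) :=
  Primrec.pair hq (Primrec.pair hk (Primrec.pair hu hv))

theorem single {β : Type*} [Primcodable β] {f : α → β} (hf : Primrec f) :
    Primrec fun a => [f a] :=
  Primrec.list_cons.comp hf (Primrec.const [])

theorem pterm {q : α → RatCode} {s : α → Bool} {f g h : α → Fac} (hq : Primrec q)
    (hs : Primrec s) (hf : Primrec f) (hg : Primrec g) (hh : Primrec h) :
    Primrec fun a => ([(q a, s a, f a, g a, h a)] : List PTerm) :=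
  single (Primrec.pair hq (Primrec.pair hs (Primrec.pair hf (Primrec.pair hg hh))))

theorem bumpFac {s k : α → ℕ} (hs : Primrec s) (hk : Primrec k) :
    Primrec fun a => bumpFac (s a) (k a) := by
  unfold Vale.Agent.P113.bumpFac
  refine Primrec.list_cons.comp (atom (Primrec.const _) (const 1)
    (tri hs (const 0) (const 0)) (tri (const 1) (mul (const 2) hk) (const 0)))
    (single (atom (Primrec.const _) (const 1) (tri hs (const 0) (const 0))
      (tri (const 0) (add (mul (const 2) hk) (const 1)) (const 0))))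

theorem base {ns nd : α → ℕ} (hs : Primrec ns) (hd : Primrec nd) :
    Primrec fun a => base (ns a) (nd a) :=
  mul (const 2) (add hs hd)

theorem lab {nd s r l : α → ℕ} (hd : Primrec nd) (hs : Primrec s) (hr : Primrec r)
    (hl : Primrec l) : Primrec fun a => lab (nd a) (s a) (r a) (l a) :=
  add (const 1) (add (mul (add (mul hs hd) hr) hd) hl)

theorem zslope {ns nd : α → ℕ} (hs : Primrec ns) (hd : Primrec nd) :
    Primrec fun a => zslope (ns a) (nd a) :=
  mul (const 16) (add (mul (mul hs hd) hd) (const 2))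

/-- the tuple (s, r, l, s', w, d) extracted from the argument of a rule function -/
theorem overRules {ns nd : α → ℕ} {tr : α → ℕ → ℕ → Option (ℕ × ℕ × ℕ)}
    {F : α → ℕ → ℕ → ℕ → ℕ → ℕ → ℕ → List PTerm}
    (hns : Primrec ns) (hnd : Primrec nd)
    (htr : Primrec fun x : α × ℕ × ℕ => tr x.1 x.2.1 x.2.2)
    (hF : Primrec fun x : α × (ℕ × ℕ × ℕ) × (ℕ × ℕ × ℕ) =>
      F x.1 x.2.1.1 x.2.1.2.1 x.2.1.2.2 x.2.2.1 x.2.2.2.1 x.2.2.2.2) :
    Primrec fun a => overRules (ns a) (nd a) (tr a) (F a) := by
  unfold Vale.Agent.P113.overRules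
  have h3 : Primrec fun y : ((α × ℕ) × ℕ) × ℕ =>
      (match tr y.1.1.1 y.1.1.2 y.1.2 with
        | none => ([] : List PTerm)
        | some (s', w, d) => F y.1.1.1 y.1.1.2 y.1.2 y.2 s' w d) := by
    have ha : Primrec fun y : ((α × ℕ) × ℕ) × ℕ => y.1.1.1 :=
      Primrec.fst.comp (Primrec.fst.comp Primrec.fst)
    have hs : Primrec fun y : ((α × ℕ) × ℕ) × ℕ => y.1.1.2 :=
      Primrec.snd.comp (Primrec.fst.comp Primrec.fst)
    have hr : Primrec fun y : ((α × ℕ) × ℕ) × ℕ => y.1.2 :=
      Primrec.snd.comp Primrec.fst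
    have hl : Primrec fun y : ((α × ℕ) × ℕ) × ℕ => y.2 := Primrec.snd
    have ho : Primrec fun y : ((α × ℕ) × ℕ) × ℕ => tr y.1.1.1 y.1.1.2 y.1.2 :=
      htr.comp (Primrec.pair ha (Primrec.pair hs hr))
    refine (Primrec.option_casesOn ho (Primrec.const ([] : List PTerm))
      (g := fun y p => F y.1.1.1 y.1.1.2 y.1.2 y.2 p.1 p.2.1 p.2.2) ?_).of_eq fun y => ?_
    · exact hF.comp (Primrec.pair (ha.comp Primrec.fst) (Primrec.pair
        (Primrec.pair (hs.comp Primrec.fst) (Primrec.pair (hr.comp Primrec.fst)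
          (hl.comp Primrec.fst))) Primrec.snd))
    · cases tr y.1.1.1 y.1.1.2 y.1.2 <;> rfl
  refine Primrec.list_flatMap (Primrec.list_range.comp hns) ?_
  refine Primrec.list_flatMap (f := fun x : α × ℕ => List.range (nd x.1))
    (Primrec.list_range.comp (hnd.comp Primrec.fst)) ?_
  exact Primrec.list_flatMap (f := fun x : (α × ℕ) × ℕ => List.range (nd x.1.1))
    (Primrec.list_range.comp (hnd.comp (Primrec.fst.comp Primrec.fst))) h3

/-- the type of rule data -/
abbrev RD (α : Type*) := α × (ℕ × ℕ × ℕ) × (ℕ × ℕ × ℕ)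

theorem rs : Primrec fun x : RD α => x.2.1.1 :=
  Primrec.fst.comp (Primrec.fst.comp Primrec.snd)
theorem rr : Primrec fun x : RD α => x.2.1.2.1 :=
  Primrec.fst.comp (Primrec.snd.comp (Primrec.fst.comp Primrec.snd))
theorem rl : Primrec fun x : RD α => x.2.1.2.2 :=
  Primrec.snd.comp (Primrec.snd.comp (Primrec.fst.comp Primrec.snd))
theorem rs' : Primrec fun x : RD α => x.2.2.1 :=
  Primrec.fst.comp (Primrec.snd.comp Primrec.snd)
theorem rw' : Primrec fun x : RD α => x.2.2.2.1 :=
  Primrec.fst.comp (Primrec.snd.comp (Primrec.snd.comp Primrec.snd))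
theorem rd : Primrec fun x : RD α => x.2.2.2.2 :=
  Primrec.snd.comp (Primrec.snd.comp (Primrec.snd.comp Primrec.snd))

theorem ifz {σ : Type*} [Primcodable σ] {d : α → ℕ} {k : ℕ} {f g : α → σ} (hd : Primrec d)
    (hf : Primrec f) (hg : Primrec g) : Primrec fun a => if d a = k then f a else g a :=
  Primrec.ite (Primrec.eq.comp hd (Primrec.const k)) hf hg

section

variable {ns nd : α → ℕ} {tr : α → ℕ → ℕ → Option (ℕ × ℕ × ℕ)} {hs : α → ℕ → Bool}

theorem signalP (hns : Primrec ns) (hnd : Primrec nd)
    (hhs : Primrec fun x : α × ℕ => hs x.1 x.2) :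
    Primrec fun a => signalP (ns a) (nd a) (hs a) := by
  unfold Vale.Agent.P113.signalP
  refine Primrec.list_flatMap (Primrec.list_range.comp hns) ?_
  refine Primrec.ite (Primrec.eq.comp hhs (Primrec.const true)) ?_ (Primrec.const [])
  exact pterm (Primrec.const _) (Primrec.const false) (Primrec.const oneFac)
    (bumpFac (mul (const 32) (powc (base (hns.comp Primrec.fst) (hnd.comp Primrec.fst)) 2))
      Primrec.snd) (Primrec.const oneFac)

theorem labelP (hns : Primrec ns) (hnd : Primrec nd)
    (htr : Primrec fun x : α × ℕ × ℕ => tr x.1 x.2.1 x.2.2) :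
    Primrec fun a => labelP (ns a) (nd a) (tr a) := by
  unfold Vale.Agent.P113.labelP
  refine overRules hns hnd htr ?_
  have hns' : Primrec fun x : RD α => ns x.1 := hns.comp Primrec.fst
  have hnd' : Primrec fun x : RD α => nd x.1 := hnd.comp Primrec.fst
  exact pterm (tri (mul (const 2) (lab hnd' rs rr rl)) (const 0)
      (sub (zslope hns' hnd') (const 1))) (Primrec.const false)
    (bumpFac (mul (const 32) (powc (base hns' hnd') 2)) rr)
    (bumpFac (mul (const 32) (powc (base hns' hnd') 3)) (add (mul rs (base hns' hnd')) rl))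
    (Primrec.const oneFac)

theorem shearXP {c : ℕ → ℕ → RatCode} (hc : Primrec₂ c) (hns : Primrec ns) (hnd : Primrec nd)
    (htr : Primrec fun x : α × ℕ × ℕ => tr x.1 x.2.1 x.2.2) :
    Primrec fun a => shearXP (ns a) (nd a) (tr a) c := by
  unfold Vale.Agent.P113.shearXP
  refine overRules hns hnd htr ?_
  have hns' : Primrec fun x : RD α => ns x.1 := hns.comp Primrec.fst
  have hnd' : Primrec fun x : RD α => nd x.1 := hnd.comp Primrec.fst
  exact pterm (hc.comp (base hns' hnd') rd) (Primrec.const false)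
    (Primrec.const oneFac) (Primrec.const linFac) (bumpFac (zslope hns' hnd') (lab hnd' rs rr rl))

theorem shearYP {c : ℕ → ℕ → RatCode} (hc : Primrec₂ c) (hns : Primrec ns) (hnd : Primrec nd)
    (htr : Primrec fun x : α × ℕ × ℕ => tr x.1 x.2.1 x.2.2) :
    Primrec fun a => shearYP (ns a) (nd a) (tr a) c := by
  unfold Vale.Agent.P113.shearYP
  refine overRules hns hnd htr ?_
  have hns' : Primrec fun x : RD α => ns x.1 := hns.comp Primrec.fst
  have hnd' : Primrec fun x : RD α => nd x.1 := hnd.comp Primrec.fst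
  exact pterm (hc.comp (base hns' hnd') rd) (Primrec.const false)
    (Primrec.const linFac) (Primrec.const oneFac) (bumpFac (zslope hns' hnd') (lab hnd' rs rr rl))

theorem transXP (hns : Primrec ns) (hnd : Primrec nd)
    (htr : Primrec fun x : α × ℕ × ℕ => tr x.1 x.2.1 x.2.2) :
    Primrec fun a => transXP (ns a) (nd a) (tr a) := by
  unfold Vale.Agent.P113.transXP
  refine overRules hns hnd htr ?_
  have hns' : Primrec fun x : RD α => ns x.1 := hns.comp Primrec.fst
  have hnd' : Primrec fun x : RD α => nd x.1 := hnd.comp Primrec.fst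
  have hb := base hns' hnd'
  refine pterm ?_ (Primrec.const false)
    (Primrec.const oneFac) (Primrec.const oneFac) (bumpFac (zslope hns' hnd') (lab hnd' rs rr rl))
  unfold Vale.Agent.P113.c5
  exact ifz rd (tri (add (mul rl hb) rw') rr (sub (mul (const 16) (powc hb 3)) (const 1)))
    (ifz rd (tri rw' rr (sub (mul (const 16) (powc hb 2)) (const 1)))
      (tri (const 0) rr (sub (mul (const 16) hb) (const 1))))

theorem transYP (hns : Primrec ns) (hnd : Primrec nd)
    (htr : Primrec fun x : α × ℕ × ℕ => tr x.1 x.2.1 x.2.2) :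
    Primrec fun a => transYP (ns a) (nd a) (tr a) := by
  unfold Vale.Agent.P113.transYP
  refine overRules hns hnd htr ?_
  have hns' : Primrec fun x : RD α => ns x.1 := hns.comp Primrec.fst
  have hnd' : Primrec fun x : RD α => nd x.1 := hnd.comp Primrec.fst
  have hb := base hns' hnd'
  refine pterm ?_ (Primrec.const false)
    (Primrec.const oneFac) (Primrec.const oneFac) (bumpFac (zslope hns' hnd') (lab hnd' rs rr rl))
  unfold Vale.Agent.P113.c6
  exact ifz rd (tri rs' (add (mul hb rs) rl) (sub (mul (const 16) (powc hb 2)) (const 1)))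
    (ifz rd (tri rs' rs (sub (mul (const 16) (powc hb 2)) (const 1)))
      (tri (add (mul rs' hb) rw') rs (sub (mul (const 16) (powc hb 3)) (const 1))))

theorem unlabelP (hns : Primrec ns) (hnd : Primrec nd)
    (htr : Primrec fun x : α × ℕ × ℕ => tr x.1 x.2.1 x.2.2) :
    Primrec fun a => unlabelP (ns a) (nd a) (tr a) := by
  unfold Vale.Agent.P113.unlabelP
  refine overRules hns hnd htr ?_
  have hns' : Primrec fun x : RD α => ns x.1 := hns.comp Primrec.fst
  have hnd' : Primrec fun x : RD α => nd x.1 := hnd.comp Primrec.fst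
  have hb := base hns' hnd'
  have hq : Primrec fun x : RD α => ((0, 2 * Vale.Agent.P113.lab (nd x.1) x.2.1.1 x.2.1.2.1 x.2.1.2.2,
      Vale.Agent.P113.zslope (ns x.1) (nd x.1) - 1) : RatCode) :=
    tri (const 0) (mul (const 2) (lab hnd' rs rr rl)) (sub (zslope hns' hnd') (const 1))
  refine ifz rd ?_ (ifz rd ?_ ?_)
  · exact pterm hq (Primrec.const false)
      (bumpFac (mul (const 32) (powc hb 3)) (add (mul rl hb) rw'))
      (bumpFac (mul (const 32) (powc hb 2)) rs') (Primrec.const oneFac)
  · exact pterm hq (Primrec.const false)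
      (bumpFac (mul (const 32) (powc hb 2)) rw')
      (bumpFac (mul (const 32) (powc hb 3)) (add (mul rs' hb) rl)) (Primrec.const oneFac)
  · exact pterm hq (Primrec.const false) (Primrec.const oneFac)
      (bumpFac (mul (const 32) (powc hb 4)) (add (mul (add (mul rs' hb) rw') hb) rl))
      (Primrec.const oneFac)

theorem c1 : Primrec₂ c1 := by
  unfold Vale.Agent.P113.c1
  exact ifz Primrec.snd (tri (const 0) Primrec.fst (const 0))
    (ifz Primrec.snd (Primrec.const _) (tri (const 0) (const 1) (sub Primrec.fst (const 1))))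

theorem c2 : Primrec₂ c2 := by
  unfold Vale.Agent.P113.c2
  exact ifz Primrec.snd (tri (const 1) Primrec.fst (sub Primrec.fst (const 1)))
    (ifz Primrec.snd (Primrec.const _) (tri Primrec.fst (const 1) (const 0)))

theorem c3 : Primrec₂ c3 := by
  unfold Vale.Agent.P113.c3
  exact ifz Primrec.snd (Primrec.const _) (ifz Primrec.snd (Primrec.const _) (Primrec.const _))

theorem c4 : Primrec₂ c4 := by
  unfold Vale.Agent.P113.c4
  exact ifz Primrec.snd (tri Primrec.fst (const 1) (const 0))
    (ifz Primrec.snd (Primrec.const _) (tri (const 1) Primrec.fst (sub Primrec.fst (const 1))))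

theorem digVal {b : α → ℕ} {l : α → List ℕ} (hb : Primrec b) (hl : Primrec l) :
    Primrec fun a => digVal (b a) (l a) := by
  unfold Vale.Agent.P113.digVal
  exact Primrec.list_foldl (h := fun a p => p.1 * b a + p.2) hl (const 0)
    (add (mul (Primrec.fst.comp Primrec.snd) (hb.comp Primrec.fst))
      (Primrec.snd.comp Primrec.snd))

theorem loadXP (hns : Primrec ns) (hnd : Primrec nd) {R : α → List ℕ} (hR : Primrec R) :
    Primrec fun a => loadXP (ns a) (nd a) (R a) := by
  unfold Vale.Agent.P113.loadXP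
  have hb := base hns hnd
  exact pterm (tri (digVal hb hR) (const 0) (sub (mul (mul (const 16) hb)
    (pow hb (Primrec.list_length.comp hR))) (const 1))) (Primrec.const false)
    (Primrec.const _) (Primrec.const _) (Primrec.const _)

theorem loadYP (hns : Primrec ns) (hnd : Primrec nd) {s0 : α → ℕ} (hs0 : Primrec s0) :
    Primrec fun a => loadYP (ns a) (nd a) (s0 a) := by
  unfold Vale.Agent.P113.loadYP
  have hb := base hns hnd
  exact pterm (tri hs0 (const 0) (sub (mul (mul (const 16) hb) hb) (const 1)))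
    (Primrec.const false) (Primrec.const _) (Primrec.const _) (Primrec.const _)

theorem periodP (hns : Primrec ns) (hnd : Primrec nd)
    (htr : Primrec fun x : α × ℕ × ℕ => tr x.1 x.2.1 x.2.2)
    (hhs : Primrec fun x : α × ℕ => hs x.1 x.2) {k : α → ℕ} (hk : Primrec k) :
    Primrec fun a => periodP (ns a) (nd a) (tr a) (hs a) (k a) := by
  unfold Vale.Agent.P113.periodP
  exact ifz hk (signalP hns hnd hhs) (ifz hk (labelP hns hnd htr) (ifz hk (shearXP c1 hns hnd htr)
    (ifz hk (shearYP c2 hns hnd htr) (ifz hk (shearXP c3 hns hnd htr)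
      (ifz hk (shearYP c4 hns hnd htr) (ifz hk (transXP hns hnd htr)
        (ifz hk (transYP hns hnd htr) (unlabelP hns hnd htr))))))))

/-- The profiles of a family of programs. -/
theorem progProf (hns : Primrec ns) (hnd : Primrec nd)
    (htr : Primrec fun x : α × ℕ × ℕ => tr x.1 x.2.1 x.2.2)
    (hhs : Primrec fun x : α × ℕ => hs x.1 x.2) {s0 : α → ℕ} (hs0 : Primrec s0)
    {R : α → List ℕ} (hR : Primrec R) :
    Primrec₂ fun a n => progProf (ns a) (nd a) (tr a) (hs a) (s0 a) (R a) n := by
  unfold Vale.Agent.P113.progProf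
  have f1 : Primrec (Prod.fst : α × ℕ → α) := Primrec.fst
  refine ifz Primrec.snd (loadXP (hns.comp f1) (hnd.comp f1) (hR.comp f1))
    (ifz Primrec.snd (loadYP (hns.comp f1) (hnd.comp f1) (hs0.comp f1))
      (periodP (hns.comp f1) (hnd.comp f1) ?_ ?_
        (Primrec.nat_mod.comp (sub Primrec.snd (const 2)) (const 9))))
  · exact htr.comp (Primrec.pair (f1.comp Primrec.fst) Primrec.snd)
  · exact hhs.comp (Primrec.pair (f1.comp Primrec.fst) Primrec.snd)

end

theorem periodDir {k : α → ℕ} (hk : Primrec k) : Primrec fun a => periodDir (k a) := by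
  have e : ∀ k, Vale.Agent.P113.periodDir k = if k = 0 then (2 : Fin 3) else if k = 1 then 2 else
      if k = 8 then 2 else if k = 2 then 0 else if k = 4 then 0 else if k = 6 then 0 else 1 := by
    intro k
    unfold Vale.Agent.P113.periodDir
    by_cases h0 : k = 0
    · simp [h0]
    by_cases h1 : k = 1
    · simp [h1]
    by_cases h8 : k = 8
    · simp [h8]
    by_cases h2 : k = 2
    · simp [h2]
    by_cases h4 : k = 4
    · simp [h4]
    by_cases h6 : k = 6
    · simp [h6]
    simp [h0, h1, h8, h2, h4, h6]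
  simp_rw [e]
  have c : ∀ i : Fin 3, Primrec fun _ : α => i := fun i => Primrec.const i
  exact ifz hk (c 2) (ifz hk (c 2) (ifz hk (c 2) (ifz hk (c 0) (ifz hk (c 0) (ifz hk (c 0) (c 1))))))

theorem progDir : Primrec progDir := by
  unfold Vale.Agent.P113.progDir
  exact ifz Primrec.id (Primrec.const 0) (ifz Primrec.id (Primrec.const 1)
    (periodDir (Primrec.nat_mod.comp (sub Primrec.id (const 2)) (const 9))))

/-- Clipping a table to the admissible range. -/
theorem clip {ns nd : α → ℕ} {tr : α → ℕ → ℕ → Option (ℕ × ℕ × ℕ)}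
    (hns : Primrec ns) (hnd : Primrec nd)
    (htr : Primrec fun x : α × ℕ × ℕ => tr x.1 x.2.1 x.2.2) :
    Primrec fun x : α × ℕ × ℕ => (tr x.1 x.2.1 x.2.2).bind fun p =>
      if p.1 < ns x.1 ∧ p.2.1 < nd x.1 then some p else none := by
  refine Primrec.option_bind htr ?_
  refine Primrec.ite (PrimrecPred.and (Primrec.nat_lt.comp ?_ ?_) (Primrec.nat_lt.comp ?_ ?_))
    (Primrec.option_some.comp Primrec.snd) (Primrec.const none)
  · exact Primrec.fst.comp Primrec.snd
  · exact hns.comp (Primrec.fst.comp Primrec.fst)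
  · exact Primrec.fst.comp (Primrec.snd.comp Primrec.snd)
  · exact hnd.comp (Primrec.fst.comp Primrec.fst)

end PC

end Vale.Agent.P113
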