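import Vale.Agent.P113.Force
import Vale.Agent.P113.Fluid
import Vale.Agent.P113.MicroComp
import Vale.Agent.P113.ProgComp

/-!
# P113: assembly
-/

open MeasureTheory Set Filter Topology
open scoped ContDiff

namespace Vale.Agent.P113

namespace Fl

/-- The schedule data attached to a description of a machine and an input. -/
noncomputable def D (b : Machine.Code × List ℕ) : SData :=
  Raw.data (Micro.ns b.1) (Micro.nd b.1) (Micro.tr b.1) (Micro.hs b.1) (Micro.st0 b.1)
    (Micro.ini b.1 b.2)

theorem D_prof (b : Machine.Code × List ℕ) (n : ℕ) : (D b).prof n =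
    progProf (Micro.ns b.1) (Micro.nd b.1) (Raw.clip (Micro.ns b.1) (Micro.nd b.1) (Micro.tr b.1))
      (Micro.hs b.1) (Micro.st0 b.1) (Micro.ini b.1 b.2) n := rfl

theorem D_prof_comp : Computable₂ fun (b : Machine.Code × List ℕ) n => (D b).prof n := by
  have f1 : Primrec fun b : Machine.Code × List ℕ => b.1 := Primrec.fst
  have hns : Primrec fun b : Machine.Code × List ℕ => Micro.ns b.1 := Micro.primrec_ns f1
  have hnd : Primrec fun b : Machine.Code × List ℕ => Micro.nd b.1 := Micro.primrec_nd f1
  have htr : Primrec fun x : (Machine.Code × List ℕ) × ℕ × ℕ => Micro.tr x.1.1 x.2.1 x.2.2 :=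
    Micro.primrec_tr (Primrec.fst.comp Primrec.fst) (Primrec.fst.comp Primrec.snd)
      (Primrec.snd.comp Primrec.snd)
  have hhs : Primrec fun x : (Machine.Code × List ℕ) × ℕ => Micro.hs x.1.1 x.2 :=
    Micro.primrec_hs (Primrec.fst.comp Primrec.fst) Primrec.snd
  have hcl : Primrec fun x : (Machine.Code × List ℕ) × ℕ × ℕ =>
      Raw.clip (Micro.ns x.1.1) (Micro.nd x.1.1) (Micro.tr x.1.1) x.2.1 x.2.2 :=
    @PC.clip (Machine.Code × List ℕ) _ (fun b => Micro.ns b.1) (fun b => Micro.nd b.1)
      (fun b => Micro.tr b.1) hns hnd htr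
  have h0 : Primrec fun b : Machine.Code × List ℕ => Micro.st0 b.1 := Micro.primrec_st0 f1
  have hR : Primrec fun b : Machine.Code × List ℕ => Micro.ini b.1 b.2 :=
    Micro.primrec_ini f1 Primrec.snd
  have h := PC.progProf (ns := fun b : Machine.Code × List ℕ => Micro.ns b.1)
    (nd := fun b => Micro.nd b.1) (tr := fun b : Machine.Code × List ℕ =>
    Raw.clip (Micro.ns b.1) (Micro.nd b.1) (Micro.tr b.1)) (hs := fun b => Micro.hs b.1)
    hns hnd hcl hhs h0 hR
  exact h.to_comp

/-- The input of a machine as a list of natural numbers. -/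
def word {M : Machine} (w : List (Fin (M.numSymbols + 1))) : List ℕ :=
  w.map Fin.val

theorem D_sched (M : Machine) (w : List (Fin (M.numSymbols + 1))) :
    (D (M.code, word w)).sched = ((compile M).prog (M.start : ℕ) (initR M w)).sched := by
  have h : D (M.code, word w) = Raw.data (compile M).ns (compile M).nd (compile M).tr
    (compile M).hs (M.start : ℕ) (initR M w) := rfl
  rw [h]
  exact Raw.data_eq (compile M) (fun _ _ _ _ => rfl) (fun _ _ => rfl) _ _

theorem initR_lt (M : Machine) (w : List (Fin (M.numSymbols + 1))) :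
    ∀ a ∈ initR M w, a < (compile M).nd := by
  intro a ha
  obtain ⟨i, hi, rfl⟩ := List.mem_iff_getElem.1 ha
  have h := (compile_ok M w).2.2 i
  have e : (c0 M w).R i = (initR M w)[i] := by
    change listTape (initR M w) i = _
    unfold listTape
    rw [List.getD_eq_getElem _ _ hi]
  rw [e] at h
  exact h

theorem start_lt (M : Machine) (w : List (Fin (M.numSymbols + 1))) :
    (M.start : ℕ) < (compile M).ns := (compile_ok M w).1

/-- The position of the particle at time `2`. -/
def load (b : Machine.Code × List ℕ) : RatCode × RatCode :=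
  ((digVal (base (Micro.ns b.1) (Micro.nd b.1)) (Micro.ini b.1 b.2), 0,
      16 * base (Micro.ns b.1) (Micro.nd b.1) *
        base (Micro.ns b.1) (Micro.nd b.1) ^ (Micro.ini b.1 b.2).length - 1),
    (Micro.st0 b.1, 0, 16 * base (Micro.ns b.1) (Micro.nd b.1) *
      base (Micro.ns b.1) (Micro.nd b.1) - 1))

theorem load_comp : Computable load := by
  have f1 : Primrec fun b : Machine.Code × List ℕ => b.1 := Primrec.fst
  have hns : Primrec fun b : Machine.Code × List ℕ => Micro.ns b.1 := Micro.primrec_ns f1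
  have hnd : Primrec fun b : Machine.Code × List ℕ => Micro.nd b.1 := Micro.primrec_nd f1
  have hR : Primrec fun b : Machine.Code × List ℕ => Micro.ini b.1 b.2 :=
    Micro.primrec_ini f1 Primrec.snd
  have hb := PC.base hns hnd
  exact (Primrec.pair (PC.tri (PC.digVal hb hR) (PC.const 0)
    (PC.sub (PC.mul (PC.mul (PC.const 16) hb) (PC.pow hb (Primrec.list_length.comp hR)))
      (PC.const 1)))
    (PC.tri (Micro.primrec_st0 f1) (PC.const 0)
      (PC.sub (PC.mul (PC.mul (PC.const 16) hb) hb) (PC.const 1)))).to_comp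

end Fl

open Fl

theorem main :
    ∃ (a : V) (O : Set V) (T₀ P : ℝ) (pos : Machine.Code × List ℕ → RatCode × RatCode),
      IsOpen O ∧ (∀ x k, x + Pi.single k 1 ∈ O ↔ x ∈ O) ∧ 0 ≤ T₀ ∧ 0 < P ∧ Computable pos ∧
    ∀ ν : ℝ, 0 < ν → ComputableReal ν →
    ∃ (comp : Machine.Code × List ℕ → Nat.Partrec.Code)
      (f : (M : Machine) → List (Fin (M.numSymbols + 1)) → ℝ → V → V),
      Computable comp ∧
      ∀ (M : Machine) (w : List (Fin (M.numSymbols + 1))),
        Computes (comp (M.code, w.map Fin.val)) (f M w) ∧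
        ContDiff ℝ ∞ (fun q : ℝ × V => f M w q.1 q.2) ∧ (∀ t, Periodic3 (f M w t)) ∧
        (∀ t, T₀ ≤ t → ∀ x, f M w (t + P) x = f M w t x) ∧
        (∀ t, T₀ ≤ t → ∀ w' x, f M w t x = f M w' t x) ∧
        ∃ (u : ℝ → V → V) (p : ℝ → V → ℝ),
          ContDiff ℝ ∞ (fun q : ℝ × V => u q.1 q.2) ∧ ContDiff ℝ ∞ (fun q : ℝ × V => p q.1 q.2) ∧
          (∀ T, 0 < T → IsClassicalSolution ν (f M w) T u p ∧
            ∀ u' p', IsClassicalSolution ν (f M w) T u' p' →
              ∀ t ∈ Icc 0 T, u' t = u t ∧ p' t = p t) ∧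
          (∃ X, IsTrajectory u a X) ∧
          ∀ X, IsTrajectory u a X →
            ((∃ t, 0 ≤ t ∧ X t ∈ O) ↔ M.HaltsOn w) ∧
            X T₀ = ![(pos (M.code, w.map Fin.val)).1.val,
              (pos (M.code, w.map Fin.val)).2.val, 0] := by
  refine ⟨0, target, 2, 9, load, target_open, target_periodic, by norm_num, by norm_num,
    load_comp, fun ν hν hc => ?_⟩
  obtain ⟨comp, hcomp, hcomputes⟩ := exists_compile_force D (fun _ n => progDir n)
    (fun _ _ => rfl) (PC.progDir.to_comp.comp Computable.snd) D_prof_comp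
    (CompReal.one.congr fun _ => rfl) hc
  refine ⟨comp, fun M w => (D (M.code, word w)).sched.force ν, hcomp, fun M w => ?_⟩
  refine ⟨hcomputes _, (D (M.code, word w)).sched.force_contDiff ν,
    fun t => (D (M.code, word w)).sched.force_periodic ν t, ?_, ?_,
    (D (M.code, word w)).sched.vel, fun _ _ => 0,
    (D (M.code, word w)).sched.vel_contDiff, contDiff_const, fun T hT => ?_,
    ⟨_, (D (M.code, word w)).sched.isTrajectory_traj 0⟩, fun X hX => ?_⟩
  · intro t ht x
    change (D (M.code, word w)).sched.force ν (t + 9) x = (D (M.code, word w)).sched.force ν t x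
    rw [D_sched]
    exact (compile M).force_nine _ _ ν ht x
  · intro t ht w' x
    change (D (M.code, word w)).sched.force ν t x = (D (M.code, word w')).sched.force ν t x
    rw [D_sched, D_sched]
    exact (compile M).force_tail _ _ _ _ ν ht x
  · refine ⟨(D (M.code, word w)).sched.isClassicalSolution ν T, fun u' p' h' t ht => ?_⟩
    exact uniqueness hν hT h' ((D (M.code, word w)).sched.isClassicalSolution ν T) t ht
  · rw [D_sched] at hX
    have hs := start_lt M w
    have hR := initR_lt M w
    refine ⟨?_, ?_⟩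
    · rw [(compile M).enters_iff hs hR (fun n => Or.inr (not_stuck M w n)) hX]
      exact reaches_iff M w
    · exact (compile M).traj_two hs hR hX

end Vale.Agent.P113
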