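import Vale.Agent.P113.Sched
import Vale.Agent.P113.CMP

/-!
# P113: the forces of finitely described schedules are computed by programs
-/

open MeasureTheory Set Filter Topology
open scoped ContDiff

namespace Vale.Agent.P113

theorem Primrec.decide_eq_nat {α : Type*} [Primcodable α] {f g : α → ℕ} (hf : Computable f)
    (hg : Computable g) : Computable fun a => decide (f a = g a) :=
  (Primrec.eq.decide.to_comp : Computable₂ fun a b : ℕ => decide (a = b)).comp hf hg

/-- Derivatives of the base functions at rational points. -/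
theorem CompReal.baseF : CompReal fun p : ℕ × ℕ × RatCode =>
    iteratedDeriv p.1 (baseF p.2.1) p.2.2.val := by
  have hm : Computable fun p : ℕ × ℕ × RatCode => p.1 := Computable.fst
  have hk : Computable fun p : ℕ × ℕ × RatCode => p.2.1 := Computable.fst.comp Computable.snd
  have hq : Computable fun p : ℕ × ℕ × RatCode => p.2.2 := Computable.snd.comp Computable.snd
  have c0 := Primrec.decide_eq_nat hk (Computable.const 0)
  have c1 := Primrec.decide_eq_nat hk (Computable.const 1)
  have cm := Primrec.decide_eq_nat hm (Computable.const 0)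
  have r1 := CompReal.smoothTransition.comp (Computable.pair hm hq)
  have r2 := CompReal.ramp.comp (Computable.pair hm hq)
  refine (CompReal.cond c0 (CompReal.cond cm CompReal.one CompReal.zero)
    (CompReal.cond c1 r1 r2)).congr fun p => ?_
  obtain ⟨m, k, q⟩ := p
  simp only
  by_cases h0 : k = 0
  · have e : Vale.Agent.P113.baseF k = fun _ => (1 : ℝ) := by
      funext x; simp [Vale.Agent.P113.baseF, h0]
    rw [e, iteratedDeriv_const]
    by_cases hm0 : m = 0 <;> simp [h0, hm0]
  · by_cases h1 : k = 1
    · have e : Vale.Agent.P113.baseF k = Real.smoothTransition := by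
        funext x; simp [Vale.Agent.P113.baseF, h1, S]
      rw [e]
      simp [h1]
    · have e : Vale.Agent.P113.baseF k = Vale.Agent.P113.ramp := by
        funext x; simp [Vale.Agent.P113.baseF, h0, h1, S, Vale.Agent.P113.ramp]
      rw [e]
      simp [h0, h1]

/-- Derivatives of factors at rational points. -/
theorem CompReal.fac : CompReal fun p : ℕ × Fac × RatCode =>
    iteratedDeriv p.1 (Fac.raw p.2.1) p.2.2.val := by
  have hm : Computable fun z : (ℕ × Fac × RatCode) × Atom => z.1.1 :=
    Computable.fst.comp Computable.fst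
  have hq : Computable fun z : (ℕ × Fac × RatCode) × Atom => z.1.2.2 :=
    Computable.snd.comp (Computable.snd.comp Computable.fst)
  have a1 : Computable fun z : (ℕ × Fac × RatCode) × Atom => z.2.1 :=
    Computable.fst.comp Computable.snd
  have a2 : Computable fun z : (ℕ × Fac × RatCode) × Atom => z.2.2.1 :=
    Computable.fst.comp (Computable.snd.comp Computable.snd)
  have a3 : Computable fun z : (ℕ × Fac × RatCode) × Atom => z.2.2.2.1 :=
    Computable.fst.comp (Computable.snd.comp (Computable.snd.comp Computable.snd))
  have a4 : Computable fun z : (ℕ × Fac × RatCode) × Atom => z.2.2.2.2 :=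
    Computable.snd.comp (Computable.snd.comp (Computable.snd.comp Computable.snd))
  have harg : Computable fun z : (ℕ × Fac × RatCode) × Atom =>
      qadd (qmul z.2.2.2.1 z.1.2.2) z.2.2.2.2 :=
    (qadd_prim.to_comp : Computable₂ qadd).comp
      ((qmul_prim.to_comp : Computable₂ qmul).comp a3 hq) a4
  have hb : CompReal fun z : (ℕ × Fac × RatCode) × Atom =>
      iteratedDeriv z.1.1 (Vale.Agent.P113.baseF z.2.2.1)
        (RatCode.val (qadd (qmul z.2.2.2.1 z.1.2.2) z.2.2.2.2)) :=
    CompReal.baseF.comp (f := fun z : (ℕ × Fac × RatCode) × Atom =>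
      (z.1.1, z.2.2.1, qadd (qmul z.2.2.2.1 z.1.2.2) z.2.2.2.2))
      (Computable.pair hm (Computable.pair a2 harg))
  have hterm : CompReal fun z : (ℕ × Fac × RatCode) × Atom =>
      RatCode.val z.2.1 * (RatCode.val z.2.2.2.1 ^ z.1.1 *
        iteratedDeriv z.1.1 (Vale.Agent.P113.baseF z.2.2.1)
          (RatCode.val z.2.2.2.1 * z.1.2.2.val + RatCode.val z.2.2.2.2)) :=
    ((CompReal.of_ratCode a1).mul (((CompReal.of_ratCode a3).pow hm).mul hb)).congr fun z => by
      rw [val_qadd, val_qmul]
  refine (hterm.listSum (l := fun p : ℕ × Fac × RatCode => p.2.1)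
    (Computable.fst.comp Computable.snd)).congr fun p => ?_
  rw [Fac.iteratedDeriv_raw]

theorem cf_val (q : RatCode) : cf q.val = RatCode.val (qcf q) := by
  rw [val_qcf, cf]

/-- The coefficient of a profile term, for a uniformly computable parameter. -/
theorem CompReal.coef {α : Type*} [Primcodable α] {h : α → ℝ} (hh : CompReal h) {T : α → PTerm}
    (hT : Computable T) : CompReal fun a => PTerm.coef (h a) (T a) := by
  have h1 : Computable fun a => (T a).1 := Computable.fst.comp hT
  have h2 : Computable fun a => (T a).2.1 := Computable.fst.comp (Computable.snd.comp hT)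
  refine ((CompReal.of_ratCode h1).mul (CompReal.cond h2 hh CompReal.one)).congr fun a => ?_
  unfold PTerm.coef
  cases (T a).2.1 <;> simp

/-- Values of the spatial derivatives of profiles at rational points. -/
theorem CompReal.dval {α : Type*} [Primcodable α] {h : α → ℝ} (hh : CompReal h)
    {P : α → Profile} (hP : Computable P) {β : α → ℕ × ℕ × ℕ} (hβ : Computable β)
    {x y z : α → RatCode} (hx : Computable x) (hy : Computable y) (hz : Computable z) :
    CompReal fun a => Profile.dval (h a) (P a) (β a) ![(x a).val, (y a).val, (z a).val] := by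
  have c : ∀ {w : α → RatCode}, Computable w → Computable fun u : α × PTerm => qcf (w u.1) :=
    fun hw => qcf_prim.to_comp.comp (hw.comp Computable.fst)
  have b0 : Computable fun u : α × PTerm => (β u.1).1 :=
    Computable.fst.comp (hβ.comp Computable.fst)
  have b1 : Computable fun u : α × PTerm => (β u.1).2.1 :=
    Computable.fst.comp (Computable.snd.comp (hβ.comp Computable.fst))
  have b2 : Computable fun u : α × PTerm => (β u.1).2.2 :=
    Computable.snd.comp (Computable.snd.comp (hβ.comp Computable.fst))
  have f0 : Computable fun u : α × PTerm => u.2.2.2.1 :=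
    Computable.fst.comp (Computable.snd.comp (Computable.snd.comp Computable.snd))
  have f1 : Computable fun u : α × PTerm => u.2.2.2.2.1 :=
    Computable.fst.comp (Computable.snd.comp (Computable.snd.comp (Computable.snd.comp
      Computable.snd)))
  have f2 : Computable fun u : α × PTerm => u.2.2.2.2.2 :=
    Computable.snd.comp (Computable.snd.comp (Computable.snd.comp (Computable.snd.comp
      Computable.snd)))
  have hco : CompReal fun u : α × PTerm => PTerm.coef (h u.1) u.2 :=
    CompReal.coef (hh.comp Computable.fst) Computable.snd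
  have r0 : CompReal fun u : α × PTerm =>
      iteratedDeriv (β u.1).1 (Fac.raw u.2.2.2.1) (RatCode.val (qcf (x u.1))) :=
    CompReal.fac.comp (f := fun u : α × PTerm => ((β u.1).1, u.2.2.2.1, qcf (x u.1)))
      (Computable.pair b0 (Computable.pair f0 (c hx)))
  have r1 : CompReal fun u : α × PTerm =>
      iteratedDeriv (β u.1).2.1 (Fac.raw u.2.2.2.2.1) (RatCode.val (qcf (y u.1))) :=
    CompReal.fac.comp (f := fun u : α × PTerm => ((β u.1).2.1, u.2.2.2.2.1, qcf (y u.1)))
      (Computable.pair b1 (Computable.pair f1 (c hy)))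
  have r2 : CompReal fun u : α × PTerm =>
      iteratedDeriv (β u.1).2.2 (Fac.raw u.2.2.2.2.2) (RatCode.val (qcf (z u.1))) :=
    CompReal.fac.comp (f := fun u : α × PTerm => ((β u.1).2.2, u.2.2.2.2.2, qcf (z u.1)))
      (Computable.pair b2 (Computable.pair f2 (c hz)))
  refine ((hco.mul ((r0.mul r1).mul r2)).listSum hP).congr fun a => ?_
  unfold Profile.dval
  congr 1
  apply List.map_congr_left
  intro T _
  simp [cf_val]

/-- natural-number floor of a rational code -/
def qnfloor (t : RatCode) : ℕ := (t.1 - t.2.1) / (t.2.2 + 1)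

theorem qnfloor_prim : Primrec qnfloor :=
  Primrec.nat_div.comp (Primrec.nat_sub.comp Primrec.fst (Primrec.fst.comp Primrec.snd))
    (Primrec.succ.comp (Primrec.snd.comp Primrec.snd))

theorem qnfloor_eq (t : RatCode) : qnfloor t = ⌊t.val⌋₊ := by
  obtain ⟨p, q, r⟩ := t
  simp only [qnfloor]
  rcases le_total q p with h | h
  · have e : RatCode.val (p, q, r) = ((p - q : ℕ) : ℝ) / ((r + 1 : ℕ) : ℝ) := by
      simp only [RatCode.val]
      push_cast [Nat.cast_sub h]
      rfl
    rw [e, Nat.floor_div_eq_div]
  · rw [Nat.sub_eq_zero_of_le h, Nat.zero_div, eq_comm, Nat.floor_eq_zero]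
    have : RatCode.val (p, q, r) ≤ 0 := by
      simp only [RatCode.val]
      have : (p : ℝ) ≤ q := by exact_mod_cast h
      apply div_nonpos_of_nonpos_of_nonneg <;> [linarith; positivity]
    linarith

/-- The mixed derivatives of the forces of a computable family of schedules are uniformly
computable. -/
theorem compReal_force {β : Type*} [Primcodable β] (D : β → SData) (dir : β → ℕ → Fin 3)
    (hdir : ∀ b n, (D b).dir n = dir b n) (hdirc : Computable₂ dir)
    (hprof : Computable₂ fun b n => (D b).prof n) (hh : CompReal fun b => (D b).h)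
    {ν : ℝ} (hν : ComputableReal ν) :
    CompReal fun u : β × (Fin 3 × (ℕ × ℕ × ℕ × ℕ) × (RatCode × RatCode × RatCode × RatCode)) =>
      if (D u.1).dir ⌊u.2.2.2.1.val⌋₊ = u.2.1 then
        (D u.1).phaseVal ν u.2.2.1 ⌊u.2.2.2.1.val⌋₊ u.2.2.2.1.val
          ![u.2.2.2.2.1.val, u.2.2.2.2.2.1.val, u.2.2.2.2.2.2.val] else 0 := by
  set A := β × (Fin 3 × (ℕ × ℕ × ℕ × ℕ) × (RatCode × RatCode × RatCode × RatCode)) with hA
  have cb : Computable fun u : A => u.1 := Computable.fst
  have ci : Computable fun u : A => u.2.1 := Computable.fst.comp Computable.snd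
  have cα : Computable fun u : A => u.2.2.1 :=
    Computable.fst.comp (Computable.snd.comp Computable.snd)
  have cp : Computable fun u : A => u.2.2.2 :=
    Computable.snd.comp (Computable.snd.comp Computable.snd)
  have ct : Computable fun u : A => u.2.2.2.1 := Computable.fst.comp cp
  have cx : Computable fun u : A => u.2.2.2.2.1 := Computable.fst.comp (Computable.snd.comp cp)
  have cy : Computable fun u : A => u.2.2.2.2.2.1 :=
    Computable.fst.comp (Computable.snd.comp (Computable.snd.comp cp))
  have cz : Computable fun u : A => u.2.2.2.2.2.2 :=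
    Computable.snd.comp (Computable.snd.comp (Computable.snd.comp cp))
  have cn : Computable fun u : A => qnfloor u.2.2.2.1 := qnfloor_prim.to_comp.comp ct
  have cP : Computable fun u : A => (D u.1).prof (qnfloor u.2.2.2.1) := hprof.comp cb cn
  have cd : Computable fun u : A => dir u.1 (qnfloor u.2.2.2.1) := hdirc.comp cb cn
  have α0 : Computable fun u : A => u.2.2.1.1 := Computable.fst.comp cα
  have α1 : Computable fun u : A => u.2.2.1.2.1 := Computable.fst.comp (Computable.snd.comp cα)
  have α2 : Computable fun u : A => u.2.2.1.2.2.1 :=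
    Computable.fst.comp (Computable.snd.comp (Computable.snd.comp cα))
  have α3 : Computable fun u : A => u.2.2.1.2.2.2 :=
    Computable.snd.comp (Computable.snd.comp (Computable.snd.comp cα))
  have s2 : ∀ {f : A → ℕ}, Computable f → Computable fun u => f u + 2 := fun hf =>
    Computable.succ.comp (Computable.succ.comp hf)
  have hhu : CompReal fun u : A => (D u.1).h := hh.comp cb
  have d0 := CompReal.dval hhu cP (Computable.pair α1 (Computable.pair α2 α3)) cx cy cz
  have d1 := CompReal.dval hhu cP (Computable.pair (s2 α1) (Computable.pair α2 α3)) cx cy cz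
  have d2 := CompReal.dval hhu cP (Computable.pair α1 (Computable.pair (s2 α2) α3)) cx cy cz
  have d3 := CompReal.dval hhu cP (Computable.pair α1 (Computable.pair α2 (s2 α3))) cx cy cz
  -- the time factor
  have ctn : Computable fun u : A => qadd u.2.2.2.1 (qneg (qnat (qnfloor u.2.2.2.1))) :=
    (qadd_prim.to_comp : Computable₂ qadd).comp ct
      (qneg_prim.to_comp.comp (qnat_prim.to_comp.comp cn))
  have t1 : CompReal fun u : A => iteratedDeriv (u.2.2.1.1 + 1) S
      (RatCode.val (qadd u.2.2.2.1 (qneg (qnat (qnfloor u.2.2.2.1))))) :=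
    CompReal.smoothTransition.comp (Computable.pair (Computable.succ.comp α0) ctn)
  have t2 : CompReal fun u : A => iteratedDeriv (u.2.2.1.1 + 2) S
      (RatCode.val (qadd u.2.2.2.1 (qneg (qnat (qnfloor u.2.2.2.1))))) :=
    CompReal.smoothTransition.comp (Computable.pair (s2 α0) ctn)
  have hval := (t2.mul d0).sub (hν.compReal.mul (t1.mul ((d1.add d2).add d3)))
  have cdec : Computable fun u : A => decide (dir u.1 (qnfloor u.2.2.2.1) = u.2.1) :=
    (Primrec.eq.decide.to_comp : Computable₂ fun a b : Fin 3 => decide (a = b)).comp cd ci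
  refine (CompReal.cond cdec hval CompReal.zero).congr fun u => ?_
  rw [hdir, qnfloor_eq, val_qadd, val_qneg, val_qnat, ← sub_eq_add_neg]
  by_cases hd : dir u.1 ⌊u.2.2.2.1.val⌋₊ = u.2.1
  · simp only [hd, decide_true, cond_true, if_true]
    rfl
  · simp [hd]

/-- The compiler for a computable family of schedules. -/
theorem exists_compile_force {β : Type*} [Primcodable β] (D : β → SData) (dir : β → ℕ → Fin 3)
    (hdir : ∀ b n, (D b).dir n = dir b n) (hdirc : Computable₂ dir)
    (hprof : Computable₂ fun b n => (D b).prof n) (hh : CompReal fun b => (D b).h)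
    {ν : ℝ} (hν : ComputableReal ν) :
    ∃ compile : β → Nat.Partrec.Code, Computable compile ∧
      ∀ b, Computes (compile b) ((D b).sched.force ν) := by
  obtain ⟨compile, hc, hcomp⟩ := exists_compiler _ (compReal_force D dir hdir hdirc hprof hh hν)
  refine ⟨compile, hc, fun b i α t x y z n ht => ?_⟩
  obtain ⟨r, hr1, hr2⟩ := hcomp b i α t x y z n
  refine ⟨r, hr1, ?_⟩
  rw [(D b).mixedDeriv_force ν α i ht]
  exact hr2

end Vale.Agent.P113
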