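import Vale.Agent.P113.Rev

/-!
# P113: compiling a machine to a locally reversible micro machine

The micro machine has four families of states (`B q`, `N q`, `M (q, a)`, `G (q, a)`) and symbols
`(a, mark, r)` with `r` one of `none` (coded `0`), `END` (coded `1`), `rec (q, a)` (coded
`2 + q * nA + a`). All data are given by explicit arithmetic formulas in the finite description of
the machine.
-/

namespace Vale.Agent.P113

namespace Micro

open Machine

/-- Number of states. -/
def nQ (c : Code) : ℕ := c.1.1 + 1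
/-- Number of symbols. -/
def nA (c : Code) : ℕ := c.1.2 + 1
/-- Start state. -/
def st0 (c : Code) : ℕ := c.2.1.1
/-- Blank symbol. -/
def bl (c : Code) : ℕ := c.2.1.2
/-- Code of a pair (state, symbol). -/
def pr (c : Code) (q a : ℕ) : ℕ := q * nA c + a
/-- Table lookup. -/
def dl (c : Code) (q a : ℕ) : ℕ × ℕ × ℕ := c.2.2.2.getD (pr c q a) (0, 0, 0)
/-- Halting flag. -/
def hl (c : Code) (q : ℕ) : Bool := c.2.2.1.getD q false
/-- Exchange the blank and `0`. -/
def sw (c : Code) (a : ℕ) : ℕ := if a = bl c then 0 else if a = 0 then bl c else a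

/-- Code of the symbol `(a, m, r)`. -/
def enc (c : Code) (a m r : ℕ) : ℕ := (r * 2 + m) * nA c + sw c a
/-- First component of a symbol. -/
def dA (c : Code) (d : ℕ) : ℕ := sw c (d % nA c)
/-- Mark. -/
def dM (c : Code) (d : ℕ) : ℕ := d / nA c % 2
/-- Third component. -/
def dR (c : Code) (d : ℕ) : ℕ := d / nA c / 2

/-- Codes of the states. -/
def stB (_c : Code) (q : ℕ) : ℕ := q
def stN (c : Code) (q : ℕ) : ℕ := nQ c + q
def stM (c : Code) (q a : ℕ) : ℕ := 2 * nQ c + pr c q a
def stG (c : Code) (q a : ℕ) : ℕ := 2 * nQ c + nQ c * nA c + pr c q a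

/-- Number of states of the micro machine. -/
def ns (c : Code) : ℕ := 2 * nQ c + 2 * (nQ c * nA c)
/-- Number of symbols of the micro machine. -/
def nd (c : Code) : ℕ := (2 + nQ c * nA c) * 2 * nA c

/-- Rule table of the micro machine. -/
def tr (c : Code) (s d : ℕ) : Option (ℕ × ℕ × ℕ) :=
  if s < nQ c then
    if dM c d = 1 then
      some (stM c s (dA c d), enc c (dl c s (dA c d)).2.1 0 (dR c d), (dl c s (dA c d)).2.2)
    else if dR c d = 1 then none else some (s, d, 0)
  else if s < 2 * nQ c then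
    if dM c d = 0 then
      if dR c d = 0 then some (s - nQ c, enc c (dA c d) 0 1, 0) else none
    else none
  else if s < 2 * nQ c + nQ c * nA c then
    if dM c d = 0 then some (s + nQ c * nA c, enc c (dA c d) 1 (dR c d), 2) else none
  else
    if dM c d = 0 then
      if dR c d = 1 then
        some (stN c (dl c ((s - 2 * nQ c - nQ c * nA c) / nA c)
            ((s - 2 * nQ c - nQ c * nA c) % nA c)).1,
          enc c (dA c d) 0 (2 + (s - 2 * nQ c - nQ c * nA c)), 2)
      else some (s, d, 2)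
    else none

/-- Flagged states. -/
def hs (c : Code) (s : ℕ) : Bool := if s < nQ c then hl c s else false

/-- The right half tape of the initial configuration. -/
def ini (c : Code) (l : List ℕ) : List ℕ :=
  (List.range (max l.length 3)).map fun i =>
    enc c (l.getD i (bl c)) (if i = 0 then 1 else 0) (if i = 2 then 1 else 0)

/-- Well-formed descriptions. -/
structure WF (c : Code) : Prop where
  bl_lt : bl c < nA c
  st_lt : st0 c < nQ c
  dl1 : ∀ q a, q < nQ c → a < nA c → (dl c q a).1 < nQ c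
  dl2 : ∀ q a, q < nQ c → a < nA c → (dl c q a).2.1 < nA c
  dl3 : ∀ q a, q < nQ c → a < nA c → (dl c q a).2.2 ≤ 2

lemma nA_pos (c : Code) : 0 < nA c := Nat.succ_pos _

lemma nQ_pos (c : Code) : 0 < nQ c := Nat.succ_pos _

lemma sw_lt {c : Code} (h : WF c) {a : ℕ} (ha : a < nA c) : sw c a < nA c := by
  have := h.bl_lt
  unfold sw
  split_ifs <;> omega

lemma sw_sw (c : Code) (a : ℕ) : sw c (sw c a) = a := by
  unfold sw
  split_ifs <;> omega

lemma sw_bl (c : Code) : sw c (bl c) = 0 := by
  simp [sw]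

lemma enc_mod {c : Code} (h : WF c) {a m r : ℕ} (ha : a < nA c) :
    enc c a m r % nA c = sw c a := by
  unfold enc
  rw [Nat.mul_add_mod_self_right, Nat.mod_eq_of_lt (sw_lt h ha)]

lemma enc_div {c : Code} (h : WF c) {a m r : ℕ} (ha : a < nA c) :
    enc c a m r / nA c = r * 2 + m := by
  unfold enc
  rw [Nat.mul_comm, Nat.mul_add_div (nA_pos c), Nat.div_eq_of_lt (sw_lt h ha), Nat.add_zero]

lemma dA_enc {c : Code} (h : WF c) {a m r : ℕ} (ha : a < nA c) : dA c (enc c a m r) = a := by
  rw [dA, enc_mod h ha, sw_sw]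

lemma dM_enc {c : Code} (h : WF c) {a m r : ℕ} (ha : a < nA c) (hm : m < 2) :
    dM c (enc c a m r) = m := by
  rw [dM, enc_div h ha]; omega

lemma dR_enc {c : Code} (h : WF c) {a m r : ℕ} (ha : a < nA c) (hm : m < 2) :
    dR c (enc c a m r) = r := by
  rw [dR, enc_div h ha]; omega

lemma dA_lt {c : Code} (h : WF c) (d : ℕ) : dA c d < nA c := sw_lt h (Nat.mod_lt _ (nA_pos c))

lemma dM_lt (c : Code) (d : ℕ) : dM c d < 2 := Nat.mod_lt _ (by norm_num)

lemma enc_dec (c : Code) (d : ℕ) : enc c (dA c d) (dM c d) (dR c d) = d := by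
  unfold enc dA dM dR
  rw [sw_sw]
  have h1 : d / nA c / 2 * 2 + d / nA c % 2 = d / nA c := Nat.div_add_mod' _ _
  rw [h1]
  exact Nat.div_add_mod' _ _

lemma enc_inj {c : Code} (h : WF c) {a m r a' m' r' : ℕ} (ha : a < nA c) (hm : m < 2)
    (ha' : a' < nA c) (hm' : m' < 2) (he : enc c a m r = enc c a' m' r') :
    a = a' ∧ m = m' ∧ r = r' := by
  refine ⟨?_, ?_, ?_⟩
  · rw [← dA_enc h (m := m) (r := r) ha, he, dA_enc h ha']
  · rw [← dM_enc h (r := r) ha hm, he, dM_enc h ha' hm']
  · rw [← dR_enc h (r := r) ha hm, he, dR_enc h ha' hm']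

lemma enc_lt {c : Code} (h : WF c) {a m r : ℕ} (ha : a < nA c) (hm : m < 2)
    (hr : r < 2 + nQ c * nA c) : enc c a m r < nd c := by
  have h1 := sw_lt h ha
  have h2 : r * 2 + m + 1 ≤ (2 + nQ c * nA c) * 2 := by omega
  have h3 := Nat.mul_le_mul_right (nA c) h2
  unfold enc nd
  calc (r * 2 + m) * nA c + sw c a < (r * 2 + m) * nA c + nA c := by omega
    _ = (r * 2 + m + 1) * nA c := by ring
    _ ≤ _ := h3

lemma dR_lt {c : Code} {d : ℕ} (hd : d < nd c) : dR c d < 2 + nQ c * nA c := by
  unfold dR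
  rw [Nat.div_lt_iff_lt_mul (by norm_num), Nat.div_lt_iff_lt_mul (nA_pos c)]
  exact hd

lemma pr_lt {c : Code} {q a : ℕ} (hq : q < nQ c) (ha : a < nA c) : pr c q a < nQ c * nA c := by
  unfold pr
  calc q * nA c + a < q * nA c + nA c := by omega
    _ = (q + 1) * nA c := by ring
    _ ≤ _ := Nat.mul_le_mul_right _ hq

lemma pr_mod {c : Code} {q a : ℕ} (ha : a < nA c) : pr c q a % nA c = a := by
  unfold pr
  rw [Nat.mul_add_mod_self_right, Nat.mod_eq_of_lt ha]

lemma pr_div {c : Code} {q a : ℕ} (ha : a < nA c) : pr c q a / nA c = q := by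
  unfold pr
  rw [Nat.mul_comm, Nat.mul_add_div (nA_pos c), Nat.div_eq_of_lt ha, Nat.add_zero]

lemma pr_inj {c : Code} {q a q' a' : ℕ} (ha : a < nA c) (ha' : a' < nA c)
    (h : pr c q a = pr c q' a') : q = q' ∧ a = a' := by
  refine ⟨?_, ?_⟩
  · rw [← pr_div (q := q) ha, h, pr_div ha']
  · rw [← pr_mod (q := q) ha, h, pr_mod ha']

lemma pr_dec (c : Code) (k : ℕ) : pr c (k / nA c) (k % nA c) = k := Nat.div_add_mod' _ _

/-- The six rules. -/
inductive Rule (c : Code) : ℕ → ℕ → ℕ → ℕ → ℕ → Prop
  | r1 (q a r : ℕ) (hq : q < nQ c) (ha : a < nA c) (hr : r < 2 + nQ c * nA c) :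
      Rule c (stB c q) (enc c a 1 r) (stM c q a) (enc c (dl c q a).2.1 0 r) (dl c q a).2.2
  | r2 (q a x r : ℕ) (hq : q < nQ c) (ha : a < nA c) (hx : x < nA c)
      (hr : r < 2 + nQ c * nA c) :
      Rule c (stM c q a) (enc c x 0 r) (stG c q a) (enc c x 1 r) 2
  | r3 (q a x r : ℕ) (hq : q < nQ c) (ha : a < nA c) (hx : x < nA c)
      (hr : r < 2 + nQ c * nA c) (hr1 : r ≠ 1) :
      Rule c (stG c q a) (enc c x 0 r) (stG c q a) (enc c x 0 r) 2
  | r4 (q a x : ℕ) (hq : q < nQ c) (ha : a < nA c) (hx : x < nA c) :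
      Rule c (stG c q a) (enc c x 0 1) (stN c (dl c q a).1) (enc c x 0 (2 + pr c q a)) 2
  | r5 (q x : ℕ) (hq : q < nQ c) (hx : x < nA c) :
      Rule c (stN c q) (enc c x 0 0) (stB c q) (enc c x 0 1) 0
  | r6 (q x r : ℕ) (hq : q < nQ c) (hx : x < nA c) (hr : r < 2 + nQ c * nA c) (hr1 : r ≠ 1) :
      Rule c (stB c q) (enc c x 0 r) (stB c q) (enc c x 0 r) 0

lemma tr_of_rule {c : Code} (h : WF c) {s d s' w v : ℕ} (hR : Rule c s d s' w v) :
    tr c s d = some (s', w, v) := by
  cases hR with
  | r1 q a r hq ha hr =>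
    unfold tr stB
    rw [if_pos hq, dM_enc h ha (by norm_num), if_pos rfl, dA_enc h ha, dR_enc h ha (by norm_num)]
  | r2 q a x r hq ha hx hr =>
    have h1 := pr_lt hq ha
    have h2 := nQ_pos c
    unfold tr stM stG
    rw [if_neg (by omega), if_neg (by omega), if_pos (by omega), dM_enc h hx (by norm_num),
      if_pos rfl, dA_enc h hx, dR_enc h hx (by norm_num)]
    congr 2
    ring
  | r3 q a x r hq ha hx hr hr1 =>
    have h1 := pr_lt hq ha
    have h2 := nQ_pos c
    unfold tr stG
    rw [if_neg (by omega), if_neg (by omega), if_neg (by omega), dM_enc h hx (by norm_num),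
      if_pos rfl, dR_enc h hx (by norm_num), if_neg hr1]
  | r4 q a x hq ha hx =>
    have h1 := pr_lt hq ha
    have h2 := nQ_pos c
    unfold tr stG
    rw [if_neg (by omega), if_neg (by omega), if_neg (by omega), dM_enc h hx (by norm_num),
      if_pos rfl, dR_enc h hx (by norm_num), if_pos rfl, dA_enc h hx]
    have h3 : 2 * nQ c + nQ c * nA c + pr c q a - 2 * nQ c - nQ c * nA c = pr c q a := by omega
    rw [h3, pr_div ha, pr_mod ha]
  | r5 q x hq hx =>
    have h2 := nQ_pos c
    unfold tr stN stB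
    rw [if_neg (by omega), if_pos (by omega), dM_enc h hx (by norm_num),
      if_pos rfl, dR_enc h hx (by norm_num), if_pos rfl, dA_enc h hx, Nat.add_sub_cancel_left]
  | r6 q x r hq hx hr hr1 =>
    unfold tr stB
    rw [if_pos hq, dM_enc h hx (by norm_num), if_neg (by norm_num), dR_enc h hx (by norm_num),
      if_neg hr1]

lemma rule_of_tr {c : Code} (h : WF c) {s d s' w v : ℕ} (hs : s < ns c) (hd : d < nd c)
    (hT : tr c s d = some (s', w, v)) : Rule c s d s' w v := by
  have hdec := enc_dec c d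
  have hA := dA_lt h d
  have hM := dM_lt c d
  have hR := dR_lt hd
  unfold tr at hT
  unfold ns at hs
  split_ifs at hT with h1 h2 h3 h4 h5 h6 h7 h8 h9 h10
  · simp only [Option.some.injEq, Prod.mk.injEq] at hT
    obtain ⟨rfl, rfl, rfl⟩ := hT
    rw [h2] at hdec
    have := Rule.r1 (c := c) s (dA c d) (dR c d) h1 hA hR
    rw [hdec] at this
    exact this
  · simp only [Option.some.injEq, Prod.mk.injEq] at hT
    obtain ⟨rfl, rfl, rfl⟩ := hT
    have h0 : dM c d = 0 := by omega
    rw [h0] at hdec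
    have := Rule.r6 (c := c) s (dA c d) (dR c d) h1 hA hR h3
    rw [hdec] at this
    exact this
  · simp only [Option.some.injEq, Prod.mk.injEq] at hT
    obtain ⟨rfl, rfl, rfl⟩ := hT
    rw [h5, h6] at hdec
    have := Rule.r5 (c := c) (s - nQ c) (dA c d) (by omega) hA
    rw [hdec] at this
    have h7 : stN c (s - nQ c) = s := by unfold stN; omega
    rw [h7] at this
    exact this
  · simp only [Option.some.injEq, Prod.mk.injEq] at hT
    obtain ⟨rfl, rfl, rfl⟩ := hT
    rw [h8] at hdec
    have hk : (s - 2 * nQ c) / nA c < nQ c := by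
      rw [Nat.div_lt_iff_lt_mul (nA_pos c)]; omega
    have := Rule.r2 (c := c) ((s - 2 * nQ c) / nA c) ((s - 2 * nQ c) % nA c) (dA c d) (dR c d)
      hk (Nat.mod_lt _ (nA_pos c)) hA hR
    rw [hdec] at this
    unfold stM stG at this
    rw [pr_dec] at this
    have e1 : 2 * nQ c + (s - 2 * nQ c) = s := by omega
    have e2 : 2 * nQ c + nQ c * nA c + (s - 2 * nQ c) = s + nQ c * nA c := by omega
    rw [e1, e2] at this
    exact this
  · simp only [Option.some.injEq, Prod.mk.injEq] at hT
    obtain ⟨rfl, rfl, rfl⟩ := hT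
    rw [h9, h10] at hdec
    have hk : (s - 2 * nQ c - nQ c * nA c) / nA c < nQ c := by
      rw [Nat.div_lt_iff_lt_mul (nA_pos c)]; omega
    have := Rule.r4 (c := c) ((s - 2 * nQ c - nQ c * nA c) / nA c)
      ((s - 2 * nQ c - nQ c * nA c) % nA c) (dA c d)
      hk (Nat.mod_lt _ (nA_pos c)) hA
    rw [hdec] at this
    unfold stG at this
    rw [pr_dec] at this
    have e1 : 2 * nQ c + nQ c * nA c + (s - 2 * nQ c - nQ c * nA c) = s := by omega
    rw [e1] at this
    exact this
  · simp only [Option.some.injEq, Prod.mk.injEq] at hT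
    obtain ⟨rfl, rfl, rfl⟩ := hT
    rw [h9] at hdec
    have hk : (s - 2 * nQ c - nQ c * nA c) / nA c < nQ c := by
      rw [Nat.div_lt_iff_lt_mul (nA_pos c)]; omega
    have := Rule.r3 (c := c) ((s - 2 * nQ c - nQ c * nA c) / nA c)
      ((s - 2 * nQ c - nQ c * nA c) % nA c) (dA c d) (dR c d)
      hk (Nat.mod_lt _ (nA_pos c)) hA hR h10
    rw [hdec] at this
    unfold stG at this
    rw [pr_dec] at this
    have e1 : 2 * nQ c + nQ c * nA c + (s - 2 * nQ c - nQ c * nA c) = s := by omega
    rw [e1] at this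
    exact this

lemma rule_bound {c : Code} (h : WF c) {s d s' w v : ℕ} (hR : Rule c s d s' w v) :
    s' < ns c ∧ w < nd c ∧ v ≤ 2 := by
  have h2 := nQ_pos c
  cases hR with
  | r1 q a r hq ha hr =>
    have h1 := pr_lt hq ha
    exact ⟨by unfold ns stM; omega, enc_lt h (h.dl2 q a hq ha) (by norm_num) hr, h.dl3 q a hq ha⟩
  | r2 q a x r hq ha hx hr =>
    have h1 := pr_lt hq ha
    exact ⟨by unfold ns stG; omega, enc_lt h hx (by norm_num) hr, le_refl _⟩
  | r3 q a x r hq ha hx hr hr1 =>
    have h1 := pr_lt hq ha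
    exact ⟨by unfold ns stG; omega, enc_lt h hx (by norm_num) hr, le_refl _⟩
  | r4 q a x hq ha hx =>
    have h1 := pr_lt hq ha
    have h3 := h.dl1 q a hq ha
    exact ⟨by unfold ns stN; omega, enc_lt h hx (by norm_num) (by omega), le_refl _⟩
  | r5 q x hq hx =>
    exact ⟨by unfold ns stB; omega, enc_lt h hx (by norm_num) (by omega), by norm_num⟩
  | r6 q x r hq hx hr hr1 =>
    exact ⟨by unfold ns stB; omega, enc_lt h hx (by norm_num) hr, by norm_num⟩

lemma rule_inj {c : Code} (h : WF c) {s d s₂ d₂ s' w v s₂' w₂ v₂ : ℕ} (hR : Rule c s d s' w v)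
    (hR₂ : Rule c s₂ d₂ s₂' w₂ v₂) (hs : s' = s₂') (hw : w = w₂) : s = s₂ ∧ d = d₂ := by
  cases hR with
  | r1 q a r hq ha hr =>
    have h1 := pr_lt hq ha
    cases hR₂ with
    | r1 q₂ a₂ r₂ hq₂ ha₂ hr₂ =>
      have h3 : pr c q a = pr c q₂ a₂ := by unfold stM at hs; omega
      obtain ⟨rfl, rfl⟩ := pr_inj ha ha₂ h3
      have h4 := h.dl2 q a hq ha
      obtain ⟨-, -, rfl⟩ := enc_inj h h4 (by norm_num) h4 (by norm_num) hw
      exact ⟨rfl, rfl⟩
    | r2 q₂ a₂ x₂ r₂ hq₂ ha₂ hx₂ hr₂ =>
      exfalso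
      unfold stM stG at hs; omega
    | r3 q₂ a₂ x₂ r₂ hq₂ ha₂ hx₂ hr₂ hr1₂ =>
      exfalso
      unfold stM stG at hs; omega
    | r4 q₂ a₂ x₂ hq₂ ha₂ hx₂ =>
      exfalso
      have h4 := h.dl1 q₂ a₂ hq₂ ha₂
      unfold stM stN at hs; omega
    | r5 q₂ x₂ hq₂ hx₂ =>
      exfalso
      unfold stM stB at hs; omega
    | r6 q₂ x₂ r₂ hq₂ hx₂ hr₂ hr1₂ =>
      exfalso
      unfold stM stB at hs; omega
  | r2 q a x r hq ha hx hr =>
    have h1 := pr_lt hq ha
    cases hR₂ with
    | r1 q₂ a₂ r₂ hq₂ ha₂ hr₂ =>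
      have h2 := pr_lt hq₂ ha₂
      exfalso
      unfold stM stG at hs; omega
    | r2 q₂ a₂ x₂ r₂ hq₂ ha₂ hx₂ hr₂ =>
      have h3 : pr c q a = pr c q₂ a₂ := by unfold stG at hs; omega
      obtain ⟨rfl, rfl⟩ := pr_inj ha ha₂ h3
      obtain ⟨rfl, -, rfl⟩ := enc_inj h hx (by norm_num) hx₂ (by norm_num) hw
      exact ⟨rfl, rfl⟩
    | r3 q₂ a₂ x₂ r₂ hq₂ ha₂ hx₂ hr₂ hr1₂ =>
      exfalso
      obtain ⟨-, h5, -⟩ := enc_inj h hx (by norm_num) hx₂ (by norm_num) hw
      omega
    | r4 q₂ a₂ x₂ hq₂ ha₂ hx₂ =>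
      exfalso
      have h4 := h.dl1 q₂ a₂ hq₂ ha₂
      unfold stG stN at hs; omega
    | r5 q₂ x₂ hq₂ hx₂ =>
      exfalso
      unfold stG stB at hs; omega
    | r6 q₂ x₂ r₂ hq₂ hx₂ hr₂ hr1₂ =>
      exfalso
      unfold stG stB at hs; omega
  | r3 q a x r hq ha hx hr hr1 =>
    have h1 := pr_lt hq ha
    cases hR₂ with
    | r1 q₂ a₂ r₂ hq₂ ha₂ hr₂ =>
      have h2 := pr_lt hq₂ ha₂
      exfalso
      unfold stM stG at hs; omega
    | r2 q₂ a₂ x₂ r₂ hq₂ ha₂ hx₂ hr₂ =>
      exfalso
      obtain ⟨-, h5, -⟩ := enc_inj h hx (by norm_num) hx₂ (by norm_num) hw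
      omega
    | r3 q₂ a₂ x₂ r₂ hq₂ ha₂ hx₂ hr₂ hr1₂ =>
      exact ⟨hs, hw⟩
    | r4 q₂ a₂ x₂ hq₂ ha₂ hx₂ =>
      exfalso
      have h4 := h.dl1 q₂ a₂ hq₂ ha₂
      unfold stG stN at hs; omega
    | r5 q₂ x₂ hq₂ hx₂ =>
      exfalso
      unfold stG stB at hs; omega
    | r6 q₂ x₂ r₂ hq₂ hx₂ hr₂ hr1₂ =>
      exfalso
      unfold stG stB at hs; omega
  | r4 q a x hq ha hx =>
    have h1 := pr_lt hq ha
    have h4 := h.dl1 q a hq ha
    cases hR₂ with
    | r1 q₂ a₂ r₂ hq₂ ha₂ hr₂ =>
      exfalso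
      unfold stN stM at hs; omega
    | r2 q₂ a₂ x₂ r₂ hq₂ ha₂ hx₂ hr₂ =>
      exfalso
      unfold stN stG at hs; omega
    | r3 q₂ a₂ x₂ r₂ hq₂ ha₂ hx₂ hr₂ hr1₂ =>
      exfalso
      unfold stN stG at hs; omega
    | r4 q₂ a₂ x₂ hq₂ ha₂ hx₂ =>
      obtain ⟨rfl, -, h5⟩ := enc_inj h hx (by norm_num) hx₂ (by norm_num) hw
      have h6 : pr c q a = pr c q₂ a₂ := by omega
      obtain ⟨rfl, rfl⟩ := pr_inj ha ha₂ h6
      exact ⟨rfl, rfl⟩
    | r5 q₂ x₂ hq₂ hx₂ =>
      exfalso
      unfold stN stB at hs; omega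
    | r6 q₂ x₂ r₂ hq₂ hx₂ hr₂ hr1₂ =>
      exfalso
      unfold stN stB at hs; omega
  | r5 q x hq hx =>
    cases hR₂ with
    | r1 q₂ a₂ r₂ hq₂ ha₂ hr₂ =>
      exfalso
      unfold stB stM at hs; omega
    | r2 q₂ a₂ x₂ r₂ hq₂ ha₂ hx₂ hr₂ =>
      exfalso
      unfold stB stG at hs; omega
    | r3 q₂ a₂ x₂ r₂ hq₂ ha₂ hx₂ hr₂ hr1₂ =>
      exfalso
      unfold stB stG at hs; omega
    | r4 q₂ a₂ x₂ hq₂ ha₂ hx₂ =>
      exfalso
      unfold stB stN at hs; omega
    | r5 q₂ x₂ hq₂ hx₂ =>
      obtain ⟨rfl, -, -⟩ := enc_inj h hx (by norm_num) hx₂ (by norm_num) hw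
      have h6 : q = q₂ := hs
      subst h6
      exact ⟨rfl, rfl⟩
    | r6 q₂ x₂ r₂ hq₂ hx₂ hr₂ hr1₂ =>
      exfalso
      obtain ⟨-, -, h5⟩ := enc_inj h hx (by norm_num) hx₂ (by norm_num) hw
      omega
  | r6 q x r hq hx hr hr1 =>
    cases hR₂ with
    | r1 q₂ a₂ r₂ hq₂ ha₂ hr₂ =>
      exfalso
      unfold stB stM at hs; omega
    | r2 q₂ a₂ x₂ r₂ hq₂ ha₂ hx₂ hr₂ =>
      exfalso
      unfold stB stG at hs; omega
    | r3 q₂ a₂ x₂ r₂ hq₂ ha₂ hx₂ hr₂ hr1₂ =>
      exfalso
      unfold stB stG at hs; omega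
    | r4 q₂ a₂ x₂ hq₂ ha₂ hx₂ =>
      exfalso
      unfold stB stN at hs; omega
    | r5 q₂ x₂ hq₂ hx₂ =>
      exfalso
      obtain ⟨-, -, h5⟩ := enc_inj h hx (by norm_num) hx₂ (by norm_num) hw
      omega
    | r6 q₂ x₂ r₂ hq₂ hx₂ hr₂ hr1₂ =>
      exact ⟨hs, hw⟩

/-- The move determined by the new state. -/
def dirOf (c : Code) (s : ℕ) : ℕ :=
  if s < nQ c then 0
  else if s < 2 * nQ c then 2
  else if s < 2 * nQ c + nQ c * nA c then
    (dl c ((s - 2 * nQ c) / nA c) ((s - 2 * nQ c) % nA c)).2.2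
  else 2

lemma rule_dir {c : Code} (h : WF c) {s d s' w v : ℕ} (hR : Rule c s d s' w v) :
    v = dirOf c s' := by
  have h2 := nQ_pos c
  unfold dirOf
  cases hR with
  | r1 q a r hq ha hr =>
    have h1 := pr_lt hq ha
    unfold stM
    rw [if_neg (by omega), if_neg (by omega), if_pos (by omega), Nat.add_sub_cancel_left,
      pr_div ha, pr_mod ha]
  | r2 q a x r hq ha hx hr =>
    unfold stG
    rw [if_neg (by omega), if_neg (by omega), if_neg (by omega)]
  | r3 q a x r hq ha hx hr hr1 =>
    unfold stG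
    rw [if_neg (by omega), if_neg (by omega), if_neg (by omega)]
  | r4 q a x hq ha hx =>
    have h3 := h.dl1 q a hq ha
    unfold stN
    rw [if_neg (by omega), if_pos (by omega)]
  | r5 q x hq hx =>
    unfold stB
    rw [if_pos hq]
  | r6 q x r hq hx hr hr1 =>
    unfold stB
    rw [if_pos hq]

/-- The micro machine attached to a well-formed description. -/
def rev (c : Code) (h : WF c) : RevMachine where
  ns := ns c
  nd := nd c
  tr := tr c
  hs := hs c
  nd_pos := by
    have := nA_pos c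
    unfold nd
    positivity
  bound := fun _ _ _ _ _ hs hd hT => rule_bound h (rule_of_tr h hs hd hT)
  inj := fun _ _ _ _ _ _ _ _ hs hd hs₂ hd₂ hT hT₂ =>
    rule_inj h (rule_of_tr h hs hd hT) (rule_of_tr h hs₂ hd₂ hT₂) rfl rfl
  dir_unique := fun _ _ _ _ _ _ _ _ _ hs hd hs₂ hd₂ hT hT₂ => by
    rw [rule_dir h (rule_of_tr h hs hd hT), rule_dir h (rule_of_tr h hs₂ hd₂ hT₂)]

/-! ### Semantics -/

/-- Configuration given by a state, a two-sided tape and the head position. -/
def toConf (s : ℕ) (F : ℤ → ℕ) (h : ℤ) : MConf :=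
  ⟨s, fun i => F (h - 1 - i), fun i => F (h + i)⟩

/-- Tape made of three tracks. -/
def tp (c : Code) (T m H : ℤ → ℕ) : ℤ → ℕ := fun z => enc c (T z) (m z) (H z)

/-- Mark at one cell. -/
def mk (p : ℤ) : ℤ → ℕ := fun z => if z = p then 1 else 0

lemma scons_z (a : ℕ) (f : ℕ → ℕ) : scons a f 0 = a := rfl

lemma scons_s (a : ℕ) (f : ℕ → ℕ) (n : ℕ) : scons a f (n + 1) = f n := rfl

lemma toConf_R0 (s : ℕ) (F : ℤ → ℕ) (h : ℤ) : (toConf s F h).R 0 = F h := by
  simp [toConf]

lemma update_tp (c : Code) (T m H : ℤ → ℕ) (z : ℤ) (a i r : ℕ) :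
    Function.update (tp c T m H) z (enc c a i r)
      = tp c (Function.update T z a) (Function.update m z i) (Function.update H z r) := by
  funext y
  by_cases hy : y = z
  · subst hy; simp [tp]
  · simp [tp, Function.update_of_ne hy]

lemma update_mk (p : ℤ) : Function.update (mk p) p 0 = fun _ => 0 := by
  funext y
  by_cases hy : y = p
  · subst hy; simp
  · simp [mk, hy]

lemma update_zero (p : ℤ) : Function.update (fun _ : ℤ => 0) p 1 = mk p := by
  funext y
  by_cases hy : y = p
  · subst hy; simp [mk]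
  · simp [mk, hy]

lemma step_toConf {c : Code} (h : WF c) {s : ℕ} {F : ℤ → ℕ} {z : ℤ} {s' w v : ℕ}
    (hv : v ≤ 2) (hT : tr c s (F z) = some (s', w, v)) :
    (rev c h).step (toConf s F z) = toConf s' (Function.update F z w) (z + (v : ℤ) - 1) := by
  have hT' : (rev c h).tr (toConf s F z).s ((toConf s F z).R 0) = some (s', w, v) := by
    rw [toConf_R0]; exact hT
  unfold RevMachine.step
  rw [hT']
  have hL : ∀ y : ℤ, y ≠ z → Function.update F z w y = F y := fun y hy =>
    Function.update_of_ne hy _ _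
  rcases (by omega : v = 0 ∨ v = 1 ∨ v = 2) with rfl | rfl | rfl
  · simp only [if_true]
    ext i
    · rfl
    · simp only [toConf, stail]
      rw [hL _ (by omega)]
      congr 1
      push_cast
      ring
    · rcases i with _ | _ | i
      · simp only [toConf, scons_z]
        rw [hL _ (by push_cast; omega)]
        congr 1
        push_cast
        ring
      · simp only [toConf, scons_s, scons_z]
        have : z + ((0 : ℕ) : ℤ) - 1 + ((0 + 1 : ℕ) : ℤ) = z := by push_cast; ring
        rw [this, Function.update_self]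
      · simp only [toConf, scons_s, stail]
        rw [hL _ (by push_cast; omega)]
        congr 1
        push_cast
        ring
  · simp only [one_ne_zero, if_false, if_true]
    ext i
    · rfl
    · simp only [toConf]
      rw [hL _ (by push_cast; omega)]
      congr 1
      push_cast
      ring
    · rcases i with _ | i
      · simp only [toConf, scons_z]
        have : z + ((1 : ℕ) : ℤ) - 1 + ((0 : ℕ) : ℤ) = z := by push_cast; ring
        rw [this, Function.update_self]
      · simp only [toConf, scons_s, stail]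
        rw [hL _ (by push_cast; omega)]
        congr 1
        push_cast
        ring
  · simp only [OfNat.ofNat_ne_zero, OfNat.ofNat_ne_one, if_false]
    ext i
    · rfl
    · rcases i with _ | i
      · simp only [toConf, scons_z]
        have : z + ((2 : ℕ) : ℤ) - 1 - 1 - ((0 : ℕ) : ℤ) = z := by push_cast; ring
        rw [this, Function.update_self]
      · simp only [toConf, scons_s]
        rw [hL _ (by push_cast; omega)]
        congr 1
        push_cast
        ring
    · simp only [toConf, stail]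
      rw [hL _ (by push_cast; omega)]
      congr 1
      push_cast
      ring

/-- A run of `k` steps such that all configurations before the end satisfy `P`. -/
def Run (f : MConf → MConf) (P : MConf → Prop) (k : ℕ) (x y : MConf) : Prop :=
  f^[k] x = y ∧ ∀ j < k, P (f^[j] x)

lemma Run.refl {f : MConf → MConf} {P : MConf → Prop} (x : MConf) : Run f P 0 x x :=
  ⟨rfl, fun _ hj => absurd hj (Nat.not_lt_zero _)⟩

lemma Run.trans {f : MConf → MConf} {P : MConf → Prop} {k l : ℕ} {x y z : MConf}
    (h : Run f P k x y) (h' : Run f P l y z) : Run f P (l + k) x z := by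
  refine ⟨?_, ?_⟩
  · rw [Function.iterate_add_apply, h.1, h'.1]
  · intro j hj
    by_cases hjk : j < k
    · exact h.2 j hjk
    · have : j = (j - k) + k := by omega
      rw [this, Function.iterate_add_apply, h.1]
      exact h'.2 _ (by omega)

lemma Run.single {f : MConf → MConf} {P : MConf → Prop} {x y : MConf} (hP : P x) (h : f x = y) :
    Run f P 1 x y := by
  refine ⟨by simpa using h, ?_⟩
  intro j hj
  have : j = 0 := by omega
  subst this
  exact hP

/-- The property of configurations that we follow along runs. -/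
def Good (c : Code) (Q : Prop) (x : MConf) : Prop :=
  tr c x.s (x.R 0) ≠ none ∧ (hs c x.s = true → Q)

/-- One application of a rule, as a run. -/
lemma run_rule {c : Code} (h : WF c) {Q : Prop} {s : ℕ} {F : ℤ → ℕ} {z : ℤ} {s' w v : ℕ}
    (hR : Rule c s (F z) s' w v) (hQ : hs c s = true → Q) :
    Run (rev c h).step (Good c Q) 1 (toConf s F z)
      (toConf s' (Function.update F z w) (z + (v : ℤ) - 1)) := by
  have hT := tr_of_rule h hR
  refine Run.single ⟨?_, hQ⟩ (step_toConf h (rule_bound h hR).2.2 hT)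
  rw [toConf_R0]
  change tr c s (F z) ≠ none
  rw [hT]
  exact Option.some_ne_none _

lemma hs_stB {c : Code} {q : ℕ} (hq : q < nQ c) : hs c (stB c q) = hl c q := by
  unfold hs stB; rw [if_pos hq]

lemma hs_stN {c : Code} {q : ℕ} : hs c (stN c q) = false := by
  unfold hs stN; rw [if_neg (by omega)]

lemma hs_stM {c : Code} {q a : ℕ} : hs c (stM c q a) = false := by
  have := nQ_pos c
  unfold hs stM; rw [if_neg (by omega)]

lemma hs_stG {c : Code} {q a : ℕ} : hs c (stG c q a) = false := by
  have := nQ_pos c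
  unfold hs stG; rw [if_neg (by omega)]

/-- Validity of the history track relative to the head position. -/
structure Val (c : Code) (T H : ℤ → ℕ) (p e : ℤ) : Prop where
  le : p + 2 ≤ e
  T_lt : ∀ z, T z < nA c
  H_lt : ∀ z, H z < 2 + nQ c * nA c
  H_e : H e = 1
  H_ne : ∀ z < e, H z ≠ 1
  H_zero : ∀ z, e < z → H z = 0

/-- The scan to the right. -/
lemma run_G {c : Code} (h : WF c) {Q : Prop} {q a : ℕ} (hq : q < nQ c) (ha : a < nA c)
    {T H : ℤ → ℕ} {p e : ℤ} (hT : ∀ z, T z < nA c) (hH : ∀ z, H z < 2 + nQ c * nA c)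
    (hne : ∀ z < e, H z ≠ 1) (j : ℕ) (hj : p < e - j) :
    Run (rev c h).step (Good c Q) j (toConf (stG c q a) (tp c T (mk p) H) (e - j))
      (toConf (stG c q a) (tp c T (mk p) H) e) := by
  induction j with
  | zero => simpa using Run.refl _
  | succ j ih =>
    have hj' : p < e - (j : ℤ) := by push_cast at hj; omega
    have h1 : tp c T (mk p) H (e - ((j + 1 : ℕ) : ℤ))
        = enc c (T (e - ((j + 1 : ℕ) : ℤ))) 0 (H (e - ((j + 1 : ℕ) : ℤ))) := by
      unfold tp mk
      rw [if_neg (by omega)]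
    have hR : Rule c (stG c q a) (tp c T (mk p) H (e - ((j + 1 : ℕ) : ℤ))) (stG c q a)
        (tp c T (mk p) H (e - ((j + 1 : ℕ) : ℤ))) 2 := by
      rw [h1]
      exact Rule.r3 q a _ _ hq ha (hT _) (hH _) (hne _ (by push_cast; omega))
    have h2 := run_rule h (Q := Q) hR (by rw [hs_stG]; exact fun h => absurd h (by simp))
    rw [Function.update_eq_self] at h2
    have h3 : e - ((j + 1 : ℕ) : ℤ) + ((2 : ℕ) : ℤ) - 1 = e - j := by push_cast; ring
    rw [h3] at h2
    exact h2.trans (ih hj')

/-- The scan to the left. -/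
lemma run_B {c : Code} (h : WF c) {Q : Prop} {q : ℕ} (hq : q < nQ c) (hQ : hl c q = true → Q)
    {T H : ℤ → ℕ} {p : ℤ} (hT : ∀ z, T z < nA c) (hH : ∀ z, H z < 2 + nQ c * nA c) (j : ℕ)
    (hne : ∀ z : ℤ, p < z → z ≤ p + j → H z ≠ 1) :
    Run (rev c h).step (Good c Q) j (toConf (stB c q) (tp c T (mk p) H) (p + j))
      (toConf (stB c q) (tp c T (mk p) H) p) := by
  induction j with
  | zero => simpa using Run.refl _
  | succ j ih =>
    have hne' : ∀ z : ℤ, p < z → z ≤ p + j → H z ≠ 1 := fun z h1 h2 =>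
      hne z h1 (by push_cast; omega)
    have h1 : tp c T (mk p) H (p + ((j + 1 : ℕ) : ℤ))
        = enc c (T (p + ((j + 1 : ℕ) : ℤ))) 0 (H (p + ((j + 1 : ℕ) : ℤ))) := by
      unfold tp mk
      rw [if_neg (by push_cast; omega)]
    have hR : Rule c (stB c q) (tp c T (mk p) H (p + ((j + 1 : ℕ) : ℤ))) (stB c q)
        (tp c T (mk p) H (p + ((j + 1 : ℕ) : ℤ))) 0 := by
      rw [h1]
      exact Rule.r6 q _ _ hq (hT _) (hH _) (hne _ (by push_cast; omega) le_rfl)
    have h2 := run_rule h (Q := Q) hR (by rw [hs_stB hq]; exact hQ)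
    rw [Function.update_eq_self] at h2
    have h3 : p + ((j + 1 : ℕ) : ℤ) + ((0 : ℕ) : ℤ) - 1 = p + j := by push_cast; ring
    rw [h3] at h2
    exact h2.trans (ih hne')

/-- Simulation of one step of the machine. -/
lemma run_macro {c : Code} (h : WF c) {Q : Prop} {q : ℕ} (hq : q < nQ c)
    (hQ : hl c q = true → Q) {T H : ℤ → ℕ} {p e : ℤ} (hV : Val c T H p e)
    (hQ' : hl c (dl c q (T p)).1 = true → Q) :
    ∃ k H', 1 ≤ k ∧ Run (rev c h).step (Good c Q) k (toConf (stB c q) (tp c T (mk p) H) p)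
        (toConf (stB c (dl c q (T p)).1)
          (tp c (Function.update T p (dl c q (T p)).2.1) (mk (p + ((dl c q (T p)).2.2 : ℤ) - 1)) H')
          (p + ((dl c q (T p)).2.2 : ℤ) - 1)) ∧
      Val c (Function.update T p (dl c q (T p)).2.1) H' (p + ((dl c q (T p)).2.2 : ℤ) - 1)
        (e + 1) := by
  have ha : T p < nA c := hV.T_lt p
  have hq' := h.dl1 q _ hq ha
  have hb := h.dl2 q _ hq ha
  have hv := h.dl3 q _ hq ha
  set a := T p with ha_def
  set q' := (dl c q a).1 with hq'_def
  set b := (dl c q a).2.1 with hb_def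
  set v := (dl c q a).2.2 with hv_def
  set p' : ℤ := p + (v : ℤ) - 1 with hp'
  set T' := Function.update T p b with hT'
  have hT'lt : ∀ z, T' z < nA c := by
    intro z
    by_cases hz : z = p
    · subst hz; rw [hT', Function.update_self]; exact hb
    · rw [hT', Function.update_of_ne hz]; exact hV.T_lt z
  have hle := hV.le
  have hp'e : p' + 1 ≤ e := by omega
  -- R1
  have h1 : Run (rev c h).step (Good c Q) 1 (toConf (stB c q) (tp c T (mk p) H) p)
      (toConf (stM c q a) (tp c T' (fun _ => 0) H) p') := by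
    have hR : Rule c (stB c q) (tp c T (mk p) H p) (stM c q a) (enc c b 0 (H p)) v := by
      have : tp c T (mk p) H p = enc c a 1 (H p) := by simp [tp, mk, ha_def]
      rw [this]
      exact Rule.r1 q a (H p) hq ha (hV.H_lt p)
    have h2 := run_rule h (Q := Q) hR (by rw [hs_stB hq]; exact hQ)
    rw [update_tp, update_mk, Function.update_eq_self] at h2
    exact h2
  -- R2
  have h2 : Run (rev c h).step (Good c Q) 1 (toConf (stM c q a) (tp c T' (fun _ => 0) H) p')
      (toConf (stG c q a) (tp c T' (mk p') H) (p' + 1)) := by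
    have hR : Rule c (stM c q a) (tp c T' (fun _ => 0) H p') (stG c q a)
        (enc c (T' p') 1 (H p')) 2 :=
      Rule.r2 q a (T' p') (H p') hq ha (hT'lt _) (hV.H_lt _)
    have h3 := run_rule h (Q := Q) hR (by rw [hs_stM]; exact fun h => absurd h (by simp))
    rw [update_tp, update_zero, Function.update_eq_self, Function.update_eq_self] at h3
    have h4 : p' + ((2 : ℕ) : ℤ) - 1 = p' + 1 := by push_cast; ring
    rw [h4] at h3
    exact h3
  -- R3
  obtain ⟨j, hj⟩ : ∃ j : ℕ, (j : ℤ) = e - (p' + 1) := ⟨(e - (p' + 1)).toNat, by omega⟩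
  have h3 : Run (rev c h).step (Good c Q) j (toConf (stG c q a) (tp c T' (mk p') H) (p' + 1))
      (toConf (stG c q a) (tp c T' (mk p') H) e) := by
    have := run_G h (Q := Q) hq ha (T := T') (H := H) (p := p') (e := e) hT'lt hV.H_lt hV.H_ne j
      (by omega)
    have h4 : e - (j : ℤ) = p' + 1 := by omega
    rw [h4] at this
    exact this
  -- R4
  set H1 := Function.update H e (2 + pr c q a) with hH1
  have h4 : Run (rev c h).step (Good c Q) 1 (toConf (stG c q a) (tp c T' (mk p') H) e)
      (toConf (stN c q') (tp c T' (mk p') H1) (e + 1)) := by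
    have hR : Rule c (stG c q a) (tp c T' (mk p') H e) (stN c q')
        (enc c (T' e) 0 (2 + pr c q a)) 2 := by
      have : tp c T' (mk p') H e = enc c (T' e) 0 1 := by
        unfold tp mk
        rw [if_neg (by omega), hV.H_e]
      rw [this]
      exact Rule.r4 q a (T' e) hq ha (hT'lt _)
    have h3 := run_rule h (Q := Q) hR (by rw [hs_stG]; exact fun h => absurd h (by simp))
    rw [update_tp, Function.update_eq_self] at h3
    have h5 : Function.update (mk p') e 0 = mk p' := by
      funext y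
      by_cases hy : y = e
      · subst hy
        rw [Function.update_self]; unfold mk; rw [if_neg (by omega)]
      · rw [Function.update_of_ne hy]
    have h4 : e + ((2 : ℕ) : ℤ) - 1 = e + 1 := by push_cast; ring
    rw [h4, h5] at h3
    exact h3
  -- R5
  set H2 := Function.update H1 (e + 1) 1 with hH2
  have hH1e : H1 (e + 1) = 0 := by
    rw [hH1, Function.update_of_ne (by omega)]
    exact hV.H_zero _ (by omega)
  have h5 : Run (rev c h).step (Good c Q) 1 (toConf (stN c q') (tp c T' (mk p') H1) (e + 1))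
      (toConf (stB c q') (tp c T' (mk p') H2) e) := by
    have hR : Rule c (stN c q') (tp c T' (mk p') H1 (e + 1)) (stB c q')
        (enc c (T' (e + 1)) 0 1) 0 := by
      have : tp c T' (mk p') H1 (e + 1) = enc c (T' (e + 1)) 0 0 := by
        unfold tp mk
        rw [if_neg (by omega), hH1e]
      rw [this]
      exact Rule.r5 q' (T' (e + 1)) hq' (hT'lt _)
    have h3 := run_rule h (Q := Q) hR (by rw [hs_stN]; exact fun h => absurd h (by simp))
    rw [update_tp, Function.update_eq_self] at h3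
    have h5 : Function.update (mk p') (e + 1) 0 = mk p' := by
      funext y
      by_cases hy : y = e + 1
      · subst hy
        rw [Function.update_self]; unfold mk; rw [if_neg (by omega)]
      · rw [Function.update_of_ne hy]
    have h4 : e + 1 + ((0 : ℕ) : ℤ) - 1 = e := by push_cast; ring
    rw [h4, h5] at h3
    exact h3
  -- validity of the new history
  have hprlt := pr_lt hq ha
  have hH2lt : ∀ z, H2 z < 2 + nQ c * nA c := by
    intro z
    by_cases hz : z = e + 1
    · subst hz; rw [hH2, Function.update_self]; omega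
    · rw [hH2, Function.update_of_ne hz]
      by_cases hz2 : z = e
      · subst hz2; rw [hH1, Function.update_self]; omega
      · rw [hH1, Function.update_of_ne hz2]; exact hV.H_lt z
  have hH2ne : ∀ z < e + 1, H2 z ≠ 1 := by
    intro z hz
    rw [hH2, Function.update_of_ne (by omega)]
    by_cases hz2 : z = e
    · subst hz2; rw [hH1, Function.update_self]; omega
    · rw [hH1, Function.update_of_ne hz2]; exact hV.H_ne z (by omega)
  have hV' : Val c T' H2 p' (e + 1) := by
    refine ⟨by omega, hT'lt, hH2lt, by rw [hH2, Function.update_self], hH2ne, ?_⟩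
    intro z hz
    rw [hH2, Function.update_of_ne (by omega), hH1, Function.update_of_ne (by omega)]
    exact hV.H_zero z (by omega)
  -- R6
  obtain ⟨i, hi⟩ : ∃ i : ℕ, (i : ℤ) = e - p' := ⟨(e - p').toNat, by omega⟩
  have h6 : Run (rev c h).step (Good c Q) i (toConf (stB c q') (tp c T' (mk p') H2) e)
      (toConf (stB c q') (tp c T' (mk p') H2) p') := by
    have := run_B h (Q := Q) hq' hQ' (T := T') (H := H2) (p := p') hT'lt hH2lt i
      (fun z _ hz => hH2ne z (by omega))
    have h4 : p' + (i : ℤ) = e := by omega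
    rw [h4] at this
    exact this
  exact ⟨_, H2, by omega, ((((h1.trans h2).trans h3).trans h4).trans h5).trans h6, hV'⟩

/-! ### The description of a machine -/

lemma getD_ofFn {α : Type*} {n : ℕ} (f : Fin n → α) (i : ℕ) (hi : i < n) (d : α) :
    (List.ofFn f).getD i d = f ⟨i, hi⟩ := by
  rw [List.getD_eq_getElem _ _ (by simpa using hi), List.getElem_ofFn]

lemma dl_code (M : Machine) (q : Fin (M.numStates + 1)) (a : Fin (M.numSymbols + 1)) :
    dl M.code q a = (((M.δ q a).1 : ℕ), ((M.δ q a).2.1 : ℕ), ((M.δ q a).2.2 : ℕ)) := by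
  set F : Fin (M.numStates + 1) → Fin (M.numSymbols + 1) → ℕ × ℕ × ℕ := fun q a =>
    (((M.δ q a).1 : ℕ), ((M.δ q a).2.1 : ℕ), ((M.δ q a).2.2 : ℕ)) with hF
  have hpos : 0 < M.numSymbols + 1 := Nat.succ_pos _
  have key : (List.ofFn fun q => List.ofFn fun a => F q a).flatten
      = List.ofFn (fun k : Fin ((M.numStates + 1) * (M.numSymbols + 1)) =>
        F ⟨(k : ℕ) / (M.numSymbols + 1), by
            rw [Nat.div_lt_iff_lt_mul hpos]; exact k.2⟩
          ⟨(k : ℕ) % (M.numSymbols + 1), Nat.mod_lt _ hpos⟩) := by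
    rw [List.ofFn_mul]
    congr 2
    funext i
    congr 1
    funext j
    have h1 : ((i : ℕ) * (M.numSymbols + 1) + (j : ℕ)) / (M.numSymbols + 1) = i := by
      rw [Nat.mul_comm, Nat.mul_add_div hpos, Nat.div_eq_of_lt j.2, Nat.add_zero]
    have h2 : ((i : ℕ) * (M.numSymbols + 1) + (j : ℕ)) % (M.numSymbols + 1) = j := by
      rw [Nat.mul_add_mod_self_right, Nat.mod_eq_of_lt j.2]
    simp only [h1, h2]
  have hlt : pr M.code q a < (M.numStates + 1) * (M.numSymbols + 1) :=
    pr_lt (c := M.code) (q := q) (a := a) q.2 a.2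
  have e1 : pr M.code q a / (M.numSymbols + 1) = q := pr_div (c := M.code) a.2
  have e2 : pr M.code q a % (M.numSymbols + 1) = a := pr_mod (c := M.code) a.2
  have key2 : M.code.2.2.2 = _ := key
  unfold dl
  rw [key2, getD_ofFn _ _ hlt]
  simp only [e1, e2]
  rfl

lemma hl_code (M : Machine) (q : Fin (M.numStates + 1)) : hl M.code q = M.halting q := by
  unfold hl Machine.code
  simp only
  rw [getD_ofFn _ _ q.2]

lemma wf_code (M : Machine) : WF M.code where
  bl_lt := M.blank.2
  st_lt := M.start.2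
  dl1 := fun q a hq ha => by
    have := dl_code M ⟨q, hq⟩ ⟨a, ha⟩
    simp only at this
    rw [this]
    exact Fin.is_lt _
  dl2 := fun q a hq ha => by
    have := dl_code M ⟨q, hq⟩ ⟨a, ha⟩
    simp only at this
    rw [this]
    exact Fin.is_lt _
  dl3 := fun q a hq ha => by
    have := dl_code M ⟨q, hq⟩ ⟨a, ha⟩
    simp only at this
    rw [this]
    exact Nat.le_of_lt_succ (Fin.is_lt _)

end Micro

open Micro

/-- The micro machine attached to a machine. -/
def compile (M : Machine) : RevMachine := rev M.code (wf_code M)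

/-- The right half tape of the initial configuration. -/
def initR (M : Machine) (w : List (Fin (M.numSymbols + 1))) : List ℕ :=
  ini M.code (List.map (fun a : Fin (M.numSymbols + 1) => (a : ℕ)) w)

/-- The initial configuration. -/
def c0 (M : Machine) (w : List (Fin (M.numSymbols + 1))) : MConf :=
  ⟨(M.start : ℕ), listTape [], listTape (initR M w)⟩

namespace Micro

lemma listTape_ini {c : Machine.Code} (l : List ℕ) (i : ℕ) :
    listTape (ini c l) i
      = enc c (l.getD i (bl c)) (if i = 0 then 1 else 0) (if i = 2 then 1 else 0) := by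
  unfold listTape ini
  by_cases hi : i < max l.length 3
  · rw [List.getD_eq_getElem _ _ (by simpa using hi), List.getElem_map, List.getElem_range]
  · have h1 : l.length ≤ i := by omega
    have h2 : 3 ≤ i := by omega
    rw [List.getD_eq_default _ _ (by simpa using Nat.le_of_not_lt hi),
      List.getD_eq_default _ _ h1, if_neg (by omega), if_neg (by omega)]
    simp [enc, sw_bl]

/-- The tape of a configuration as natural numbers. -/
def nt {M : Machine} (C : M.Config) : ℤ → ℕ := fun z => (C.tape z : ℕ)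

lemma getD_map_val {n : ℕ} (w : List (Fin (n + 1))) (i : ℕ) (b : Fin (n + 1)) :
    (List.map (fun a : Fin (n + 1) => (a : ℕ)) w).getD i (b : ℕ)
      = ((w.getD i b : Fin (n + 1)) : ℕ) := by
  by_cases h : i < w.length
  · rw [List.getD_eq_getElem _ _ (by simpa using h), List.getD_eq_getElem _ _ h,
      List.getElem_map]
  · rw [List.getD_eq_default _ _ (by simpa using Nat.le_of_not_lt h),
      List.getD_eq_default _ _ (Nat.le_of_not_lt h)]

lemma c0_eq (M : Machine) (w : List (Fin (M.numSymbols + 1))) :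
    c0 M w = toConf (stB M.code (M.start : ℕ))
      (tp M.code (nt (M.init w)) (mk 0) (fun z => if z = 2 then 1 else 0)) 0 := by
  unfold c0 toConf
  ext i
  · rfl
  · simp only [listTape, List.getD_nil]
    unfold tp nt mk Machine.init
    simp only
    rw [if_neg (by omega), if_neg (by omega), if_neg (by omega)]
    have : ((M.blank : Fin (M.numSymbols + 1)) : ℕ) = bl M.code := rfl
    rw [this]
    simp [enc, sw_bl]
  · simp only
    unfold initR
    rw [listTape_ini]
    unfold tp nt mk Machine.init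
    simp only
    have h0 : (0 : ℤ) ≤ 0 + (i : ℤ) := by omega
    have h1 : (0 + (i : ℤ)).toNat = i := by omega
    have h2 : (0 + (i : ℤ) = 0) ↔ i = 0 := by omega
    have h3 : (0 + (i : ℤ) = 2) ↔ i = 2 := by omega
    rw [h1]
    simp only [h0, h2, h3, if_true]
    congr 1
    exact getD_map_val w i M.blank

lemma val_init (M : Machine) (w : List (Fin (M.numSymbols + 1))) :
    Val M.code (nt (M.init w)) (fun z => if z = 2 then 1 else 0) 0 2 := by
  refine ⟨by norm_num, fun z => ?_, fun z => ?_, by simp, fun z hz => ?_, fun z hz => ?_⟩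
  · exact Fin.is_lt _
  · split_ifs <;> omega
  · rw [if_neg (by omega)]; norm_num
  · rw [if_neg (by omega)]

/-- Simulation of `n` steps. -/
lemma run_iter (M : Machine) (w : List (Fin (M.numSymbols + 1))) (n : ℕ) :
    ∃ k H e, n ≤ k ∧
      Run (compile M).step (Good M.code (M.HaltsOn w)) k (c0 M w)
        (toConf (stB M.code ((M.step^[n] (M.init w)).state : ℕ))
          (tp M.code (nt (M.step^[n] (M.init w))) (mk (M.step^[n] (M.init w)).head) H)
          (M.step^[n] (M.init w)).head) ∧
      Val M.code (nt (M.step^[n] (M.init w))) H (M.step^[n] (M.init w)).head e := by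
  induction n with
  | zero =>
    refine ⟨0, (fun z => if z = 2 then 1 else 0), 2, le_rfl, ?_, val_init M w⟩
    rw [c0_eq]
    exact Run.refl _
  | succ n ih =>
    obtain ⟨k, H, e, hk, hrun, hval⟩ := ih
    set C := M.step^[n] (M.init w) with hC
    have hC' : M.step^[n + 1] (M.init w) = M.step C := by
      rw [Function.iterate_succ_apply', ← hC]
    have hd : dl M.code (C.state : ℕ) (nt C C.head) = _ := dl_code M C.state (C.tape C.head)
    have hQ : hl M.code (C.state : ℕ) = true → M.HaltsOn w := fun h =>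
      ⟨n, by rw [← hC, ← hl_code]; exact h⟩
    have hQ' : hl M.code (dl M.code (C.state : ℕ) (nt C C.head)).1 = true → M.HaltsOn w := by
      intro h
      refine ⟨n + 1, ?_⟩
      rw [hC', ← hl_code]
      rw [hd] at h
      exact h
    obtain ⟨k', H', hk', hrun', hval'⟩ :=
      run_macro (wf_code M) (Q := M.HaltsOn w) (q := (C.state : ℕ)) C.state.2 hQ hval hQ'
    refine ⟨k' + k, H', e + 1, by omega, ?_, ?_⟩
    · have h3 := hrun.trans hrun'
      rw [hC']
      have e1 : nt (M.step C) = Function.update (nt C) C.head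
          (dl M.code (C.state : ℕ) (nt C C.head)).2.1 := by
        rw [hd]
        funext z
        unfold nt Machine.step
        simp only
        by_cases hz : z = C.head
        · subst hz; rw [Function.update_self, Function.update_self]
        · rw [Function.update_of_ne hz, Function.update_of_ne hz]
      have e2 : (M.step C).head = C.head + ((dl M.code (C.state : ℕ) (nt C C.head)).2.2 : ℤ) - 1 := by
        rw [hd]; rfl
      have e3 : ((M.step C).state : ℕ) = (dl M.code (C.state : ℕ) (nt C C.head)).1 := by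
        rw [hd]; rfl
      rw [e1, e2, e3]
      exact h3
    · rw [hC']
      have e1 : nt (M.step C) = Function.update (nt C) C.head
          (dl M.code (C.state : ℕ) (nt C C.head)).2.1 := by
        rw [hd]
        funext z
        unfold nt Machine.step
        simp only
        by_cases hz : z = C.head
        · subst hz; rw [Function.update_self, Function.update_self]
        · rw [Function.update_of_ne hz, Function.update_of_ne hz]
      have e2 : (M.step C).head = C.head + ((dl M.code (C.state : ℕ) (nt C C.head)).2.2 : ℤ) - 1 := by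
        rw [hd]; rfl
      rw [e1, e2]
      exact hval'

lemma good_iter (M : Machine) (w : List (Fin (M.numSymbols + 1))) (n : ℕ) :
    Good M.code (M.HaltsOn w) ((compile M).step^[n] (c0 M w)) := by
  obtain ⟨k, H, e, hk, hrun, -⟩ := run_iter M w (n + 1)
  exact hrun.2 n (by omega)

end Micro

/-- The micro machine never gets stuck. -/
theorem not_stuck (M : Machine) (w : List (Fin (M.numSymbols + 1))) (n : ℕ) :
    (compile M).tr ((compile M).step^[n] (c0 M w)).s (((compile M).step^[n] (c0 M w)).R 0)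
      ≠ none :=
  (good_iter M w n).1

/-- The micro machine reaches a flagged state exactly if the machine halts. -/
theorem reaches_iff (M : Machine) (w : List (Fin (M.numSymbols + 1))) :
    (compile M).Reaches (c0 M w) ↔ M.HaltsOn w := by
  constructor
  · rintro ⟨n, hn⟩
    exact (good_iter M w n).2 hn
  · rintro ⟨n, hn⟩
    obtain ⟨k, H, e, hk, hrun, -⟩ := run_iter M w n
    refine ⟨k, ?_⟩
    rw [hrun.1]
    change hs M.code (stB M.code ((M.step^[n] (M.init w)).state : ℕ)) = true
    have hlt : ((M.step^[n] (M.init w)).state : ℕ) < nQ M.code := Fin.is_lt _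
    rw [hs_stB hlt, hl_code]
    exact hn

/-- The initial configuration is in range. -/
theorem compile_ok (M : Machine) (w : List (Fin (M.numSymbols + 1))) :
    (compile M).Ok (c0 M w) := by
  have h := wf_code M
  have hT := (val_init M w)
  have hlt : ∀ z, tp M.code (nt (M.init w)) (mk 0) (fun z => if z = 2 then 1 else 0) z
      < nd M.code := by
    intro z
    unfold tp
    refine enc_lt h (hT.T_lt z) ?_ (hT.H_lt z)
    unfold mk
    split_ifs <;> norm_num
  rw [c0_eq]
  refine ⟨?_, fun i => hlt _, fun i => hlt _⟩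
  change stB M.code (M.start : ℕ) < ns M.code
  have h1 : (M.start : ℕ) < nQ M.code := M.start.2
  unfold stB ns
  omega

end Vale.Agent.P113
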