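import Vale.Agent.P113.Dyn

/-!
# P113: the flow of the shear program simulates the machine
-/

open MeasureTheory Set Filter Topology
open scoped ContDiff

namespace Vale.Agent.P113

/-! ### Well-formedness of the profiles -/

theorem Profile.good_append {P Q : Profile} (hP : Profile.Good P) (hQ : Profile.Good Q) :
    Profile.Good (P ++ Q) := by
  intro T hT
  rcases List.mem_append.1 hT with h | h
  · exact hP T h
  · exact hQ T h

theorem mem_overRules {ns nd : ℕ} {tr : ℕ → ℕ → Option (ℕ × ℕ × ℕ)}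
    {F : ℕ → ℕ → ℕ → ℕ → ℕ → ℕ → List PTerm} {T : PTerm} (hT : T ∈ overRules ns nd tr F) :
    ∃ s r l s' w d, s < ns ∧ r < nd ∧ l < nd ∧ tr s r = some (s', w, d) ∧ T ∈ F s r l s' w d := by
  unfold overRules at hT
  rw [List.mem_flatMap] at hT
  obtain ⟨s, hs, hT⟩ := hT
  rw [List.mem_flatMap] at hT
  obtain ⟨r, hr, hT⟩ := hT
  rw [List.mem_flatMap] at hT
  obtain ⟨l, hl, hT⟩ := hT
  rw [List.mem_range] at hs hr hl
  cases htr : tr s r with
  | none => rw [htr] at hT; simp at hT
  | some p =>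
    rw [htr] at hT
    exact ⟨s, r, l, p.1, p.2.1, p.2.2, hs, hr, hl, htr, hT⟩

namespace RevMachine

variable {m : RevMachine}

theorem base_pos : 0 < base m.ns m.nd := by
  have := m.nd_pos
  unfold base; omega

theorem good1 {k : ℕ} (hk : k < m.q) : Fac.Good (bumpFac (32 * base m.ns m.nd ^ 2) k) := by
  apply bump_good
  have h1 : k + 1 ≤ base m.ns m.nd := by rw [base_eq]; omega
  have h2 : 1 ≤ base m.ns m.nd := m.base_pos
  have h3 : base m.ns m.nd ≤ base m.ns m.nd ^ 2 := by nlinarith
  omega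

theorem good2 {k₀ k₁ : ℕ} (h0 : k₀ < m.q) (h1 : k₁ < m.q) :
    Fac.Good (bumpFac (32 * base m.ns m.nd ^ 3) (k₀ * base m.ns m.nd + k₁)) := by
  apply bump_good
  set B := base m.ns m.nd with hB
  have h2 : k₀ + 1 ≤ B := by rw [hB, base_eq]; omega
  have h3 : k₁ + 1 ≤ B := by rw [hB, base_eq]; omega
  have h4 : 1 ≤ B := m.base_pos
  have h5 : k₀ * B + k₁ + 1 ≤ B ^ 2 := by nlinarith
  have h6 : B ^ 2 ≤ B ^ 3 := Nat.pow_le_pow_right h4 (by norm_num)
  omega

theorem good3 {k₀ k₁ k₂ : ℕ} (h0 : k₀ < m.q) (h1 : k₁ < m.q) (hk2 : k₂ < m.q) :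
    Fac.Good (bumpFac (32 * base m.ns m.nd ^ 4)
      ((k₀ * base m.ns m.nd + k₁) * base m.ns m.nd + k₂)) := by
  apply bump_good
  set B := base m.ns m.nd with hB
  have h2 : k₀ + 1 ≤ B := by rw [hB, base_eq]; omega
  have h3 : k₁ + 1 ≤ B := by rw [hB, base_eq]; omega
  have h3' : k₂ + 1 ≤ B := by rw [hB, base_eq]; omega
  have h4 : 1 ≤ B := m.base_pos
  have h5 : k₀ * B + k₁ + 1 ≤ B ^ 2 := by nlinarith
  have h7 : (k₀ * B + k₁) * B + k₂ + 1 ≤ B ^ 3 := by
    have : (k₀ * B + k₁ + 1) * B ≤ B ^ 2 * B := Nat.mul_le_mul_right _ h5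
    nlinarith
  have h6 : B ^ 3 ≤ B ^ 4 := Nat.pow_le_pow_right h4 (by norm_num)
  omega

theorem goodz {k : ℕ} (hk : k ≤ m.ns * m.nd * m.nd) :
    Fac.Good (bumpFac (zslope m.ns m.nd) k) := by
  apply bump_good
  unfold zslope
  omega

theorem lt_q_of_ns {s : ℕ} (h : s < m.ns) : s < m.q := by unfold q; omega
theorem lt_q_of_nd {s : ℕ} (h : s < m.nd) : s < m.q := by unfold q; omega

theorem signal_good : Profile.Good (signalP m.ns m.nd m.hs) := by
  intro T hT
  unfold signalP at hT
  rw [List.mem_flatMap] at hT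
  obtain ⟨s, hs, hT⟩ := hT
  rw [List.mem_range] at hs
  split_ifs at hT
  · rw [List.mem_singleton] at hT
    subst hT
    exact ⟨oneFac_good, good1 (lt_q_of_ns hs), oneFac_good⟩
  · simp at hT

theorem label_good : Profile.Good (labelP m.ns m.nd m.tr) := by
  intro T hT
  obtain ⟨s, r, l, s', w, d, hs, hr, hl, _, hT⟩ := mem_overRules hT
  rw [List.mem_singleton] at hT
  subst hT
  exact ⟨good1 (lt_q_of_nd hr), good2 (lt_q_of_ns hs) (lt_q_of_nd hl), oneFac_good⟩

theorem shearX_good (c : ℕ → ℕ → RatCode) : Profile.Good (shearXP m.ns m.nd m.tr c) := by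
  intro T hT
  obtain ⟨s, r, l, s', w, d, hs, hr, hl, _, hT⟩ := mem_overRules hT
  rw [List.mem_singleton] at hT
  subst hT
  exact ⟨oneFac_good, lin_good, goodz (lab_le hs hr hl)⟩

theorem shearY_good (c : ℕ → ℕ → RatCode) : Profile.Good (shearYP m.ns m.nd m.tr c) := by
  intro T hT
  obtain ⟨s, r, l, s', w, d, hs, hr, hl, _, hT⟩ := mem_overRules hT
  rw [List.mem_singleton] at hT
  subst hT
  exact ⟨lin_good, oneFac_good, goodz (lab_le hs hr hl)⟩

theorem transX_good : Profile.Good (transXP m.ns m.nd m.tr) := by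
  intro T hT
  obtain ⟨s, r, l, s', w, d, hs, hr, hl, _, hT⟩ := mem_overRules hT
  rw [List.mem_singleton] at hT
  subst hT
  exact ⟨oneFac_good, oneFac_good, goodz (lab_le hs hr hl)⟩

theorem transY_good : Profile.Good (transYP m.ns m.nd m.tr) := by
  intro T hT
  obtain ⟨s, r, l, s', w, d, hs, hr, hl, _, hT⟩ := mem_overRules hT
  rw [List.mem_singleton] at hT
  subst hT
  exact ⟨oneFac_good, oneFac_good, goodz (lab_le hs hr hl)⟩

theorem unlabel_good : Profile.Good (unlabelP m.ns m.nd m.tr) := by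
  intro T hT
  obtain ⟨s, r, l, s', w, d, hs, hr, hl, htr, hT⟩ := mem_overRules hT
  have hb := m.bound s r s' w d hs hr htr
  split_ifs at hT
  · rw [List.mem_singleton] at hT
    subst hT
    exact ⟨good2 (lt_q_of_nd hl) (lt_q_of_nd hb.2.1), good1 (lt_q_of_ns hb.1), oneFac_good⟩
  · rw [List.mem_singleton] at hT
    subst hT
    exact ⟨good1 (lt_q_of_nd hb.2.1), good2 (lt_q_of_ns hb.1) (lt_q_of_nd hl), oneFac_good⟩
  · rw [List.mem_singleton] at hT
    subst hT
    exact ⟨oneFac_good, good3 (lt_q_of_ns hb.1) (lt_q_of_nd hb.2.1) (lt_q_of_nd hl), oneFac_good⟩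

theorem period_good (k : ℕ) : Profile.Good (periodP m.ns m.nd m.tr m.hs k) := by
  unfold periodP
  split_ifs
  · exact signal_good
  · exact label_good
  · exact shearX_good _
  · exact shearY_good _
  · exact shearX_good _
  · exact shearY_good _
  · exact transX_good
  · exact transY_good
  · exact unlabel_good

theorem prog_good (s0 : ℕ) (R : List ℕ) (n : ℕ) :
    Profile.Good (progProf m.ns m.nd m.tr m.hs s0 R n) := by
  unfold progProf
  split_ifs
  · intro T hT
    unfold loadXP at hT
    rw [List.mem_singleton] at hT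
    subst hT
    exact ⟨oneFac_good, oneFac_good, oneFac_good⟩
  · intro T hT
    unfold loadYP at hT
    rw [List.mem_singleton] at hT
    subst hT
    exact ⟨oneFac_good, oneFac_good, oneFac_good⟩
  · exact period_good _

theorem period_indep {k : ℕ} (hk9 : k < 9) : Profile.Indep (periodP m.ns m.nd m.tr m.hs k) (periodDir k) := by
  have h20 : (2 : Fin 3) ≠ 0 := by decide
  have h21 : (2 : Fin 3) ≠ 1 := by decide
  have h01 : (0 : Fin 3) ≠ 1 := by decide
  have h02 : (0 : Fin 3) ≠ 2 := by decide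
  have h10 : (1 : Fin 3) ≠ 0 := by decide
  have h12 : (1 : Fin 3) ≠ 2 := by decide
  unfold periodP periodDir
  by_cases k0 : k = 0
  · subst k0
    simp only [if_true, true_or]
    intro T hT
    unfold signalP at hT
    rw [List.mem_flatMap] at hT
    obtain ⟨s, hs, hT⟩ := hT
    split_ifs at hT
    · rw [List.mem_singleton] at hT
      subst hT
      exact ⟨fun h => absurd h h20, fun h => absurd h h21, fun _ => rfl⟩
    · simp at hT
  by_cases k1 : k = 1
  · subst k1
    simp only [if_true, true_or, or_true, k0, if_false]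
    intro T hT
    obtain ⟨s, r, l, s', w, d, hs, hr, hl, _, hT⟩ := mem_overRules hT
    rw [List.mem_singleton] at hT
    subst hT
    exact ⟨fun h => absurd h h20, fun h => absurd h h21, fun _ => rfl⟩
  have hX : ∀ c, Profile.Indep (shearXP m.ns m.nd m.tr c) 0 := by
    intro c T hT
    obtain ⟨s, r, l, s', w, d, hs, hr, hl, _, hT⟩ := mem_overRules hT
    rw [List.mem_singleton] at hT
    subst hT
    exact ⟨fun _ => rfl, fun h => absurd h h01, fun h => absurd h h02⟩
  have hY : ∀ c, Profile.Indep (shearYP m.ns m.nd m.tr c) 1 := by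
    intro c T hT
    obtain ⟨s, r, l, s', w, d, hs, hr, hl, _, hT⟩ := mem_overRules hT
    rw [List.mem_singleton] at hT
    subst hT
    exact ⟨fun h => absurd h h10, fun _ => rfl, fun h => absurd h h12⟩
  by_cases k2 : k = 2
  · subst k2; simpa using hX c1
  by_cases k3 : k = 3
  · subst k3; simpa using hY c2
  by_cases k4 : k = 4
  · subst k4; simpa using hX c3
  by_cases k5 : k = 5
  · subst k5; simpa using hY c4
  by_cases k6 : k = 6
  · subst k6
    simp only [OfNat.ofNat_ne_zero, if_false, OfNat.ofNat_ne_one, Nat.reduceEqDiff, if_true,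
      or_true, or_self]
    intro T hT
    obtain ⟨s, r, l, s', w, d, hs, hr, hl, _, hT⟩ := mem_overRules hT
    rw [List.mem_singleton] at hT
    subst hT
    exact ⟨fun _ => rfl, fun h => absurd h h01, fun h => absurd h h02⟩
  by_cases k7 : k = 7
  · subst k7
    simp only [OfNat.ofNat_ne_zero, if_false, OfNat.ofNat_ne_one, Nat.reduceEqDiff, if_true,
      or_self]
    intro T hT
    obtain ⟨s, r, l, s', w, d, hs, hr, hl, _, hT⟩ := mem_overRules hT
    rw [List.mem_singleton] at hT
    subst hT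
    exact ⟨fun h => absurd h h10, fun _ => rfl, fun h => absurd h h12⟩
  · simp only [k0, k1, k2, k3, k4, k5, k6, k7, if_false, false_or]
    intro T hT
    obtain ⟨s, r, l, s', w, d, hs, hr, hl, _, hT⟩ := mem_overRules hT
    by_cases k8 : k = 8
    · simp only [k8, if_true]
      split_ifs at hT
      all_goals
        rw [List.mem_singleton] at hT
        subst hT
        exact ⟨fun h => absurd h h20, fun h => absurd h h21, fun _ => rfl⟩
    · omega

theorem prog_indep (s0 : ℕ) (R : List ℕ) (n : ℕ) :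
    Profile.Indep (progProf m.ns m.nd m.tr m.hs s0 R n) (progDir n) := by
  unfold progProf progDir
  by_cases n0 : n = 0
  · subst n0
    simp only [if_true]
    intro T hT
    unfold loadXP at hT
    rw [List.mem_singleton] at hT
    subst hT
    exact ⟨fun _ => rfl, fun _ => rfl, fun _ => rfl⟩
  by_cases n1 : n = 1
  · subst n1
    simp only [if_true, n0, if_false]
    intro T hT
    unfold loadYP at hT
    rw [List.mem_singleton] at hT
    subst hT
    exact ⟨fun _ => rfl, fun _ => rfl, fun _ => rfl⟩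
  · simp only [n0, n1, if_false]
    exact period_indep (Nat.mod_lt _ (by norm_num))

/-- The schedule data of the machine started in state `s0` on the right half tape `R`. -/
noncomputable def prog (m : RevMachine) (s0 : ℕ) (R : List ℕ) : SData where
  dir := progDir
  prof := progProf m.ns m.nd m.tr m.hs s0 R
  h := 1
  good := m.prog_good s0 R
  indep := m.prog_indep s0 R

/-! ### Positions at integer times -/

theorem pos_succ_apply (P : Schedule) (a : V) (n : ℕ) (i : Fin 3) :
    P.pos a (n + 1) i = if i = P.dir n then P.pos a n i + P.g n (P.pos a n) else P.pos a n i := by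
  by_cases h : i = P.dir n
  · subst h; simp [Schedule.pos]
  · simp [Schedule.pos, h]

variable (m) in
/-- Position at time `n` of the particle started at the origin. -/
noncomputable def P (s0 : ℕ) (R : List ℕ) (n : ℕ) : V := (m.prog s0 R).sched.pos 0 n

theorem P_succ (s0 : ℕ) (R : List ℕ) (n : ℕ) : m.P s0 R (n + 1) =
    Function.update (m.P s0 R n) (progDir n) (m.P s0 R n (progDir n)
      + Profile.eval 1 (progProf m.ns m.nd m.tr m.hs s0 R n) (m.P s0 R n)) := rfl

/-- The initial configuration. -/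
def conf0 (s0 : ℕ) (R : List ℕ) : MConf := ⟨s0, listTape [], listTape R⟩

theorem conf0_ok {s0 : ℕ} {R : List ℕ} (hs : s0 < m.ns) (hR : ∀ a ∈ R, a < m.nd) :
    m.Ok (conf0 s0 R) :=
  ⟨hs, fun i => (listTape_lt m.nd_pos (fun a ha => absurd ha List.not_mem_nil) i : listTape [] i < m.nd),
    fun i => (listTape_lt m.nd_pos hR i : listTape R i < m.nd)⟩

theorem P_one {s0 : ℕ} {R : List ℕ} (hR : ∀ a ∈ R, a < m.nd) :
    m.P s0 R 1 = ![m.sg * m.X (conf0 s0 R), 0, 0] := by
  have h := m.P_succ s0 R 0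
  have h0 : m.P s0 R 0 = 0 := rfl
  rw [h0] at h
  simp only [zero_add] at h
  have hR' : ∀ a ∈ R, a < m.q := fun a ha => lt_q_of_nd (hR a ha)
  have hb : ((2 * m.q : ℕ) : ℝ) = m.b := rfl
  have hpos : 0 < 16 * base m.ns m.nd * base m.ns m.nd ^ R.length := by
    have := m.base_pos
    positivity
  have hg : Profile.eval 1 (progProf m.ns m.nd m.tr m.hs s0 R 0) 0 = m.sg * m.X (conf0 s0 R) := by
    unfold progProf
    rw [if_pos rfl]
    unfold loadXP
    rw [Profile.eval_single]
    simp only [one_eval]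
    rw [val_nat_pred hpos, X, conf0, ev_listTape m.q_pos hR', base_eq, hb]
    unfold sg
    have := m.b_pos
    push_cast at hb ⊢
    rw [hb]
    field_simp
  rw [hg] at h
  rw [h]
  funext i
  fin_cases i <;> simp [progDir]

theorem P_two {s0 : ℕ} {R : List ℕ} (hs : s0 < m.ns) (hR : ∀ a ∈ R, a < m.nd) :
    m.P s0 R 2 = m.pt (conf0 s0 R) 0 := by
  have h := m.P_succ s0 R 1
  have hb : ((2 * m.q : ℕ) : ℝ) = m.b := rfl
  have hpos : 0 < 16 * base m.ns m.nd * base m.ns m.nd := by
    have := m.base_pos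
    positivity
  have hg : Profile.eval 1 (progProf m.ns m.nd m.tr m.hs s0 R 1) (m.P s0 R 1)
      = m.sg * m.Y (conf0 s0 R) := by
    unfold progProf
    rw [if_neg one_ne_zero, if_pos rfl]
    unfold loadYP
    rw [Profile.eval_single]
    simp only [one_eval]
    rw [val_nat_pred hpos, Y_eq (conf0_ok hs hR)]
    have : ev (2 * m.q) (conf0 s0 R).L = 0 := by
      simp only [conf0]; rw [listTape_nil, ev_zero]
    rw [this, base_eq]
    unfold sg
    have := m.b_pos
    push_cast at hb ⊢
    rw [hb]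
    simp only [conf0]
    field_simp
    ring
  have hdir : progDir 1 = 1 := by simp [progDir]
  rw [hg, hdir, P_one hR] at h
  rw [h]
  funext i
  fin_cases i <;> simp [pt]

theorem progProf_period (s0 : ℕ) (R : List ℕ) (n k : ℕ) (hk : k < 9) :
    progProf m.ns m.nd m.tr m.hs s0 R (2 + 9 * n + k) = periodP m.ns m.nd m.tr m.hs k := by
  unfold progProf
  rw [if_neg (by omega), if_neg (by omega)]
  congr 1
  omega

theorem progDir_period (n k : ℕ) (hk : k < 9) : progDir (2 + 9 * n + k) = periodDir k := by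
  unfold progDir
  rw [if_neg (by omega), if_neg (by omega)]
  congr 1
  omega

/-- Signal phase. -/
theorem phase0 {s0 : ℕ} {R : List ℕ} {n : ℕ} {c : MConf} (hc : m.Ok c)
    (h : m.P s0 R (2 + 9 * n) = m.pt c 0) :
    m.P s0 R (2 + 9 * n + 1) = m.pt c (if m.hs c.s = true then 1 / 2 else 0) := by
  have h1 := m.P_succ s0 R (2 + 9 * n + 0)
  rw [progProf_period s0 R n 0 (by norm_num), progDir_period n 0 (by norm_num), add_zero, h] at h1
  rw [h1]
  have hp : periodP m.ns m.nd m.tr m.hs 0 = signalP m.ns m.nd m.hs := by simp [periodP]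
  have hd : periodDir 0 = 2 := by simp [periodDir]
  rw [hp, hd, signal_eval hc _ (by simp [pt])]
  funext i
  fin_cases i <;> simp [pt]

/-- Labelling phase. -/
theorem phase1 {s0 : ℕ} {R : List ℕ} {n : ℕ} {c : MConf} (hc : m.Ok c)
    (h : m.P s0 R (2 + 9 * n + 1) = m.pt c 0) :
    m.P s0 R (2 + 9 * n + 2) = m.pt c (m.kap (m.clab c)) := by
  have h1 := m.P_succ s0 R (2 + 9 * n + 1)
  rw [progProf_period s0 R n 1 (by norm_num), progDir_period n 1 (by norm_num), h] at h1
  rw [h1]
  have hp : periodP m.ns m.nd m.tr m.hs 1 = labelP m.ns m.nd m.tr := by simp [periodP]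
  have hd : periodDir 1 = 2 := by simp [periodDir]
  rw [hp, hd, label_eval hc _ (by simp [pt]) (by simp [pt])]
  funext i
  fin_cases i <;> simp [pt]

/-- A controlled phase moving the first coordinate. -/
theorem phaseX {s0 : ℕ} {R : List ℕ} {n k : ℕ} (hk : k < 9) (hd : periodDir k = 0)
    {Q : Profile} (hQ : periodP m.ns m.nd m.tr m.hs k = Q)
    {x y z dx : ℝ} (h : m.P s0 R (2 + 9 * n + k) = ![x, y, z])
    (hv : Profile.eval 1 Q ![x, y, z] = dx) :
    m.P s0 R (2 + 9 * n + (k + 1)) = ![x + dx, y, z] := by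
  have h1 := m.P_succ s0 R (2 + 9 * n + k)
  rw [progProf_period s0 R n k hk, progDir_period n k hk, h, hd, hQ, hv] at h1
  rw [← add_assoc, h1]
  funext i
  fin_cases i <;> simp

/-- A controlled phase moving the second coordinate. -/
theorem phaseY {s0 : ℕ} {R : List ℕ} {n k : ℕ} (hk : k < 9) (hd : periodDir k = 1)
    {Q : Profile} (hQ : periodP m.ns m.nd m.tr m.hs k = Q)
    {x y z dy : ℝ} (h : m.P s0 R (2 + 9 * n + k) = ![x, y, z])
    (hv : Profile.eval 1 Q ![x, y, z] = dy) :
    m.P s0 R (2 + 9 * n + (k + 1)) = ![x, y + dy, z] := by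
  have h1 := m.P_succ s0 R (2 + 9 * n + k)
  rw [progProf_period s0 R n k hk, progDir_period n k hk, h, hd, hQ, hv] at h1
  rw [← add_assoc, h1]
  funext i
  fin_cases i <;> simp

end RevMachine

end Vale.Agent.P113
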