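import Vale.Agent.P113.Shear

/-!
# P113: finitely described profiles and the mixed derivatives of the force
-/

open MeasureTheory Set Filter Topology
open scoped ContDiff

namespace Vale.Agent.P113

/-- Centred fractional part. -/
noncomputable def cf (x : ℝ) : ℝ := x - round x

/-- The base functions `1`, `S x`, `x S x`. -/
noncomputable def baseF (k : ℕ) : ℝ → ℝ :=
  fun x => if k = 0 then 1 else if k = 1 then S x else x * S x

theorem baseF_contDiff (k : ℕ) : ContDiff ℝ ∞ (baseF k) := by
  unfold baseF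
  by_cases h0 : k = 0
  · simp only [h0, if_true]; exact contDiff_const
  · by_cases h1 : k = 1
    · simp only [h1, if_true]; simpa using S_contDiff'
    · simp only [h0, h1, if_false]; exact contDiff_id.mul S_contDiff'

/-- `(c, k, a, b)` stands for `x ↦ c * baseF k (a x + b)`. -/
abbrev Atom := RatCode × ℕ × RatCode × RatCode

/-- The function described by an atom. -/
noncomputable def Atom.raw (A : Atom) : ℝ → ℝ :=
  fun x => RatCode.val A.1 * baseF A.2.1 (RatCode.val A.2.2.1 * x + RatCode.val A.2.2.2)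

theorem Atom.raw_contDiff (A : Atom) : ContDiff ℝ ∞ (Atom.raw A) := by
  unfold Atom.raw
  exact contDiff_const.mul ((baseF_contDiff _).comp ((contDiff_const.mul contDiff_id).add contDiff_const))

/-- A factor: a finite sum of atoms. -/
abbrev Fac := List Atom

/-- The sum of the atoms, on the real line. -/
noncomputable def Fac.raw (F : Fac) : ℝ → ℝ := fun x => (F.map (fun A => Atom.raw A x)).sum

/-- The periodic function obtained by evaluating at the centred fractional part. -/
noncomputable def Fac.eval (F : Fac) : ℝ → ℝ := fun x => Fac.raw F (cf x)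

/-- The factor is constant outside `(-3/8, 3/8)`. -/
def Fac.Good (F : Fac) : Prop := ∃ c, ∀ x : ℝ, 3 / 8 ≤ |x| → Fac.raw F x = c

theorem Fac.raw_contDiff (F : Fac) : ContDiff ℝ ∞ (Fac.raw F) := by
  induction F with
  | nil =>
    have : Fac.raw [] = fun _ => (0 : ℝ) := by funext x; simp [Fac.raw]
    rw [this]; exact contDiff_const
  | cons A F ih =>
    have : Fac.raw (A :: F) = fun x => Atom.raw A x + Fac.raw F x := by
      funext x; simp [Fac.raw]
    rw [this]
    exact (Atom.raw_contDiff A).add ih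

theorem cf_add_one (x : ℝ) : cf (x + 1) = cf x := by
  unfold cf
  have : round (x + 1) = round x + 1 := by
    have := round_add_intCast x 1
    simpa using this
  rw [this]; push_cast; ring

theorem Fac.eval_add_one (F : Fac) (x : ℝ) : Fac.eval F (x + 1) = Fac.eval F x := by
  unfold Fac.eval; rw [cf_add_one]

theorem abs_cf_le (x : ℝ) : |cf x| ≤ 1 / 2 := abs_sub_round x

/-- Near a point with nearest integer `k`, the periodic function is a translate of the raw one. -/
theorem Fac.eval_eventually {F : Fac} (hF : Fac.Good F) (x₀ : ℝ) :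
    Fac.eval F =ᶠ[𝓝 x₀] fun y : ℝ => Fac.raw F (y - ((round x₀ : ℤ) : ℝ)) := by
  obtain ⟨c, hc⟩ := hF
  have h0 : |x₀ - round x₀| ≤ 1 / 2 := abs_sub_round x₀
  have h1 : ∀ᶠ y : ℝ in 𝓝 x₀, |y - ((round x₀ : ℤ) : ℝ)| < 5 / 8 := by
    have hcont : Continuous fun y : ℝ => |y - ((round x₀ : ℤ) : ℝ)| := by fun_prop
    have h2 : |x₀ - ((round x₀ : ℤ) : ℝ)| < 5 / 8 := lt_of_le_of_lt h0 (by norm_num)
    exact (hcont.tendsto x₀).eventually (gt_mem_nhds h2)
  filter_upwards [h1] with y hy
  unfold Fac.eval cf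
  by_cases h : round y = round x₀
  · rw [h]
  · -- both arguments are outside `(-3/8,3/8)`
    have h2 : |y - round y| ≤ 1 / 2 := abs_sub_round y
    have h3 : (1 : ℝ) ≤ |(round y : ℝ) - round x₀| := by
      have : (round y : ℤ) - round x₀ ≠ 0 := sub_ne_zero.2 h
      have h4 : 1 ≤ |(round y : ℤ) - round x₀| := Int.one_le_abs this
      exact_mod_cast h4
    have h5 : 3 / 8 ≤ |y - round y| := by
      have := abs_sub_abs_le_abs_sub ((round y : ℝ) - round x₀) (y - round x₀)
      have h6 : |((round y : ℝ) - round x₀) - (y - round x₀)| = |y - round y| := by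
        rw [← abs_neg]; congr 1; ring
      rw [h6] at this
      linarith
    have h7 : 3 / 8 ≤ |y - ((round x₀ : ℤ) : ℝ)| := by
      have := abs_sub_abs_le_abs_sub ((round y : ℝ) - round x₀) (-(y - round y))
      have h8 : ((round y : ℝ) - round x₀) - (-(y - round y)) = y - round x₀ := by ring
      rw [h8, abs_neg] at this
      linarith
    rw [hc _ h5, hc _ h7]

theorem Fac.eval_contDiff {F : Fac} (hF : Fac.Good F) : ContDiff ℝ ∞ (Fac.eval F) := by
  rw [contDiff_iff_contDiffAt]
  intro x₀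
  apply ContDiffAt.congr_of_eventuallyEq _ (Fac.eval_eventually hF x₀)
  exact ((Fac.raw_contDiff F).comp (contDiff_id.sub contDiff_const)).contDiffAt

theorem Fac.iteratedDeriv_eval {F : Fac} (hF : Fac.Good F) (m : ℕ) (x : ℝ) :
    iteratedDeriv m (Fac.eval F) x = iteratedDeriv m (Fac.raw F) (cf x) := by
  rw [(Fac.eval_eventually hF x).iteratedDeriv_eq, iteratedDeriv_comp_sub_const]
  rfl

theorem Fac.iteratedDeriv_raw (F : Fac) (m : ℕ) (x : ℝ) :
    iteratedDeriv m (Fac.raw F) x = (F.map (fun A : Atom => RatCode.val A.1 *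
      (RatCode.val A.2.2.1 ^ m *
        iteratedDeriv m (baseF A.2.1) (RatCode.val A.2.2.1 * x + RatCode.val A.2.2.2)))).sum := by
  induction F with
  | nil =>
    have : Fac.raw [] = fun _ => (0 : ℝ) := by funext x; simp [Fac.raw]
    rw [this]
    simp
  | cons A F ih =>
    have h1 : Fac.raw (A :: F) = fun x => Atom.raw A x + Fac.raw F x := by
      funext x; simp [Fac.raw]
    rw [h1, List.map_cons, List.sum_cons, ← ih]
    have hA : ContDiffAt ℝ m (Atom.raw A) x :=
      ((contDiff_infty.1 (Atom.raw_contDiff A)) m).contDiffAt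
    have hF : ContDiffAt ℝ m (Fac.raw F) x :=
      ((contDiff_infty.1 (Fac.raw_contDiff F)) m).contDiffAt
    rw [iteratedDeriv_fun_add hA hF]
    congr 1
    unfold Atom.raw
    rw [iteratedDeriv_const_mul_field]
    congr 1
    have h2 : (fun x => baseF A.2.1 (RatCode.val A.2.2.1 * x + RatCode.val A.2.2.2))
        = fun x => (fun y => baseF A.2.1 (y + RatCode.val A.2.2.2)) (RatCode.val A.2.2.1 * x) := rfl
    have h3 : ContDiff ℝ m (fun y => baseF A.2.1 (y + RatCode.val A.2.2.2)) :=
      (contDiff_infty.1 (baseF_contDiff _) m).comp (contDiff_id.add contDiff_const)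
    rw [h2, iteratedDeriv_comp_const_mul h3, iteratedDeriv_comp_add_const]

/-- A factor constantly equal to one. -/
def oneFac : Fac := [((1, 0, 0), 0, (0, 0, 0), (0, 0, 0))]

theorem oneFac_raw (x : ℝ) : Fac.raw oneFac x = 1 := by
  simp [Fac.raw, oneFac, Atom.raw, baseF, RatCode.val]

theorem oneFac_good : Fac.Good oneFac := ⟨1, fun x _ => oneFac_raw x⟩

/-! ### Tensor sums and their mixed derivatives -/

/-- `(c, τ, a, b, d)` stands for `(t,x) ↦ c τ(t) a(x₀) b(x₁) d(x₂)`. -/
abbrev Ten := ℝ × (ℝ → ℝ) × (ℝ → ℝ) × (ℝ → ℝ) × (ℝ → ℝ)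

noncomputable def tEval (L : List Ten) (t : ℝ) (x : V) : ℝ :=
  (L.map fun T => T.1 * (T.2.1 t * (T.2.2.1 (x 0) * T.2.2.2.1 (x 1) * T.2.2.2.2 (x 2)))).sum

def tSmooth (L : List Ten) : Prop := ∀ T ∈ L, ContDiff ℝ ∞ T.2.1 ∧ ContDiff ℝ ∞ T.2.2.1 ∧
  ContDiff ℝ ∞ T.2.2.2.1 ∧ ContDiff ℝ ∞ T.2.2.2.2

theorem deriv_smooth {f : ℝ → ℝ} (hf : ContDiff ℝ ∞ f) : ContDiff ℝ ∞ (deriv f) := by
  have h : ContDiff ℝ (∞ + 1) f := by simpa using hf
  exact (contDiff_succ_iff_deriv.1 h).2.2

theorem iteratedDeriv_smooth {f : ℝ → ℝ} (hf : ContDiff ℝ ∞ f) (n : ℕ) :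
    ContDiff ℝ ∞ (iteratedDeriv n f) := by
  induction n with
  | zero => simpa using hf
  | succ n ih => rw [iteratedDeriv_succ]; exact deriv_smooth ih

theorem tEval_nil (t : ℝ) (x : V) : tEval [] t x = 0 := by simp [tEval]

theorem tEval_cons (T : Ten) (L : List Ten) (t : ℝ) (x : V) : tEval (T :: L) t x =
    T.1 * (T.2.1 t * (T.2.2.1 (x 0) * T.2.2.2.1 (x 1) * T.2.2.2.2 (x 2))) + tEval L t x := by
  simp [tEval]

theorem tEval_append (L M : List Ten) (t : ℝ) (x : V) :
    tEval (L ++ M) t x = tEval L t x + tEval M t x := by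
  simp [tEval]

theorem hasDerivAt_tEval_t {L : List Ten} (hL : tSmooth L) (t : ℝ) (x : V) :
    HasDerivAt (fun s => tEval L s x)
      (tEval (L.map fun T => (T.1, deriv T.2.1, T.2.2.1, T.2.2.2.1, T.2.2.2.2)) t x) t := by
  induction L with
  | nil => simpa [tEval] using hasDerivAt_const t (0 : ℝ)
  | cons T L ih =>
    have h1 := ih (fun T hT => hL T (List.mem_cons_of_mem _ hT))
    have h2 := hL T List.mem_cons_self
    simp only [tEval_cons, List.map_cons]
    apply HasDerivAt.fun_add _ h1
    apply HasDerivAt.const_mul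
    apply HasDerivAt.mul_const
    exact ((h2.1.differentiable (by simp)) t).hasDerivAt

theorem tEval_pd0 {L : List Ten} (hL : tSmooth L) (t : ℝ) (x : V) :
    pd 0 (tEval L t) x
      = tEval (L.map fun T => (T.1, T.2.1, deriv T.2.2.1, T.2.2.2.1, T.2.2.2.2)) t x := by
  have key : HasDerivAt (fun s : ℝ => tEval L t (Function.update x 0 s))
      (tEval (L.map fun T => (T.1, T.2.1, deriv T.2.2.1, T.2.2.2.1, T.2.2.2.2)) t x) (x 0) := by
    induction L with
    | nil => simpa [tEval] using hasDerivAt_const (x 0) (0 : ℝ)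
    | cons T L ih =>
      have h1 := ih (fun T hT => hL T (List.mem_cons_of_mem _ hT))
      have h2 := hL T List.mem_cons_self
      simp only [tEval_cons, List.map_cons]
      apply HasDerivAt.fun_add _ h1
      apply HasDerivAt.const_mul
      apply HasDerivAt.const_mul
      have h3 : HasDerivAt (fun s : ℝ => T.2.2.1 (Function.update x 0 s 0)
          * T.2.2.2.1 (x 1) * T.2.2.2.2 (x 2))
          (deriv T.2.2.1 (x 0) * T.2.2.2.1 (x 1) * T.2.2.2.2 (x 2)) (x 0) := by
        apply HasDerivAt.mul_const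
        apply HasDerivAt.mul_const
        simp only [Function.update_self]
        exact ((h2.2.1.differentiable (by simp)) (x 0)).hasDerivAt
      simpa using h3
  exact key.deriv

theorem tEval_pd1 {L : List Ten} (hL : tSmooth L) (t : ℝ) (x : V) :
    pd 1 (tEval L t) x
      = tEval (L.map fun T => (T.1, T.2.1, T.2.2.1, deriv T.2.2.2.1, T.2.2.2.2)) t x := by
  have key : HasDerivAt (fun s : ℝ => tEval L t (Function.update x 1 s))
      (tEval (L.map fun T => (T.1, T.2.1, T.2.2.1, deriv T.2.2.2.1, T.2.2.2.2)) t x) (x 1) := by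
    induction L with
    | nil => simpa [tEval] using hasDerivAt_const (x 1) (0 : ℝ)
    | cons T L ih =>
      have h1 := ih (fun T hT => hL T (List.mem_cons_of_mem _ hT))
      have h2 := hL T List.mem_cons_self
      simp only [tEval_cons, List.map_cons]
      apply HasDerivAt.fun_add _ h1
      apply HasDerivAt.const_mul
      apply HasDerivAt.const_mul
      have h3 : HasDerivAt (fun s : ℝ => T.2.2.1 (x 0)
          * T.2.2.2.1 (Function.update x 1 s 1) * T.2.2.2.2 (x 2))
          (T.2.2.1 (x 0) * deriv T.2.2.2.1 (x 1) * T.2.2.2.2 (x 2)) (x 1) := by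
        apply HasDerivAt.mul_const
        apply HasDerivAt.const_mul
        simp only [Function.update_self]
        exact ((h2.2.2.1.differentiable (by simp)) (x 1)).hasDerivAt
      simpa using h3
  exact key.deriv

theorem tEval_pd2 {L : List Ten} (hL : tSmooth L) (t : ℝ) (x : V) :
    pd 2 (tEval L t) x
      = tEval (L.map fun T => (T.1, T.2.1, T.2.2.1, T.2.2.2.1, deriv T.2.2.2.2)) t x := by
  have key : HasDerivAt (fun s : ℝ => tEval L t (Function.update x 2 s))
      (tEval (L.map fun T => (T.1, T.2.1, T.2.2.1, T.2.2.2.1, deriv T.2.2.2.2)) t x) (x 2) := by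
    induction L with
    | nil => simpa [tEval] using hasDerivAt_const (x 2) (0 : ℝ)
    | cons T L ih =>
      have h1 := ih (fun T hT => hL T (List.mem_cons_of_mem _ hT))
      have h2 := hL T List.mem_cons_self
      simp only [tEval_cons, List.map_cons]
      apply HasDerivAt.fun_add _ h1
      apply HasDerivAt.const_mul
      apply HasDerivAt.const_mul
      have h3 : HasDerivAt (fun s : ℝ => T.2.2.1 (x 0)
          * T.2.2.2.1 (x 1) * T.2.2.2.2 (Function.update x 2 s 2))
          (T.2.2.1 (x 0) * T.2.2.2.1 (x 1) * deriv T.2.2.2.2 (x 2)) (x 2) := by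
        apply HasDerivAt.const_mul
        simp only [Function.update_self]
        exact ((h2.2.2.2.differentiable (by simp)) (x 2)).hasDerivAt
      simpa using h3
  exact key.deriv

/-- Derivative data of a tensor sum. -/
noncomputable def tShift (α : ℕ × ℕ × ℕ × ℕ) (T : Ten) : Ten :=
  (T.1, iteratedDeriv α.1 T.2.1, iteratedDeriv α.2.1 T.2.2.1, iteratedDeriv α.2.2.1 T.2.2.2.1,
    iteratedDeriv α.2.2.2 T.2.2.2.2)

theorem tSmooth_shift {L : List Ten} (hL : tSmooth L) (α : ℕ × ℕ × ℕ × ℕ) :
    tSmooth (L.map (tShift α)) := by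
  intro T hT
  rw [List.mem_map] at hT
  obtain ⟨T', hT', rfl⟩ := hT
  have h := hL T' hT'
  exact ⟨iteratedDeriv_smooth h.1 _, iteratedDeriv_smooth h.2.1 _, iteratedDeriv_smooth h.2.2.1 _,
    iteratedDeriv_smooth h.2.2.2 _⟩

theorem tShift_zero : tShift (0, 0, 0, 0) = id := by
  funext T; simp [tShift]

theorem mixedDeriv_tEval {L : List Ten} (hL : tSmooth L) (α : ℕ × ℕ × ℕ × ℕ) :
    mixedDeriv α (tEval L) = tEval (L.map (tShift α)) := by
  obtain ⟨α0, α1, α2, α3⟩ := α
  unfold mixedDeriv
  simp only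
  have h3 : (fun h : ℝ → V → ℝ => fun t => pd 2 (h t))^[α3] (tEval L)
      = tEval (L.map (tShift (0, 0, 0, α3))) := by
    induction α3 with
    | zero => rw [tShift_zero, List.map_id]; rfl
    | succ n ih =>
      rw [Function.iterate_succ_apply', ih]
      funext t x
      rw [tEval_pd2 (tSmooth_shift hL _) t x, List.map_map]
      congr 1
      apply List.map_congr_left
      intro T _
      simp [tShift, iteratedDeriv_succ]
  have h2 : (fun h : ℝ → V → ℝ => fun t => pd 1 (h t))^[α2] (tEval (L.map (tShift (0, 0, 0, α3))))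
      = tEval (L.map (tShift (0, 0, α2, α3))) := by
    induction α2 with
    | zero => simp
    | succ n ih =>
      rw [Function.iterate_succ_apply', ih]
      funext t x
      rw [tEval_pd1 (tSmooth_shift hL _) t x, List.map_map]
      congr 1
      apply List.map_congr_left
      intro T _
      simp [tShift, iteratedDeriv_succ]
  have h1 : (fun h : ℝ → V → ℝ => fun t => pd 0 (h t))^[α1] (tEval (L.map (tShift (0, 0, α2, α3))))
      = tEval (L.map (tShift (0, α1, α2, α3))) := by
    induction α1 with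
    | zero => simp
    | succ n ih =>
      rw [Function.iterate_succ_apply', ih]
      funext t x
      rw [tEval_pd0 (tSmooth_shift hL _) t x, List.map_map]
      congr 1
      apply List.map_congr_left
      intro T _
      simp [tShift, iteratedDeriv_succ]
  have h0 : (fun h : ℝ → V → ℝ => fun t x => deriv (fun s => h s x) t)^[α0]
      (tEval (L.map (tShift (0, α1, α2, α3)))) = tEval (L.map (tShift (α0, α1, α2, α3))) := by
    induction α0 with
    | zero => simp
    | succ n ih =>
      rw [Function.iterate_succ_apply', ih]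
      funext t x
      rw [(hasDerivAt_tEval_t (tSmooth_shift hL _) t x).deriv, List.map_map]
      congr 1
      apply List.map_congr_left
      intro T _
      simp [tShift, iteratedDeriv_succ]
  rw [h3, h2, h1, h0]

/-- `mixedDeriv` is local in time. -/
theorem mixedDeriv_congr {h₁ h₂ : ℝ → V → ℝ} {N : ℝ} (h : ∀ t < N, h₁ t = h₂ t)
    (α : ℕ × ℕ × ℕ × ℕ) : ∀ t < N, mixedDeriv α h₁ t = mixedDeriv α h₂ t := by
  obtain ⟨α0, α1, α2, α3⟩ := α
  unfold mixedDeriv
  simp only
  have space : ∀ (j : Fin 3) (n : ℕ) (h₁ h₂ : ℝ → V → ℝ), (∀ t < N, h₁ t = h₂ t) →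
      ∀ t < N, (fun h : ℝ → V → ℝ => fun t => pd j (h t))^[n] h₁ t
        = (fun h : ℝ → V → ℝ => fun t => pd j (h t))^[n] h₂ t := by
    intro j n
    induction n with
    | zero => intro h₁ h₂ h t ht; simpa using h t ht
    | succ n ih =>
      intro h₁ h₂ h t ht
      rw [Function.iterate_succ_apply', Function.iterate_succ_apply']
      exact congrArg (pd j) (ih h₁ h₂ h t ht)
  have time : ∀ (n : ℕ) (h₁ h₂ : ℝ → V → ℝ), (∀ t < N, h₁ t = h₂ t) →
      ∀ t < N, (fun h : ℝ → V → ℝ => fun t x => deriv (fun s => h s x) t)^[n] h₁ t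
        = (fun h : ℝ → V → ℝ => fun t x => deriv (fun s => h s x) t)^[n] h₂ t := by
    intro n
    induction n with
    | zero => intro h₁ h₂ h t ht; simpa using h t ht
    | succ n ih =>
      intro h₁ h₂ h t ht
      rw [Function.iterate_succ_apply', Function.iterate_succ_apply']
      funext x
      apply Filter.EventuallyEq.deriv_eq
      filter_upwards [Iio_mem_nhds ht] with s hs
      rw [ih h₁ h₂ h s hs]
  exact time α0 _ _ (space 0 α1 _ _ (space 1 α2 _ _ (space 2 α3 _ _ h)))

/-! ### Profiles -/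

/-- `(q, b, F₀, F₁, F₂)` stands for `x ↦ q h^b F₀(x₀) F₁(x₁) F₂(x₂)`, `h` a real parameter. -/
abbrev PTerm := RatCode × Bool × Fac × Fac × Fac

noncomputable def PTerm.coef (h : ℝ) (T : PTerm) : ℝ :=
  RatCode.val T.1 * (if T.2.1 = true then h else 1)

abbrev Profile := List PTerm

noncomputable def Profile.eval (h : ℝ) (P : Profile) (x : V) : ℝ :=
  (P.map fun T => PTerm.coef h T *
    (Fac.eval T.2.2.1 (x 0) * Fac.eval T.2.2.2.1 (x 1) * Fac.eval T.2.2.2.2 (x 2))).sum

def Profile.Good (P : Profile) : Prop :=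
  ∀ T ∈ P, Fac.Good T.2.2.1 ∧ Fac.Good T.2.2.2.1 ∧ Fac.Good T.2.2.2.2

/-- The factor in a given direction is constantly one. -/
def Profile.Indep (P : Profile) (j : Fin 3) : Prop :=
  ∀ T ∈ P, (j = 0 → T.2.2.1 = oneFac) ∧ (j = 1 → T.2.2.2.1 = oneFac) ∧ (j = 2 → T.2.2.2.2 = oneFac)

/-- Tensor data of `g(x) τ(t)`. -/
noncomputable def Profile.ten (h : ℝ) (P : Profile) (c : ℝ) (τ : ℝ → ℝ) (β : ℕ × ℕ × ℕ) :
    List Ten :=
  P.map fun T => (c * PTerm.coef h T, τ, iteratedDeriv β.1 (Fac.eval T.2.2.1),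
    iteratedDeriv β.2.1 (Fac.eval T.2.2.2.1), iteratedDeriv β.2.2 (Fac.eval T.2.2.2.2))

theorem Profile.ten_smooth {h : ℝ} {P : Profile} (hP : Profile.Good P) {c : ℝ} {τ : ℝ → ℝ}
    (hτ : ContDiff ℝ ∞ τ) (β : ℕ × ℕ × ℕ) : tSmooth (Profile.ten h P c τ β) := by
  intro T hT
  unfold Profile.ten at hT
  rw [List.mem_map] at hT
  obtain ⟨T', hT', rfl⟩ := hT
  have hg := hP T' hT'
  exact ⟨hτ, iteratedDeriv_smooth (Fac.eval_contDiff hg.1) _,
    iteratedDeriv_smooth (Fac.eval_contDiff hg.2.1) _,
    iteratedDeriv_smooth (Fac.eval_contDiff hg.2.2) _⟩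

theorem Profile.tEval_ten (h : ℝ) (P : Profile) (c : ℝ) (τ : ℝ → ℝ) (β : ℕ × ℕ × ℕ) (t : ℝ)
    (x : V) : tEval (Profile.ten h P c τ β) t x = c * (τ t * tEval (Profile.ten h P 1 (fun _ => 1) β) 0 x) := by
  induction P with
  | nil => simp [Profile.ten, tEval]
  | cons T P ih =>
    simp only [Profile.ten, List.map_cons, tEval_cons] at ih ⊢
    rw [ih]
    ring

theorem Profile.eval_eq_tEval (h : ℝ) (P : Profile) (x : V) :
    Profile.eval h P x = tEval (Profile.ten h P 1 (fun _ => 1) (0, 0, 0)) 0 x := by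
  induction P with
  | nil => simp [Profile.ten, tEval, Profile.eval]
  | cons T P ih =>
    simp only [Profile.ten, List.map_cons, tEval_cons, Profile.eval, List.sum_cons] at ih ⊢
    rw [ih]
    simp

theorem Profile.eval_contDiff {h : ℝ} {P : Profile} (hP : Profile.Good P) :
    ContDiff ℝ ∞ (Profile.eval h P) := by
  induction P with
  | nil =>
    have : Profile.eval h [] = fun _ => (0 : ℝ) := by funext x; simp [Profile.eval]
    rw [this]; exact contDiff_const
  | cons T P ih =>
    have h1 := ih (fun T hT => hP T (List.mem_cons_of_mem _ hT))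
    have hg := hP T List.mem_cons_self
    have : Profile.eval h (T :: P) = fun x => PTerm.coef h T *
      (Fac.eval T.2.2.1 (x 0) * Fac.eval T.2.2.2.1 (x 1) * Fac.eval T.2.2.2.2 (x 2))
      + Profile.eval h P x := by
      funext x; simp [Profile.eval]
    rw [this]
    refine ContDiff.add (contDiff_const.mul ?_) h1
    exact (((Fac.eval_contDiff hg.1).comp (contDiff_apply ℝ ℝ 0)).mul
      ((Fac.eval_contDiff hg.2.1).comp (contDiff_apply ℝ ℝ 1))).mul
      ((Fac.eval_contDiff hg.2.2).comp (contDiff_apply ℝ ℝ 2))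

theorem Profile.eval_periodic (h : ℝ) (P : Profile) : Periodic3 (Profile.eval h P) := by
  intro x k
  unfold Profile.eval
  congr 1
  apply List.map_congr_left
  intro T _
  congr 1
  fin_cases k <;> simp [Fac.eval_add_one]

theorem Profile.eval_indep {h : ℝ} {P : Profile} {j : Fin 3} (hP : Profile.Indep P j) (x : V)
    (s : ℝ) : Profile.eval h P (Function.update x j s) = Profile.eval h P x := by
  unfold Profile.eval
  congr 1
  apply List.map_congr_left
  intro T hT
  have := hP T hT
  congr 1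
  have one : ∀ y : ℝ, Fac.eval oneFac y = 1 := fun y => oneFac_raw _
  fin_cases j
  · have h0 := this.1 rfl
    simp [h0, one]
  · have h0 := this.2.1 rfl
    simp [h0, one]
  · have h0 := this.2.2 rfl
    simp [h0, one]

/-- The space part of the mixed derivative of a profile at a point. -/
noncomputable def Profile.dval (h : ℝ) (P : Profile) (β : ℕ × ℕ × ℕ) (x : V) : ℝ :=
  (P.map fun T => PTerm.coef h T * (iteratedDeriv β.1 (Fac.raw T.2.2.1) (cf (x 0)) *
    iteratedDeriv β.2.1 (Fac.raw T.2.2.2.1) (cf (x 1)) *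
    iteratedDeriv β.2.2 (Fac.raw T.2.2.2.2) (cf (x 2)))).sum

theorem Profile.tEval_ten_eq_dval {h : ℝ} {P : Profile} (hP : Profile.Good P)
    (β : ℕ × ℕ × ℕ) (t : ℝ) (x : V) :
    tEval (Profile.ten h P 1 (fun _ => 1) β) t x = Profile.dval h P β x := by
  induction P with
  | nil => simp [Profile.ten, tEval, Profile.dval]
  | cons T P ih =>
    have h1 := ih (fun T hT => hP T (List.mem_cons_of_mem _ hT))
    have hg := hP T List.mem_cons_self
    simp only [Profile.ten, List.map_cons, tEval_cons, Profile.dval, List.sum_cons] at h1 ⊢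
    rw [h1, Fac.iteratedDeriv_eval hg.1, Fac.iteratedDeriv_eval hg.2.1,
      Fac.iteratedDeriv_eval hg.2.2]
    ring

/-- Shifting the space orders. -/
theorem Profile.ten_shift (h : ℝ) (P : Profile) (c : ℝ) (τ : ℝ → ℝ) (β : ℕ × ℕ × ℕ)
    (α : ℕ × ℕ × ℕ × ℕ) : (Profile.ten h P c τ β).map (tShift α)
      = Profile.ten h P c (iteratedDeriv α.1 τ) (α.2.1 + β.1, α.2.2.1 + β.2.1, α.2.2.2 + β.2.2) := by
  unfold Profile.ten
  rw [List.map_map]
  apply List.map_congr_left
  intro T _
  have key : ∀ (m n : ℕ) (f : ℝ → ℝ), iteratedDeriv m (iteratedDeriv n f) = iteratedDeriv (m + n) f := by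
    intro m n f
    simp only [iteratedDeriv_eq_iterate, Function.iterate_add_apply]
  simp only [Function.comp, tShift, key]

end Vale.Agent.P113
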