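import Vale.Agent.P113.Defs

/-!
# P113: machines on natural-number states and symbols, one-sided sequences as half tapes
-/

namespace Vale.Agent.P113

/-- Put a symbol in front of a sequence. -/
def scons (a : ℕ) (f : ℕ → ℕ) : ℕ → ℕ := fun n => Nat.casesOn n a f

/-- Drop the first symbol. -/
def stail (f : ℕ → ℕ) : ℕ → ℕ := fun n => f (n + 1)

/-- A micro machine: states `0..ns-1`, symbols `0..nd-1`, symbol `0` is the blank.
`tr s r = some (s', w, d)`: in state `s` reading `r`, go to state `s'`, write `w` and move
`d = 0` (left), `1` (stay), `2` (right). The machine is locally reversible: the pair (new state,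
written symbol) determines the pair (state, read symbol), and the new state determines the move. -/
structure RevMachine where
  ns : ℕ
  nd : ℕ
  tr : ℕ → ℕ → Option (ℕ × ℕ × ℕ)
  hs : ℕ → Bool
  nd_pos : 0 < nd
  bound : ∀ s r s' w d, s < ns → r < nd → tr s r = some (s', w, d) → s' < ns ∧ w < nd ∧ d ≤ 2
  inj : ∀ s r s₂ r₂ s' w d d₂, s < ns → r < nd → s₂ < ns → r₂ < nd →
    tr s r = some (s', w, d) → tr s₂ r₂ = some (s', w, d₂) → s = s₂ ∧ r = r₂
  dir_unique : ∀ s r s₂ r₂ s' w w₂ d d₂, s < ns → r < nd → s₂ < ns → r₂ < nd →
    tr s r = some (s', w, d) → tr s₂ r₂ = some (s', w₂, d₂) → d = d₂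

/-- Configuration of a micro machine: state, left half tape (`L 0` is just left of the head), right
half tape (`R 0` is the scanned symbol). -/
@[ext]
structure MConf where
  s : ℕ
  L : ℕ → ℕ
  R : ℕ → ℕ

namespace RevMachine

/-- One step; nothing happens if no rule applies. -/
def step (m : RevMachine) (c : MConf) : MConf :=
  match m.tr c.s (c.R 0) with
  | none => c
  | some (s', w, d) =>
    if d = 0 then ⟨s', stail c.L, scons (c.L 0) (scons w (stail c.R))⟩
    else if d = 1 then ⟨s', c.L, scons w (stail c.R)⟩
    else ⟨s', scons w c.L, stail c.R⟩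

/-- All digits are in range. -/
def Ok (m : RevMachine) (c : MConf) : Prop :=
  c.s < m.ns ∧ (∀ i, c.L i < m.nd) ∧ (∀ i, c.R i < m.nd)

/-- The micro machine started from `c` reaches a state flagged by `hs`. -/
def Reaches (m : RevMachine) (c : MConf) : Prop := ∃ n : ℕ, m.hs ((m.step^[n] c).s) = true

end RevMachine

/-- A half tape given by a finite list, blank (symbol `0`) beyond. -/
def listTape (l : List ℕ) : ℕ → ℕ := fun n => l.getD n 0

end Vale.Agent.P113
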