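import Vale.Agent.P113.Sched
import Vale.Agent.P113.Rev

/-!
# P113: the shear program attached to a reversible machine (finite data only)
-/

namespace Vale.Agent.P113

/-- `x ↦ S(a x + 1 - 2k) - S(a x - 1 - 2k)`. -/
def bumpFac (a k : ℕ) : Fac :=
  [((1, 0, 0), 1, (a, 0, 0), (1, 2 * k, 0)), ((0, 1, 0), 1, (a, 0, 0), (0, 2 * k + 1, 0))]

/-- A function equal to `x` on `[-1/4, 1/4]` and to `0` outside `[-3/8, 3/8]`. -/
def linFac : Fac :=
  [((1, 0, 7), 2, (8, 0, 0), (3, 0, 0)), ((0, 3, 7), 1, (8, 0, 0), (3, 0, 0)),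
   ((0, 1, 7), 2, (8, 0, 0), (0, 2, 0)), ((0, 1, 3), 1, (8, 0, 0), (0, 2, 0))]

/-- The base of the digit expansions. -/
def base (ns nd : ℕ) : ℕ := 2 * (ns + nd)

/-- Label of the triple (state, scanned symbol, symbol to the left of the head). -/
def lab (nd s r l : ℕ) : ℕ := 1 + ((s * nd + r) * nd + l)

/-- Slope of the bumps in the workspace coordinate. -/
def zslope (ns nd : ℕ) : ℕ := 16 * (ns * nd * nd + 2)

/-- List over all applicable rules, with all possible symbols to the left of the head. -/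
def overRules (ns nd : ℕ) (tr : ℕ → ℕ → Option (ℕ × ℕ × ℕ))
    (F : ℕ → ℕ → ℕ → ℕ → ℕ → ℕ → List PTerm) : Profile :=
  (List.range ns).flatMap fun s => (List.range nd).flatMap fun r => (List.range nd).flatMap fun l =>
    match tr s r with
    | none => []
    | some (s', w, d) => F s r l s' w d

/-- Signal: `z += 1/2` in a flagged state. -/
def signalP (ns nd : ℕ) (hs : ℕ → Bool) : Profile :=
  (List.range ns).flatMap fun s => if hs s = true then
    [((1, 0, 1), false, oneFac, bumpFac (32 * base ns nd ^ 2) s, oneFac)] else []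

/-- `z += label`. -/
def labelP (ns nd : ℕ) (tr : ℕ → ℕ → Option (ℕ × ℕ × ℕ)) : Profile :=
  overRules ns nd tr fun s r l _ _ _ =>
    [((2 * lab nd s r l, 0, zslope ns nd - 1), false, bumpFac (32 * base ns nd ^ 2) r,
      bumpFac (32 * base ns nd ^ 3) (s * base ns nd + l), oneFac)]

/-- Coefficients of the four linear shears. -/
def c1 (b d : ℕ) : RatCode := if d = 0 then (0, b, 0) else if d = 1 then (0, 0, 0) else (0, 1, b - 1)
def c2 (b d : ℕ) : RatCode := if d = 0 then (1, b, b - 1) else if d = 1 then (0, 0, 0) else (b, 1, 0)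
def c3 (_b d : ℕ) : RatCode := if d = 0 then (1, 0, 0) else if d = 1 then (0, 0, 0) else (1, 0, 0)
def c4 (b d : ℕ) : RatCode := if d = 0 then (b, 1, 0) else if d = 1 then (0, 0, 0) else (1, b, b - 1)

/-- Translation in `x`. -/
def c5 (b r l w d : ℕ) : RatCode :=
  if d = 0 then (l * b + w, r, 16 * b ^ 3 - 1) else if d = 1 then (w, r, 16 * b ^ 2 - 1)
  else (0, r, 16 * b - 1)

/-- Translation in `y`. -/
def c6 (b s l s' w d : ℕ) : RatCode :=
  if d = 0 then (s', b * s + l, 16 * b ^ 2 - 1) else if d = 1 then (s', s, 16 * b ^ 2 - 1)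
  else (s' * b + w, s, 16 * b ^ 3 - 1)

/-- `x += Σ Q_j(z) c_j lin(y)`. -/
def shearXP (ns nd : ℕ) (tr : ℕ → ℕ → Option (ℕ × ℕ × ℕ)) (c : ℕ → ℕ → RatCode) : Profile :=
  overRules ns nd tr fun s r l _ _ d =>
    [(c (base ns nd) d, false, oneFac, linFac, bumpFac (zslope ns nd) (lab nd s r l))]

/-- `y += Σ Q_j(z) c_j lin(x)`. -/
def shearYP (ns nd : ℕ) (tr : ℕ → ℕ → Option (ℕ × ℕ × ℕ)) (c : ℕ → ℕ → RatCode) : Profile :=
  overRules ns nd tr fun s r l _ _ d =>
    [(c (base ns nd) d, false, linFac, oneFac, bumpFac (zslope ns nd) (lab nd s r l))]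

/-- `x += Σ Q_j(z) β_j`. -/
def transXP (ns nd : ℕ) (tr : ℕ → ℕ → Option (ℕ × ℕ × ℕ)) : Profile :=
  overRules ns nd tr fun s r l _ w d =>
    [(c5 (base ns nd) r l w d, false, oneFac, oneFac, bumpFac (zslope ns nd) (lab nd s r l))]

/-- `y += Σ Q_j(z) γ_j`. -/
def transYP (ns nd : ℕ) (tr : ℕ → ℕ → Option (ℕ × ℕ × ℕ)) : Profile :=
  overRules ns nd tr fun s r l s' w d =>
    [(c6 (base ns nd) s l s' w d, false, oneFac, oneFac, bumpFac (zslope ns nd) (lab nd s r l))]

/-- `z -= label of the image`. -/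
def unlabelP (ns nd : ℕ) (tr : ℕ → ℕ → Option (ℕ × ℕ × ℕ)) : Profile :=
  overRules ns nd tr fun s r l s' w d =>
    if d = 0 then
      [((0, 2 * lab nd s r l, zslope ns nd - 1), false,
        bumpFac (32 * base ns nd ^ 3) (l * base ns nd + w), bumpFac (32 * base ns nd ^ 2) s', oneFac)]
    else if d = 1 then
      [((0, 2 * lab nd s r l, zslope ns nd - 1), false,
        bumpFac (32 * base ns nd ^ 2) w, bumpFac (32 * base ns nd ^ 3) (s' * base ns nd + l), oneFac)]
    else
      [((0, 2 * lab nd s r l, zslope ns nd - 1), false, oneFac,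
        bumpFac (32 * base ns nd ^ 4) ((s' * base ns nd + w) * base ns nd + l), oneFac)]

/-- Value of a digit list in base `b`, as an integer. -/
def digVal (b : ℕ) (l : List ℕ) : ℕ := l.foldl (fun acc d => acc * b + d) 0

/-- Load phases: move the origin to the point coding the initial configuration. -/
def loadXP (ns nd : ℕ) (R : List ℕ) : Profile :=
  [((digVal (base ns nd) R, 0, 16 * base ns nd * base ns nd ^ R.length - 1), false,
    oneFac, oneFac, oneFac)]

def loadYP (ns nd s0 : ℕ) : Profile :=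
  [((s0, 0, 16 * base ns nd * base ns nd - 1), false, oneFac, oneFac, oneFac)]

/-- The nine phases of a period. -/
def periodP (ns nd : ℕ) (tr : ℕ → ℕ → Option (ℕ × ℕ × ℕ)) (hs : ℕ → Bool) (k : ℕ) : Profile :=
  if k = 0 then signalP ns nd hs
  else if k = 1 then labelP ns nd tr
  else if k = 2 then shearXP ns nd tr c1
  else if k = 3 then shearYP ns nd tr c2
  else if k = 4 then shearXP ns nd tr c3
  else if k = 5 then shearYP ns nd tr c4
  else if k = 6 then transXP ns nd tr
  else if k = 7 then transYP ns nd tr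
  else unlabelP ns nd tr

def periodDir (k : ℕ) : Fin 3 :=
  if k = 0 ∨ k = 1 ∨ k = 8 then 2 else if k = 2 ∨ k = 4 ∨ k = 6 then 0 else 1

/-- Profiles of the whole schedule. -/
def progProf (ns nd : ℕ) (tr : ℕ → ℕ → Option (ℕ × ℕ × ℕ)) (hs : ℕ → Bool) (s0 : ℕ) (R : List ℕ)
    (n : ℕ) : Profile :=
  if n = 0 then loadXP ns nd R
  else if n = 1 then loadYP ns nd s0
  else periodP ns nd tr hs ((n - 2) % 9)

/-- Directions of the whole schedule. -/
def progDir (n : ℕ) : Fin 3 :=
  if n = 0 then 0 else if n = 1 then 1 else periodDir ((n - 2) % 9)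

end Vale.Agent.P113
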