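import Vale.Agent.P113.Enter

/-!
# P113: schedule data from arbitrary finite tables (clipped to the admissible range)
-/

open MeasureTheory Set Filter Topology
open scoped ContDiff

namespace Vale.Agent.P113

namespace Raw

/-- Keep only the entries of a table that are in range. -/
def clip (ns nd : ℕ) (tr : ℕ → ℕ → Option (ℕ × ℕ × ℕ)) (s r : ℕ) : Option (ℕ × ℕ × ℕ) :=
  (tr s r).bind fun p => if p.1 < ns ∧ p.2.1 < nd then some p else none

theorem clip_bound {ns nd : ℕ} {tr : ℕ → ℕ → Option (ℕ × ℕ × ℕ)} {s r s' w d : ℕ}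
    (h : clip ns nd tr s r = some (s', w, d)) : s' < ns ∧ w < nd := by
  unfold clip at h
  rw [Option.bind_eq_some_iff] at h
  obtain ⟨p, _, hp⟩ := h
  split_ifs at hp with hc
  · rw [Option.some.injEq] at hp
    subst hp
    exact hc

variable {ns nd : ℕ} {tr : ℕ → ℕ → Option (ℕ × ℕ × ℕ)} {hs : ℕ → Bool}

theorem good1 {k : ℕ} (hk : k < ns + nd) : Fac.Good (bumpFac (32 * base ns nd ^ 2) k) := by
  apply bump_good
  have h1 : k + 1 ≤ base ns nd := by unfold base; omega
  have h3 : base ns nd ≤ base ns nd ^ 2 := by nlinarith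
  omega

theorem good2 {k₀ k₁ : ℕ} (h0 : k₀ < ns + nd) (h1 : k₁ < ns + nd) :
    Fac.Good (bumpFac (32 * base ns nd ^ 3) (k₀ * base ns nd + k₁)) := by
  apply bump_good
  have hB : base ns nd = 2 * (ns + nd) := rfl
  set B := base ns nd
  have h2 : k₀ + 1 ≤ B := by omega
  have h3 : k₁ + 1 ≤ B := by omega
  have h4 : 1 ≤ B := by omega
  have h5 : k₀ * B + k₁ + 1 ≤ B ^ 2 := by nlinarith
  have h6 : B ^ 2 ≤ B ^ 3 := Nat.pow_le_pow_right h4 (by norm_num)
  omega

theorem good3 {k₀ k₁ k₂ : ℕ} (h0 : k₀ < ns + nd) (h1 : k₁ < ns + nd) (hk2 : k₂ < ns + nd) :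
    Fac.Good (bumpFac (32 * base ns nd ^ 4) ((k₀ * base ns nd + k₁) * base ns nd + k₂)) := by
  apply bump_good
  have hB : base ns nd = 2 * (ns + nd) := rfl
  set B := base ns nd
  have h2 : k₀ + 1 ≤ B := by omega
  have h3 : k₁ + 1 ≤ B := by omega
  have h3' : k₂ + 1 ≤ B := by omega
  have h4 : 1 ≤ B := by omega
  have h5 : k₀ * B + k₁ + 1 ≤ B ^ 2 := by nlinarith
  have h7 : (k₀ * B + k₁) * B + k₂ + 1 ≤ B ^ 3 := by
    have : (k₀ * B + k₁ + 1) * B ≤ B ^ 2 * B := Nat.mul_le_mul_right _ h5
    nlinarith
  have h6 : B ^ 3 ≤ B ^ 4 := Nat.pow_le_pow_right h4 (by norm_num)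
  omega

theorem goodz {k : ℕ} (hk : k ≤ ns * nd * nd) : Fac.Good (bumpFac (zslope ns nd) k) := by
  apply bump_good
  unfold zslope
  omega

theorem signal_good : Profile.Good (signalP ns nd hs) := by
  intro T hT
  unfold signalP at hT
  rw [List.mem_flatMap] at hT
  obtain ⟨s, hs', hT⟩ := hT
  rw [List.mem_range] at hs'
  split_ifs at hT
  · rw [List.mem_singleton] at hT
    subst hT
    exact ⟨oneFac_good, good1 (by omega), oneFac_good⟩
  · simp at hT

theorem label_good : Profile.Good (labelP ns nd tr) := by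
  intro T hT
  obtain ⟨s, r, l, s', w, d, hs, hr, hl, _, hT⟩ := mem_overRules hT
  rw [List.mem_singleton] at hT
  subst hT
  exact ⟨good1 (by omega), good2 (by omega) (by omega), oneFac_good⟩

theorem shearX_good (c : ℕ → ℕ → RatCode) : Profile.Good (shearXP ns nd tr c) := by
  intro T hT
  obtain ⟨s, r, l, s', w, d, hs, hr, hl, _, hT⟩ := mem_overRules hT
  rw [List.mem_singleton] at hT
  subst hT
  exact ⟨oneFac_good, lin_good, goodz (lab_le hs hr hl)⟩

theorem shearY_good (c : ℕ → ℕ → RatCode) : Profile.Good (shearYP ns nd tr c) := by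
  intro T hT
  obtain ⟨s, r, l, s', w, d, hs, hr, hl, _, hT⟩ := mem_overRules hT
  rw [List.mem_singleton] at hT
  subst hT
  exact ⟨lin_good, oneFac_good, goodz (lab_le hs hr hl)⟩

theorem transX_good : Profile.Good (transXP ns nd tr) := by
  intro T hT
  obtain ⟨s, r, l, s', w, d, hs, hr, hl, _, hT⟩ := mem_overRules hT
  rw [List.mem_singleton] at hT
  subst hT
  exact ⟨oneFac_good, oneFac_good, goodz (lab_le hs hr hl)⟩

theorem transY_good : Profile.Good (transYP ns nd tr) := by
  intro T hT
  obtain ⟨s, r, l, s', w, d, hs, hr, hl, _, hT⟩ := mem_overRules hT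
  rw [List.mem_singleton] at hT
  subst hT
  exact ⟨oneFac_good, oneFac_good, goodz (lab_le hs hr hl)⟩

theorem unlabel_good
    (hb : ∀ s r s' w d, s < ns → r < nd → tr s r = some (s', w, d) → s' < ns ∧ w < nd) :
    Profile.Good (unlabelP ns nd tr) := by
  intro T hT
  obtain ⟨s, r, l, s', w, d, hs, hr, hl, htr, hT⟩ := mem_overRules hT
  have hb := hb s r s' w d hs hr htr
  split_ifs at hT
  · rw [List.mem_singleton] at hT
    subst hT
    exact ⟨good2 (by omega) (by omega), good1 (by omega), oneFac_good⟩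
  · rw [List.mem_singleton] at hT
    subst hT
    exact ⟨good1 (by omega), good2 (by omega) (by omega), oneFac_good⟩
  · rw [List.mem_singleton] at hT
    subst hT
    exact ⟨oneFac_good, good3 (by omega) (by omega) (by omega), oneFac_good⟩

theorem prog_good
    (hb : ∀ s r s' w d, s < ns → r < nd → tr s r = some (s', w, d) → s' < ns ∧ w < nd)
    (s0 : ℕ) (R : List ℕ) (n : ℕ) :
    Profile.Good (progProf ns nd tr hs s0 R n) := by
  unfold progProf periodP
  split_ifs
  · intro T hT
    unfold loadXP at hT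
    rw [List.mem_singleton] at hT
    subst hT
    exact ⟨oneFac_good, oneFac_good, oneFac_good⟩
  · intro T hT
    unfold loadYP at hT
    rw [List.mem_singleton] at hT
    subst hT
    exact ⟨oneFac_good, oneFac_good, oneFac_good⟩
  · exact signal_good
  · exact label_good
  · exact shearX_good _
  · exact shearY_good _
  · exact shearX_good _
  · exact shearY_good _
  · exact transX_good
  · exact transY_good
  · exact unlabel_good hb

theorem period_indep {k : ℕ} (hk9 : k < 9) :
    Profile.Indep (periodP ns nd tr hs k) (periodDir k) := by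
  have h20 : (2 : Fin 3) ≠ 0 := by decide
  have h21 : (2 : Fin 3) ≠ 1 := by decide
  have h01 : (0 : Fin 3) ≠ 1 := by decide
  have h02 : (0 : Fin 3) ≠ 2 := by decide
  have h10 : (1 : Fin 3) ≠ 0 := by decide
  have h12 : (1 : Fin 3) ≠ 2 := by decide
  unfold periodP periodDir
  by_cases k0 : k = 0
  · subst k0
    simp only [if_true, true_or]
    intro T hT
    unfold signalP at hT
    rw [List.mem_flatMap] at hT
    obtain ⟨s, hs, hT⟩ := hT
    split_ifs at hT
    · rw [List.mem_singleton] at hT
      subst hT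
      exact ⟨fun h => absurd h h20, fun h => absurd h h21, fun _ => rfl⟩
    · simp at hT
  by_cases k1 : k = 1
  · subst k1
    simp only [if_true, true_or, or_true, k0, if_false]
    intro T hT
    obtain ⟨s, r, l, s', w, d, hs, hr, hl, _, hT⟩ := mem_overRules hT
    rw [List.mem_singleton] at hT
    subst hT
    exact ⟨fun h => absurd h h20, fun h => absurd h h21, fun _ => rfl⟩
  have hX : ∀ c, Profile.Indep (shearXP ns nd tr c) 0 := by
    intro c T hT
    obtain ⟨s, r, l, s', w, d, hs, hr, hl, _, hT⟩ := mem_overRules hT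
    rw [List.mem_singleton] at hT
    subst hT
    exact ⟨fun _ => rfl, fun h => absurd h h01, fun h => absurd h h02⟩
  have hY : ∀ c, Profile.Indep (shearYP ns nd tr c) 1 := by
    intro c T hT
    obtain ⟨s, r, l, s', w, d, hs, hr, hl, _, hT⟩ := mem_overRules hT
    rw [List.mem_singleton] at hT
    subst hT
    exact ⟨fun h => absurd h h10, fun _ => rfl, fun h => absurd h h12⟩
  by_cases k2 : k = 2
  · subst k2; simpa using hX c1
  by_cases k3 : k = 3
  · subst k3; simpa using hY c2
  by_cases k4 : k = 4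
  · subst k4; simpa using hX c3
  by_cases k5 : k = 5
  · subst k5; simpa using hY c4
  by_cases k6 : k = 6
  · subst k6
    simp only [OfNat.ofNat_ne_zero, if_false, OfNat.ofNat_ne_one, Nat.reduceEqDiff, if_true,
      or_true, or_self]
    intro T hT
    obtain ⟨s, r, l, s', w, d, hs, hr, hl, _, hT⟩ := mem_overRules hT
    rw [List.mem_singleton] at hT
    subst hT
    exact ⟨fun _ => rfl, fun h => absurd h h01, fun h => absurd h h02⟩
  by_cases k7 : k = 7
  · subst k7
    simp only [OfNat.ofNat_ne_zero, if_false, OfNat.ofNat_ne_one, Nat.reduceEqDiff, if_true,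
      or_self]
    intro T hT
    obtain ⟨s, r, l, s', w, d, hs, hr, hl, _, hT⟩ := mem_overRules hT
    rw [List.mem_singleton] at hT
    subst hT
    exact ⟨fun h => absurd h h10, fun _ => rfl, fun h => absurd h h12⟩
  · simp only [k0, k1, k2, k3, k4, k5, k6, k7, if_false, false_or]
    intro T hT
    obtain ⟨s, r, l, s', w, d, hs, hr, hl, _, hT⟩ := mem_overRules hT
    by_cases k8 : k = 8
    · simp only [k8, if_true]
      split_ifs at hT
      all_goals
        rw [List.mem_singleton] at hT
        subst hT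
        exact ⟨fun h => absurd h h20, fun h => absurd h h21, fun _ => rfl⟩
    · omega

theorem prog_indep (s0 : ℕ) (R : List ℕ) (n : ℕ) :
    Profile.Indep (progProf ns nd tr hs s0 R n) (progDir n) := by
  unfold progProf progDir
  by_cases n0 : n = 0
  · subst n0
    simp only [if_true]
    intro T hT
    unfold loadXP at hT
    rw [List.mem_singleton] at hT
    subst hT
    exact ⟨fun _ => rfl, fun _ => rfl, fun _ => rfl⟩
  by_cases n1 : n = 1
  · subst n1
    simp only [if_true, n0, if_false]
    intro T hT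
    unfold loadYP at hT
    rw [List.mem_singleton] at hT
    subst hT
    exact ⟨fun _ => rfl, fun _ => rfl, fun _ => rfl⟩
  · simp only [n0, n1, if_false]
    exact period_indep (Nat.mod_lt _ (by norm_num))

/-- Schedule data attached to an arbitrary table. -/
noncomputable def data (ns nd : ℕ) (tr : ℕ → ℕ → Option (ℕ × ℕ × ℕ)) (hs : ℕ → Bool) (s0 : ℕ)
    (R : List ℕ) : SData where
  dir := progDir
  prof := progProf ns nd (clip ns nd tr) hs s0 R
  h := 1
  good := prog_good (fun _ _ _ _ _ _ _ h => clip_bound h) s0 R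
  indep := prog_indep s0 R

/-- The profiles only depend on the table in range. -/
theorem overRules_congr {ns nd : ℕ} {tr tr' : ℕ → ℕ → Option (ℕ × ℕ × ℕ)}
    (h : ∀ s r, s < ns → r < nd → tr s r = tr' s r)
    (F : ℕ → ℕ → ℕ → ℕ → ℕ → ℕ → List PTerm) : overRules ns nd tr F = overRules ns nd tr' F := by
  unfold overRules
  apply List.flatMap_congr
  intro s hs
  apply List.flatMap_congr
  intro r hr
  rw [h s r (List.mem_range.1 hs) (List.mem_range.1 hr)]

theorem signal_congr {ns nd : ℕ} {hs hs' : ℕ → Bool} (h : ∀ s, s < ns → hs s = hs' s) :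
    signalP ns nd hs = signalP ns nd hs' := by
  unfold signalP
  apply List.flatMap_congr
  intro s hs1
  rw [h s (List.mem_range.1 hs1)]

theorem progProf_congr {ns nd : ℕ} {tr tr' : ℕ → ℕ → Option (ℕ × ℕ × ℕ)} {hs hs' : ℕ → Bool}
    (h : ∀ s r, s < ns → r < nd → tr s r = tr' s r) (h' : ∀ s, s < ns → hs s = hs' s)
    (s0 : ℕ) (R : List ℕ) (n : ℕ) :
    progProf ns nd tr hs s0 R n = progProf ns nd tr' hs' s0 R n := by
  unfold progProf periodP labelP shearXP shearYP transXP transYP unlabelP
  simp only [overRules_congr h, signal_congr h']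

theorem data_eq (m : RevMachine) {tr : ℕ → ℕ → Option (ℕ × ℕ × ℕ)} {hs : ℕ → Bool}
    (h : ∀ s r, s < m.ns → r < m.nd → tr s r = m.tr s r) (h' : ∀ s, s < m.ns → hs s = m.hs s)
    (s0 : ℕ) (R : List ℕ) :
    (data m.ns m.nd tr hs s0 R).sched = (m.prog s0 R).sched := by
  have hclip : ∀ s r, s < m.ns → r < m.nd → clip m.ns m.nd tr s r = m.tr s r := by
    intro s r hs hr
    unfold clip
    rw [h s r hs hr]
    cases htr : m.tr s r with
    | none => rfl
    | some p =>
      have := m.bound s r p.1 p.2.1 p.2.2 hs hr htr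
      simp [this.1, this.2.1]
  have hp : ∀ n, (data m.ns m.nd tr hs s0 R).prof n = (m.prog s0 R).prof n :=
    fun n => progProf_congr hclip h' s0 R n
  have : data m.ns m.nd tr hs s0 R = m.prog s0 R := by
    have hp' : (data m.ns m.nd tr hs s0 R).prof = (m.prog s0 R).prof := funext hp
    unfold data RevMachine.prog at hp' ⊢
    simp only at hp'
    simp only [SData.mk.injEq, true_and, and_true]
    exact hp'
  rw [this]

end Raw

end Vale.Agent.P113
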