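import Vale.Agent.P113.Prog

/-!
# P113: the shear program of a reversible machine, values of the profiles on coded configurations
-/

open MeasureTheory Set Filter Topology
open scoped ContDiff

namespace Vale.Agent.P113

/-! ### Digit expansions -/

/-- The real number `∑ f i / B^(i+1)`. -/
noncomputable def ev (B : ℕ) (f : ℕ → ℕ) : ℝ := ∑' i, (f i : ℝ) / (B : ℝ) ^ (i + 1)

theorem hasSum_geom {B : ℕ} (hB : 2 ≤ B) :
    HasSum (fun i : ℕ => ((B : ℝ) - 1) / (B : ℝ) ^ (i + 1)) 1 := by
  have hB' : (2 : ℝ) ≤ B := by exact_mod_cast hB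
  have h1 : HasSum (fun i : ℕ => ((B : ℝ)⁻¹) ^ i) (1 - (B : ℝ)⁻¹)⁻¹ := by
    apply hasSum_geometric_of_lt_one (by positivity)
    apply inv_lt_one_of_one_lt₀
    linarith
  have h2 := h1.mul_left (((B : ℝ) - 1) / B)
  have h3 : ((B : ℝ) - 1) / B * (1 - (B : ℝ)⁻¹)⁻¹ = 1 := by
    have : (B : ℝ) ≠ 0 := by linarith
    have h4 : (B : ℝ) - 1 ≠ 0 := by linarith
    field_simp
  rw [h3] at h2
  have h5 : (fun i : ℕ => ((B : ℝ) - 1) / (B : ℝ) ^ (i + 1))
      = fun i : ℕ => ((B : ℝ) - 1) / B * (B : ℝ)⁻¹ ^ i := by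
    funext i
    rw [inv_pow, pow_succ]
    have : (B : ℝ) ≠ 0 := by linarith
    field_simp
  rw [h5]
  exact h2

theorem summable_ev {q : ℕ} (hq : 1 ≤ q) {f : ℕ → ℕ} (hf : ∀ i, f i < q) :
    Summable fun i => (f i : ℝ) / ((2 * q : ℕ) : ℝ) ^ (i + 1) := by
  have h := (hasSum_geom (B := 2 * q) (by omega)).summable
  refine Summable.of_nonneg_of_le (fun i => by positivity) (fun i => ?_) h
  have h1 : (f i : ℝ) ≤ ((2 * q : ℕ) : ℝ) - 1 := by
    have : f i + 1 ≤ 2 * q := by have := hf i; omega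
    have h2 : ((f i + 1 : ℕ) : ℝ) ≤ ((2 * q : ℕ) : ℝ) := by exact_mod_cast this
    push_cast at h2 ⊢
    linarith
  gcongr

theorem ev_nonneg (B : ℕ) (f : ℕ → ℕ) : 0 ≤ ev B f := by
  unfold ev
  exact tsum_nonneg fun i => by positivity

theorem ev_le_half {q : ℕ} (hq : 1 ≤ q) {f : ℕ → ℕ} (hf : ∀ i, f i < q) : ev (2 * q) f ≤ 1 / 2 := by
  have hg := hasSum_geom (B := 2 * q) (by omega)
  have hg2 := hg.mul_left (1 / 2 : ℝ)
  have h1 : ev (2 * q) f ≤ 1 / 2 * 1 := by
    unfold ev
    apply hasSum_le _ (summable_ev hq hf).hasSum hg2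
    intro i
    have h2 : (f i : ℝ) ≤ 1 / 2 * (((2 * q : ℕ) : ℝ) - 1) := by
      have : f i + 1 ≤ q := hf i
      have h3 : ((f i + 1 : ℕ) : ℝ) ≤ (q : ℝ) := by exact_mod_cast this
      push_cast at h3 ⊢
      linarith
    calc (f i : ℝ) / ((2 * q : ℕ) : ℝ) ^ (i + 1)
        ≤ (1 / 2 * (((2 * q : ℕ) : ℝ) - 1)) / ((2 * q : ℕ) : ℝ) ^ (i + 1) := by gcongr
      _ = 1 / 2 * ((((2 * q : ℕ) : ℝ) - 1) / ((2 * q : ℕ) : ℝ) ^ (i + 1)) := by ring
  linarith

theorem ev_scons {q : ℕ} (hq : 1 ≤ q) {f : ℕ → ℕ} (hf : ∀ i, f i < q) {a : ℕ} (ha : a < q) :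
    ev (2 * q) (scons a f) = (a + ev (2 * q) f) / ((2 * q : ℕ) : ℝ) := by
  have hs : ∀ i, scons a f i < q := by
    intro i
    cases i with
    | zero => exact ha
    | succ i => exact hf i
  have h0 : (((2 * q : ℕ) : ℝ)) ≠ 0 := by
    have : 2 * q ≠ 0 := by omega
    exact_mod_cast this
  unfold ev
  rw [(summable_ev hq hs).tsum_eq_zero_add, add_div, ← tsum_div_const]
  congr 1
  · simp [scons]
  · congr 1
    funext i
    have : scons a f (i + 1) = f i := rfl
    rw [this, pow_succ]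
    field_simp

theorem scons_stail (f : ℕ → ℕ) : scons (f 0) (stail f) = f := by
  funext n; cases n <;> rfl

theorem stail_scons (a : ℕ) (f : ℕ → ℕ) : stail (scons a f) = f := rfl

theorem ev_eq {q : ℕ} (hq : 1 ≤ q) {f : ℕ → ℕ} (hf : ∀ i, f i < q) :
    ev (2 * q) f = (f 0 + ev (2 * q) (stail f)) / ((2 * q : ℕ) : ℝ) := by
  have := ev_scons hq (f := stail f) (fun i => hf (i + 1)) (hf 0)
  rwa [scons_stail] at this

theorem listTape_nil : listTape [] = fun _ => 0 := by
  funext n; simp [listTape]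

theorem ev_zero (B : ℕ) : ev B (fun _ => 0) = 0 := by
  simp [ev]

theorem listTape_cons (a : ℕ) (l : List ℕ) : listTape (a :: l) = scons a (listTape l) := by
  funext n; cases n <;> simp [listTape, scons]

theorem listTape_lt {q : ℕ} (hq : 1 ≤ q) {l : List ℕ} (hl : ∀ a ∈ l, a < q) (i : ℕ) :
    listTape l i < q := by
  unfold listTape
  by_cases h : i < l.length
  · rw [List.getD_eq_getElem _ _ h]; exact hl _ (List.getElem_mem h)
  · rw [List.getD_eq_default _ _ (not_lt.1 h)]; omega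

theorem foldl_digVal (b acc : ℕ) (l : List ℕ) :
    l.foldl (fun acc d => acc * b + d) acc = acc * b ^ l.length + digVal b l := by
  induction l generalizing acc with
  | nil => simp [digVal]
  | cons a l ih =>
    simp only [digVal, List.foldl_cons, List.length_cons, zero_mul, zero_add]
    rw [ih, ih a]
    ring

theorem ev_listTape {q : ℕ} (hq : 1 ≤ q) {l : List ℕ} (hl : ∀ a ∈ l, a < q) :
    ev (2 * q) (listTape l) = digVal (2 * q) l / ((2 * q : ℕ) : ℝ) ^ l.length := by
  have h0 : (((2 * q : ℕ) : ℝ)) ≠ 0 := by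
    have : 2 * q ≠ 0 := by omega
    exact_mod_cast this
  induction l with
  | nil => rw [listTape_nil, ev_zero]; simp [digVal]
  | cons a l ih =>
    have hl' : ∀ a ∈ l, a < q := fun x hx => hl x (List.mem_cons_of_mem _ hx)
    rw [listTape_cons, ev_scons hq (listTape_lt hq hl') (hl a List.mem_cons_self), ih hl']
    have h1 : digVal (2 * q) (a :: l) = a * (2 * q) ^ l.length + digVal (2 * q) l := by
      have := foldl_digVal (2 * q) a l
      simpa [digVal] using this
    rw [h1, List.length_cons, pow_succ]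
    push_cast
    push_cast at h0
    field_simp

/-! ### Values of the factors -/

theorem cf_of_lt {x : ℝ} (h : |x| < 1 / 2) : cf x = x := by
  unfold cf
  have : round x = 0 := by
    rw [round_eq_zero_iff]
    rw [abs_lt] at h
    constructor <;> linarith [h.1, h.2]
  rw [this]; simp

theorem one_eval (x : ℝ) : Fac.eval oneFac x = 1 := oneFac_raw _

theorem bump_raw (a k : ℕ) (x : ℝ) :
    Fac.raw (bumpFac a k) x = S (a * x + 1 - 2 * k) - S (a * x - 1 - 2 * k) := by
  simp only [Fac.raw, bumpFac, Atom.raw, baseF, RatCode.val, List.map_cons, List.map_nil,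
    List.sum_cons, List.sum_nil]
  push_cast
  have h1 : ((a : ℝ) - 0) / (0 + 1) * x + (1 - 2 * k) / (0 + 1) = a * x + 1 - 2 * k := by ring
  have h2 : ((a : ℝ) - 0) / (0 + 1) * x + (0 - (2 * k + 1)) / (0 + 1) = a * x - 1 - 2 * k := by ring
  rw [h1, h2]
  norm_num
  ring

theorem lin_raw (x : ℝ) : Fac.raw linFac x = x * (S (8 * x + 3) - S (8 * x - 2)) := by
  simp only [Fac.raw, linFac, Atom.raw, baseF, RatCode.val, List.map_cons, List.map_nil,
    List.sum_cons, List.sum_nil]
  norm_num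
  have h2 : (8 : ℝ) * x + -2 = 8 * x - 2 := by ring
  rw [h2]
  ring

theorem lin_good : Fac.Good linFac := by
  refine ⟨0, fun x hx => ?_⟩
  rw [lin_raw]
  rcases le_abs.1 hx with h | h
  · rw [S_of_one_le (by linarith), S_of_one_le (by linarith)]; ring
  · rw [S_of_nonpos (by linarith), S_of_nonpos (by linarith)]; ring

theorem lin_eval {x : ℝ} (h : |x| ≤ 1 / 4) : Fac.eval linFac x = x := by
  unfold Fac.eval
  rw [cf_of_lt (by linarith), lin_raw]
  rw [abs_le] at h
  rw [S_of_one_le (by linarith [h.1]), S_of_nonpos (by linarith [h.2])]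
  ring

theorem bump_good {a k : ℕ} (h : 16 * (k + 1) ≤ 3 * a) : Fac.Good (bumpFac a k) := by
  have h' : (16 : ℝ) * (k + 1) ≤ 3 * a := by exact_mod_cast h
  have hk : (0 : ℝ) ≤ k := Nat.cast_nonneg k
  have ha : (0 : ℝ) ≤ a := Nat.cast_nonneg a
  refine ⟨0, fun x hx => ?_⟩
  rw [bump_raw]
  rcases le_abs.1 hx with h1 | h1
  · have h2 : (a : ℝ) * (3 / 8) ≤ a * x := mul_le_mul_of_nonneg_left h1 ha
    rw [S_of_one_le (by linarith), S_of_one_le (by linarith)]; ring
  · have h2 : (a : ℝ) * x ≤ a * (-(3 / 8)) := mul_le_mul_of_nonneg_left (by linarith) ha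
    rw [S_of_nonpos (by linarith), S_of_nonpos (by linarith)]; ring

theorem bump_eval {a k K : ℕ} {x ε : ℝ} (hx : |x| < 1 / 2) (h : a * x = 2 * (K + ε)) (h0 : 0 ≤ ε)
    (h1 : ε ≤ 1 / 2) : Fac.eval (bumpFac a k) x = if K = k then 1 else 0 := by
  unfold Fac.eval
  rw [cf_of_lt hx, bump_raw, h]
  by_cases hk : K = k
  · subst hk
    rw [if_pos rfl, S_of_one_le (by linarith), S_of_nonpos (by linarith)]; ring
  · rw [if_neg hk]
    rcases lt_or_gt_of_ne hk with h2 | h2
    · have h3 : (K : ℝ) + 1 ≤ k := by exact_mod_cast h2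
      rw [S_of_nonpos (by linarith), S_of_nonpos (by linarith)]; ring
    · have h3 : (k : ℝ) + 1 ≤ K := by exact_mod_cast h2
      rw [S_of_one_le (by linarith), S_of_one_le (by linarith)]; ring

/-! ### Sums over rules -/

theorem Profile.eval_nil (h : ℝ) (x : V) : Profile.eval h [] x = 0 := by simp [Profile.eval]

theorem Profile.eval_append (h : ℝ) (P Q : Profile) (x : V) :
    Profile.eval h (P ++ Q) x = Profile.eval h P x + Profile.eval h Q x := by
  simp [Profile.eval]

theorem Profile.eval_single (T : PTerm) (x : V) :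
    Profile.eval 1 [T] x = RatCode.val T.1 *
      (Fac.eval T.2.2.1 (x 0) * Fac.eval T.2.2.2.1 (x 1) * Fac.eval T.2.2.2.2 (x 2)) := by
  simp [Profile.eval, PTerm.coef]

theorem Profile.eval_flatMap_range (h : ℝ) (n : ℕ) (F : ℕ → List PTerm) (x : V) :
    Profile.eval h ((List.range n).flatMap F) x = ∑ i ∈ Finset.range n, Profile.eval h (F i) x := by
  induction n with
  | zero => simp [Profile.eval]
  | succ n ih =>
    rw [List.range_succ, List.flatMap_append, Profile.eval_append, ih, Finset.sum_range_succ]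
    simp

theorem Profile.eval_overRules (h : ℝ) (ns nd : ℕ) (tr : ℕ → ℕ → Option (ℕ × ℕ × ℕ))
    (F : ℕ → ℕ → ℕ → ℕ → ℕ → ℕ → List PTerm) (x : V) :
    Profile.eval h (overRules ns nd tr F) x = ∑ s ∈ Finset.range ns, ∑ r ∈ Finset.range nd,
      ∑ l ∈ Finset.range nd, (match tr s r with
        | none => 0
        | some (s', w, d) => Profile.eval h (F s r l s' w d) x) := by
  unfold overRules
  rw [Profile.eval_flatMap_range]
  apply Finset.sum_congr rfl
  intro s _
  rw [Profile.eval_flatMap_range]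
  apply Finset.sum_congr rfl
  intro r _
  rw [Profile.eval_flatMap_range]
  apply Finset.sum_congr rfl
  intro l _
  cases tr s r with
  | none => simp [Profile.eval]
  | some p => rfl

/-- If only one triple can contribute, the sum over rules is its contribution. -/
theorem Profile.eval_overRules_single (h : ℝ) (ns nd : ℕ) (tr : ℕ → ℕ → Option (ℕ × ℕ × ℕ))
    (F : ℕ → ℕ → ℕ → ℕ → ℕ → ℕ → List PTerm) (x : V) {s₀ r₀ l₀ : ℕ} (hs : s₀ < ns) (hr : r₀ < nd)
    (hl : l₀ < nd)
    (hF : ∀ s r l s' w d, s < ns → r < nd → l < nd → tr s r = some (s', w, d) →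
      (s, r, l) ≠ (s₀, r₀, l₀) → Profile.eval h (F s r l s' w d) x = 0) :
    Profile.eval h (overRules ns nd tr F) x = (match tr s₀ r₀ with
        | none => 0
        | some (s', w, d) => Profile.eval h (F s₀ r₀ l₀ s' w d) x) := by
  rw [Profile.eval_overRules]
  rw [Finset.sum_eq_single s₀, Finset.sum_eq_single r₀, Finset.sum_eq_single l₀]
  · intro l hl' hne
    cases htr : tr s₀ r₀ with
    | none => rfl
    | some p =>
      exact hF s₀ r₀ l p.1 p.2.1 p.2.2 hs hr (Finset.mem_range.1 hl') htr (by simp [hne])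
  · intro hc; exact absurd (Finset.mem_range.2 hl) hc
  · intro r hr' hne
    apply Finset.sum_eq_zero
    intro l hl'
    cases htr : tr s₀ r with
    | none => rfl
    | some p =>
      exact hF s₀ r l p.1 p.2.1 p.2.2 hs (Finset.mem_range.1 hr') (Finset.mem_range.1 hl') htr
        (by simp [hne])
  · intro hc; exact absurd (Finset.mem_range.2 hr) hc
  · intro s hs' hne
    apply Finset.sum_eq_zero
    intro r hr'
    apply Finset.sum_eq_zero
    intro l hl'
    cases htr : tr s r with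
    | none => rfl
    | some p =>
      exact hF s r l p.1 p.2.1 p.2.2 (Finset.mem_range.1 hs') (Finset.mem_range.1 hr')
        (Finset.mem_range.1 hl') htr (by simp [hne])
  · intro hc; exact absurd (Finset.mem_range.2 hs) hc

theorem Profile.eval_overRules_zero (h : ℝ) (ns nd : ℕ) (tr : ℕ → ℕ → Option (ℕ × ℕ × ℕ))
    (F : ℕ → ℕ → ℕ → ℕ → ℕ → ℕ → List PTerm) (x : V)
    (hF : ∀ s r l s' w d, s < ns → r < nd → l < nd → tr s r = some (s', w, d) →
      Profile.eval h (F s r l s' w d) x = 0) :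
    Profile.eval h (overRules ns nd tr F) x = 0 := by
  rw [Profile.eval_overRules]
  apply Finset.sum_eq_zero
  intro s hs'
  apply Finset.sum_eq_zero
  intro r hr'
  apply Finset.sum_eq_zero
  intro l hl'
  cases htr : tr s r with
  | none => rfl
  | some p =>
    exact hF s r l p.1 p.2.1 p.2.2 (Finset.mem_range.1 hs') (Finset.mem_range.1 hr')
      (Finset.mem_range.1 hl') htr

/-- Euclidean division injectivity. -/
theorem pair_inj {n a b a' b' : ℕ} (hb : b < n) (hb' : b' < n) (h : a * n + b = a' * n + b') :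
    a = a' ∧ b = b' := by
  have h1 : (a * n + b) / n = a := by
    rw [Nat.mul_comm, Nat.mul_add_div (by omega), Nat.div_eq_of_lt hb]; simp
  have h2 : (a' * n + b') / n = a' := by
    rw [Nat.mul_comm, Nat.mul_add_div (by omega), Nat.div_eq_of_lt hb']; simp
  have h3 : a = a' := by rw [← h1, ← h2, h]
  subst h3
  exact ⟨rfl, by omega⟩

theorem lab_inj {nd s r l s' r' l' : ℕ} (hr : r < nd) (hl : l < nd) (hr' : r' < nd) (hl' : l' < nd)
    (h : lab nd s r l = lab nd s' r' l') : (s, r, l) = (s', r', l') := by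
  unfold lab at h
  have h1 := pair_inj hl hl' (Nat.add_left_cancel h)
  have h2 := pair_inj hr hr' h1.1
  rw [h2.1, h2.2, h1.2]

theorem lab_pos (nd s r l : ℕ) : 1 ≤ lab nd s r l := by unfold lab; omega

theorem lab_le {ns nd s r l : ℕ} (hs : s < ns) (hr : r < nd) (hl : l < nd) :
    lab nd s r l ≤ ns * nd * nd := by
  unfold lab
  have h1 : s * nd + r + 1 ≤ ns * nd := by
    have : (s + 1) * nd ≤ ns * nd := Nat.mul_le_mul_right _ hs
    nlinarith
  have h2 : (s * nd + r + 1) * nd ≤ ns * nd * nd := Nat.mul_le_mul_right _ h1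
  nlinarith

end Vale.Agent.P113
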