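import Vale.Agent.P113.Profile

/-!
# P113: schedules given by finitely described profiles; formula for the derivatives of the force
-/

open MeasureTheory Set Filter Topology
open scoped ContDiff

namespace Vale.Agent.P113

theorem iteratedDeriv_zero_of_nonpos {f : ℝ → ℝ} (hf : ContDiff ℝ ∞ f) (h : ∀ x < 0, f x = 0)
    (k : ℕ) : ∀ x ≤ 0, iteratedDeriv k f x = 0 := by
  have hneg : ∀ x < 0, iteratedDeriv k f x = 0 := by
    intro x hx
    have : f =ᶠ[𝓝 x] fun _ => (0 : ℝ) := by
      filter_upwards [Iio_mem_nhds hx] with y hy using h y hy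
    rw [this.iteratedDeriv_eq]
    simp
  intro x hx
  rcases lt_or_eq_of_le hx with h1 | h1
  · exact hneg x h1
  · subst h1
    have hc : Continuous (iteratedDeriv k f) := (iteratedDeriv_smooth hf k).continuous
    have h1 : Tendsto (iteratedDeriv k f) (𝓝[<] 0) (𝓝 (iteratedDeriv k f 0)) :=
      (hc.tendsto 0).mono_left nhdsWithin_le_nhds
    have h2 : Tendsto (iteratedDeriv k f) (𝓝[<] 0) (𝓝 0) := by
      apply tendsto_const_nhds.congr'
      filter_upwards [self_mem_nhdsWithin] with y hy using (hneg y hy).symm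
    exact tendsto_nhds_unique h1 h2

theorem iteratedDeriv_zero_of_one_le {f : ℝ → ℝ} (hf : ContDiff ℝ ∞ f) (h : ∀ x > 1, f x = 0)
    (k : ℕ) : ∀ x ≥ 1, iteratedDeriv k f x = 0 := by
  have hneg : ∀ x > 1, iteratedDeriv k f x = 0 := by
    intro x hx
    have : f =ᶠ[𝓝 x] fun _ => (0 : ℝ) := by
      filter_upwards [Ioi_mem_nhds hx] with y hy using h y hy
    rw [this.iteratedDeriv_eq]
    simp
  intro x hx
  rcases lt_or_eq_of_le hx with h1 | h1
  · exact hneg x h1
  · subst h1
    have hc : Continuous (iteratedDeriv k f) := (iteratedDeriv_smooth hf k).continuous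
    have h1 : Tendsto (iteratedDeriv k f) (𝓝[>] 1) (𝓝 (iteratedDeriv k f 1)) :=
      (hc.tendsto 1).mono_left nhdsWithin_le_nhds
    have h2 : Tendsto (iteratedDeriv k f) (𝓝[>] 1) (𝓝 0) := by
      apply tendsto_const_nhds.congr'
      filter_upwards [self_mem_nhdsWithin] with y hy using (hneg y hy).symm
    exact tendsto_nhds_unique h1 h2

theorem iteratedDeriv_S_of_nonpos (k : ℕ) {x : ℝ} (hx : x ≤ 0) : iteratedDeriv (k + 1) S x = 0 := by
  rw [iteratedDeriv_succ']
  exact iteratedDeriv_zero_of_nonpos dS_contDiff (fun y hy => deriv_S_of_neg hy) k x hx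

theorem iteratedDeriv_S_of_one_le (k : ℕ) {x : ℝ} (hx : 1 ≤ x) : iteratedDeriv (k + 1) S x = 0 := by
  rw [iteratedDeriv_succ']
  exact iteratedDeriv_zero_of_one_le dS_contDiff (fun y hy => deriv_S_of_gt hy) k x hx

/-- Schedule data: directions and finitely described profiles with a real parameter `h`. -/
structure SData where
  dir : ℕ → Fin 3
  prof : ℕ → Profile
  h : ℝ
  good : ∀ n, Profile.Good (prof n)
  indep : ∀ n, Profile.Indep (prof n) (dir n)

/-- The schedule of shears described by the data. -/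
noncomputable def SData.sched (D : SData) : Schedule where
  dir := D.dir
  g n := Profile.eval D.h (D.prof n)
  smooth n := Profile.eval_contDiff (D.good n)
  periodic n := Profile.eval_periodic D.h (D.prof n)
  indep n x s := Profile.eval_indep (D.indep n) x s

theorem Profile.pd0_ten {h : ℝ} {P : Profile} (hP : Profile.Good P) {c : ℝ} {τ : ℝ → ℝ}
    (hτ : ContDiff ℝ ∞ τ) (a b d : ℕ) (t : ℝ) :
    pd 0 (tEval (Profile.ten h P c τ (a, b, d)) t) = tEval (Profile.ten h P c τ (a + 1, b, d)) t := by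
  funext x
  rw [tEval_pd0 (Profile.ten_smooth hP hτ _)]
  congr 1
  simp only [Profile.ten, List.map_map]
  apply List.map_congr_left
  intro T _
  simp [iteratedDeriv_succ]

theorem Profile.pd1_ten {h : ℝ} {P : Profile} (hP : Profile.Good P) {c : ℝ} {τ : ℝ → ℝ}
    (hτ : ContDiff ℝ ∞ τ) (a b d : ℕ) (t : ℝ) :
    pd 1 (tEval (Profile.ten h P c τ (a, b, d)) t) = tEval (Profile.ten h P c τ (a, b + 1, d)) t := by
  funext x
  rw [tEval_pd1 (Profile.ten_smooth hP hτ _)]
  congr 1
  simp only [Profile.ten, List.map_map]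
  apply List.map_congr_left
  intro T _
  simp [iteratedDeriv_succ]

theorem Profile.pd2_ten {h : ℝ} {P : Profile} (hP : Profile.Good P) {c : ℝ} {τ : ℝ → ℝ}
    (hτ : ContDiff ℝ ∞ τ) (a b d : ℕ) (t : ℝ) :
    pd 2 (tEval (Profile.ten h P c τ (a, b, d)) t) = tEval (Profile.ten h P c τ (a, b, d + 1)) t := by
  funext x
  rw [tEval_pd2 (Profile.ten_smooth hP hτ _)]
  congr 1
  simp only [Profile.ten, List.map_map]
  apply List.map_congr_left
  intro T _
  simp [iteratedDeriv_succ]

theorem Profile.lap_eval {h : ℝ} {P : Profile} (hP : Profile.Good P) (x : V) :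
    Schedule.lap (Profile.eval h P) x
      = tEval (Profile.ten h P 1 (fun _ => 1) (2, 0, 0)) 0 x
        + tEval (Profile.ten h P 1 (fun _ => 1) (0, 2, 0)) 0 x
        + tEval (Profile.ten h P 1 (fun _ => 1) (0, 0, 2)) 0 x := by
  have he : Profile.eval h P = tEval (Profile.ten h P 1 (fun _ => 1) (0, 0, 0)) 0 := by
    funext y; exact Profile.eval_eq_tEval h P y
  have hτ : ContDiff ℝ ∞ (fun _ : ℝ => (1 : ℝ)) := contDiff_const
  unfold Schedule.lap
  rw [Fin.sum_univ_three, he]
  rw [Profile.pd0_ten hP hτ, Profile.pd0_ten hP hτ, Profile.pd1_ten hP hτ, Profile.pd1_ten hP hτ,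
    Profile.pd2_ten hP hτ, Profile.pd2_ten hP hτ]

namespace SData

variable (D : SData)

/-- Tensor data of the contribution of phase `m` to component `i` of the force. -/
noncomputable def piece (ν : ℝ) (i : Fin 3) (m : ℕ) : List Ten :=
  if D.dir m = i then
    Profile.ten D.h (D.prof m) 1 (fun t => deriv (deriv S) (t - m)) (0, 0, 0) ++
    (Profile.ten D.h (D.prof m) (-ν) (fun t => deriv S (t - m)) (2, 0, 0) ++
    (Profile.ten D.h (D.prof m) (-ν) (fun t => deriv S (t - m)) (0, 2, 0) ++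
    Profile.ten D.h (D.prof m) (-ν) (fun t => deriv S (t - m)) (0, 0, 2)))
  else []

/-- All the tensor data before time `N`. -/
noncomputable def pieces (ν : ℝ) (i : Fin 3) : ℕ → List Ten
  | 0 => []
  | N + 1 => pieces ν i N ++ D.piece ν i N

theorem tEval_piece (ν : ℝ) (i : Fin 3) (m : ℕ) (t : ℝ) (x : V) :
    tEval (D.piece ν i m) t x = if D.dir m = i then
      deriv (deriv S) (t - m) * D.sched.g m x
        - ν * (deriv S (t - m) * Schedule.lap (D.sched.g m) x) else 0 := by
  unfold piece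
  by_cases hd : D.dir m = i
  · simp only [hd, if_true]
    have hg : D.sched.g m = Profile.eval D.h (D.prof m) := rfl
    rw [hg, Profile.lap_eval (D.good m), Profile.eval_eq_tEval]
    simp only [tEval_append]
    rw [Profile.tEval_ten D.h (D.prof m) 1 (fun t => deriv (deriv S) (t - m)) (0, 0, 0),
      Profile.tEval_ten D.h (D.prof m) (-ν) (fun t => deriv S (t - m)) (2, 0, 0),
      Profile.tEval_ten D.h (D.prof m) (-ν) (fun t => deriv S (t - m)) (0, 2, 0),
      Profile.tEval_ten D.h (D.prof m) (-ν) (fun t => deriv S (t - m)) (0, 0, 2)]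
    ring
  · simp [hd, tEval_nil]

theorem tEval_pieces (ν : ℝ) (i : Fin 3) (N : ℕ) (t : ℝ) (x : V) :
    tEval (D.pieces ν i N) t x = ∑ m ∈ Finset.range N, if D.dir m = i then
      deriv (deriv S) (t - m) * D.sched.g m x
        - ν * (deriv S (t - m) * Schedule.lap (D.sched.g m) x) else 0 := by
  induction N with
  | zero => simp [pieces, tEval_nil]
  | succ N ih =>
    rw [Finset.sum_range_succ, ← ih, ← D.tEval_piece]
    simp [pieces, tEval_append]

theorem dSshift_smooth (m : ℕ) : ContDiff ℝ ∞ (fun t : ℝ => deriv S (t - m)) :=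
  dS_contDiff.comp (contDiff_id.sub contDiff_const)

theorem ddSshift_smooth (m : ℕ) : ContDiff ℝ ∞ (fun t : ℝ => deriv (deriv S) (t - m)) :=
  ddS_contDiff.comp (contDiff_id.sub contDiff_const)

theorem tSmooth_append {L M : List Ten} (hL : tSmooth L) (hM : tSmooth M) : tSmooth (L ++ M) := by
  intro T hT
  rcases List.mem_append.1 hT with h | h
  · exact hL T h
  · exact hM T h

theorem piece_smooth (ν : ℝ) (i : Fin 3) (m : ℕ) : tSmooth (D.piece ν i m) := by
  unfold piece
  by_cases hd : D.dir m = i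
  · simp only [hd, if_true]
    refine tSmooth_append (Profile.ten_smooth (D.good m) (ddSshift_smooth m) _)
      (tSmooth_append (Profile.ten_smooth (D.good m) (dSshift_smooth m) _)
      (tSmooth_append (Profile.ten_smooth (D.good m) (dSshift_smooth m) _)
      (Profile.ten_smooth (D.good m) (dSshift_smooth m) _)))
  · simp only [hd, if_false]
    intro T hT
    simp at hT

theorem pieces_smooth (ν : ℝ) (i : Fin 3) (N : ℕ) : tSmooth (D.pieces ν i N) := by
  induction N with
  | zero => intro T hT; simp [pieces] at hT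
  | succ N ih => exact tSmooth_append ih (D.piece_smooth ν i N)

/-- The value of the mixed derivative contributed by phase `n`. -/
noncomputable def phaseVal (ν : ℝ) (α : ℕ × ℕ × ℕ × ℕ) (n : ℕ) (t : ℝ) (x : V) : ℝ :=
  iteratedDeriv (α.1 + 2) S (t - n) * Profile.dval D.h (D.prof n) (α.2.1, α.2.2.1, α.2.2.2) x
  - ν * (iteratedDeriv (α.1 + 1) S (t - n) *
    (Profile.dval D.h (D.prof n) (α.2.1 + 2, α.2.2.1, α.2.2.2) x
    + Profile.dval D.h (D.prof n) (α.2.1, α.2.2.1 + 2, α.2.2.2) x
    + Profile.dval D.h (D.prof n) (α.2.1, α.2.2.1, α.2.2.2 + 2) x))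

theorem iter_dS (k m : ℕ) (t : ℝ) :
    iteratedDeriv k (fun t : ℝ => deriv S (t - m)) t = iteratedDeriv (k + 1) S (t - m) := by
  have h1 := iteratedDeriv_comp_sub_const k (deriv S) (m : ℝ)
  rw [h1, iteratedDeriv_succ']

theorem iter_ddS (k m : ℕ) (t : ℝ) :
    iteratedDeriv k (fun t : ℝ => deriv (deriv S) (t - m)) t = iteratedDeriv (k + 2) S (t - m) := by
  have h1 := iteratedDeriv_comp_sub_const k (deriv (deriv S)) (m : ℝ)
  rw [h1, iteratedDeriv_succ', iteratedDeriv_succ']

theorem tEval_shift_piece (ν : ℝ) (α : ℕ × ℕ × ℕ × ℕ) (i : Fin 3) (m : ℕ) (t : ℝ) (x : V) :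
    tEval ((D.piece ν i m).map (tShift α)) t x
      = if D.dir m = i then D.phaseVal ν α m t x else 0 := by
  unfold piece
  by_cases hd : D.dir m = i
  · simp only [hd, if_true, List.map_append, Profile.ten_shift, tEval_append]
    rw [Profile.tEval_ten D.h (D.prof m) 1 _ (α.2.1 + 0, α.2.2.1 + 0, α.2.2.2 + 0),
      Profile.tEval_ten D.h (D.prof m) (-ν) _ (α.2.1 + 2, α.2.2.1 + 0, α.2.2.2 + 0),
      Profile.tEval_ten D.h (D.prof m) (-ν) _ (α.2.1 + 0, α.2.2.1 + 2, α.2.2.2 + 0),
      Profile.tEval_ten D.h (D.prof m) (-ν) _ (α.2.1 + 0, α.2.2.1 + 0, α.2.2.2 + 2)]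
    simp only [Profile.tEval_ten_eq_dval (D.good m), iter_dS, iter_ddS, phaseVal, add_zero]
    ring
  · simp [hd, tEval_nil]

theorem tEval_shift_pieces (ν : ℝ) (α : ℕ × ℕ × ℕ × ℕ) (i : Fin 3) (N : ℕ) (t : ℝ) (x : V) :
    tEval ((D.pieces ν i N).map (tShift α)) t x
      = ∑ m ∈ Finset.range N, if D.dir m = i then D.phaseVal ν α m t x else 0 := by
  induction N with
  | zero => simp [pieces, tEval_nil]
  | succ N ih =>
    rw [Finset.sum_range_succ, ← ih, ← D.tEval_shift_piece]
    simp [pieces, tEval_append]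

/-- Formula for the mixed derivatives of the force. -/
theorem mixedDeriv_force (ν : ℝ) (α : ℕ × ℕ × ℕ × ℕ) (i : Fin 3) {t : ℝ} (ht : 0 ≤ t) (x : V) :
    mixedDeriv α (fun s v => D.sched.force ν s v i) t x
      = if D.dir ⌊t⌋₊ = i then D.phaseVal ν α ⌊t⌋₊ t x else 0 := by
  set n := ⌊t⌋₊ with hn
  have hn1 : (n : ℝ) ≤ t := Nat.floor_le ht
  have hn2 : t < n + 1 := Nat.lt_floor_add_one t
  have h1 : ∀ s < ((n + 1 : ℕ) : ℝ), (fun s v => D.sched.force ν s v i) s
      = tEval (D.pieces ν i (n + 1)) s := by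
    intro s hs
    funext v
    rw [D.tEval_pieces]
    exact D.sched.force_eq ν (Nat.ceil_le.2 hs.le) v i
  rw [mixedDeriv_congr h1 α t (by push_cast; exact hn2), mixedDeriv_tEval (D.pieces_smooth ν i _),
    D.tEval_shift_pieces, Finset.sum_range_succ, Finset.sum_eq_zero, zero_add]
  intro m hm
  rw [Finset.mem_range] at hm
  have h3 : (1 : ℝ) ≤ t - m := by
    have : (m : ℝ) + 1 ≤ n := by exact_mod_cast hm
    linarith
  have h4 : iteratedDeriv (α.1 + 1) S (t - m) = 0 := iteratedDeriv_S_of_one_le _ h3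
  have h5 : iteratedDeriv (α.1 + 2) S (t - m) = 0 := iteratedDeriv_S_of_one_le _ h3
  simp [phaseVal, h4, h5]

end SData

end Vale.Agent.P113
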