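import Vale.Agent.P113.Defs

/-!
# P113: velocity fields made of successive shears
-/

open MeasureTheory Set Filter Topology
open scoped ContDiff

namespace Vale.Agent.P113

/-- A smooth step from `0` (for `x ≤ 0`) to `1` (for `x ≥ 1`). -/
noncomputable abbrev S : ℝ → ℝ := Real.smoothTransition

theorem S_contDiff {n : ℕ∞} : ContDiff ℝ n S := Real.smoothTransition.contDiff

theorem S_contDiff' : ContDiff ℝ ∞ S := Real.smoothTransition.contDiff

theorem dS_contDiff : ContDiff ℝ ∞ (deriv S) := by
  have h : ContDiff ℝ (∞ + 1) S := by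
    simpa using S_contDiff'
  exact (contDiff_succ_iff_deriv.1 h).2.2

theorem ddS_contDiff : ContDiff ℝ ∞ (deriv (deriv S)) := by
  have h : ContDiff ℝ (∞ + 1) (deriv S) := by
    simpa using dS_contDiff
  exact (contDiff_succ_iff_deriv.1 h).2.2

theorem S_of_nonpos {x : ℝ} (h : x ≤ 0) : S x = 0 := Real.smoothTransition.zero_of_nonpos h
theorem S_of_one_le {x : ℝ} (h : 1 ≤ x) : S x = 1 := Real.smoothTransition.one_of_one_le h

theorem deriv_S_of_neg {x : ℝ} (h : x < 0) : deriv S x = 0 := by
  have : S =ᶠ[𝓝 x] fun _ => 0 := by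
    filter_upwards [Iio_mem_nhds h] with y hy using S_of_nonpos (le_of_lt hy)
  rw [this.deriv_eq, deriv_const]

theorem deriv_S_of_gt {x : ℝ} (h : 1 < x) : deriv S x = 0 := by
  have : S =ᶠ[𝓝 x] fun _ => 1 := by
    filter_upwards [Ioi_mem_nhds h] with y hy using S_of_one_le (le_of_lt hy)
  rw [this.deriv_eq, deriv_const]

theorem deriv_S_of_nonpos {x : ℝ} (h : x ≤ 0) : deriv S x = 0 := by
  rcases lt_or_eq_of_le h with h | h
  · exact deriv_S_of_neg h
  · subst h
    have hc : Continuous (deriv S) := dS_contDiff.continuous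
    have h1 : Tendsto (deriv S) (𝓝[<] 0) (𝓝 (deriv S 0)) := (hc.tendsto 0).mono_left nhdsWithin_le_nhds
    have h2 : Tendsto (deriv S) (𝓝[<] 0) (𝓝 0) := by
      apply tendsto_const_nhds.congr'
      filter_upwards [self_mem_nhdsWithin] with y hy using (deriv_S_of_neg hy).symm
    exact tendsto_nhds_unique h1 h2

theorem deriv_S_of_one_le {x : ℝ} (h : 1 ≤ x) : deriv S x = 0 := by
  rcases lt_or_eq_of_le h with h | h
  · exact deriv_S_of_gt h
  · subst h
    have hc : Continuous (deriv S) := dS_contDiff.continuous
    have h1 : Tendsto (deriv S) (𝓝[>] 1) (𝓝 (deriv S 1)) := (hc.tendsto 1).mono_left nhdsWithin_le_nhds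
    have h2 : Tendsto (deriv S) (𝓝[>] 1) (𝓝 0) := by
      apply tendsto_const_nhds.congr'
      filter_upwards [self_mem_nhdsWithin] with y hy using (deriv_S_of_gt hy).symm
    exact tendsto_nhds_unique h1 h2

theorem ddS_of_nonpos {x : ℝ} (h : x ≤ 0) : deriv (deriv S) x = 0 := by
  rcases lt_or_eq_of_le h with h | h
  · have : deriv S =ᶠ[𝓝 x] fun _ => 0 := by
      filter_upwards [Iio_mem_nhds h] with y hy using deriv_S_of_neg hy
    rw [this.deriv_eq, deriv_const]
  · subst h
    have hc : Continuous (deriv (deriv S)) := ddS_contDiff.continuous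
    have h1 : Tendsto (deriv (deriv S)) (𝓝[<] 0) (𝓝 (deriv (deriv S) 0)) :=
      (hc.tendsto 0).mono_left nhdsWithin_le_nhds
    have h2 : Tendsto (deriv (deriv S)) (𝓝[<] 0) (𝓝 0) := by
      apply tendsto_const_nhds.congr'
      filter_upwards [self_mem_nhdsWithin] with y hy
      have : deriv S =ᶠ[𝓝 y] fun _ => 0 := by
        filter_upwards [Iio_mem_nhds hy] with z hz using deriv_S_of_neg hz
      rw [this.deriv_eq, deriv_const]
    exact tendsto_nhds_unique h1 h2

/-! ### Partial derivatives -/

theorem hasDerivAt_update (x : V) (j : Fin 3) (s : ℝ) :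
    HasDerivAt (fun s : ℝ => Function.update x j s) (Pi.single j (1 : ℝ)) s := by
  rw [hasDerivAt_pi]
  intro i
  by_cases h : i = j
  · subst h
    simp only [Function.update_self, Pi.single_eq_same]
    exact hasDerivAt_id' s
  · simp only [Function.update_of_ne h, Pi.single_eq_of_ne h]
    exact hasDerivAt_const s (x i)

theorem pd_eq_fderiv {g : V → ℝ} {x : V} (hg : DifferentiableAt ℝ g x) (j : Fin 3) :
    pd j g x = fderiv ℝ g x (Pi.single j 1) := by
  have h1 : HasFDerivAt g (fderiv ℝ g x) (Function.update x j (x j)) := by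
    rw [Function.update_eq_self]; exact hg.hasFDerivAt
  have h2 := h1.comp_hasDerivAt (x j) (hasDerivAt_update x j (x j))
  exact h2.deriv

theorem pd_contDiff {g : V → ℝ} (hg : ContDiff ℝ ∞ g) (j : Fin 3) : ContDiff ℝ ∞ (pd j g) := by
  have h : pd j g = fun x => fderiv ℝ g x (Pi.single j 1) := by
    funext x
    exact pd_eq_fderiv (hg.differentiable (by simp) x) j
  rw [h]
  exact (hg.fderiv_right (m := ∞) (by simp)).clm_apply contDiff_const

theorem pd_periodic {g : V → ℝ} (hg : Periodic3 g) (j : Fin 3) : Periodic3 (pd j g) := by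
  intro x k
  unfold pd
  have h : (fun s : ℝ => g (Function.update (x + Pi.single k 1) j s))
      = fun s : ℝ => g (Function.update x j (s - (Pi.single k (1 : ℝ) : V) j)) := by
    funext s
    rw [← hg (Function.update x j (s - (Pi.single k (1 : ℝ) : V) j)) k]
    congr 1
    funext i
    by_cases h : i = j
    · subst h; simp
    · simp [Function.update_of_ne h]
  rw [h]
  have := deriv_comp_sub_const (f := fun s : ℝ => g (Function.update x j s))
    (x := (x + Pi.single k 1 : V) j) (a := (Pi.single k (1 : ℝ) : V) j)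
  rw [this]
  simp

theorem pd_const_smul {g : V → ℝ} {x : V} (c : ℝ) (j : Fin 3) :
    pd j (fun y => c * g y) x = c * pd j g x := by
  unfold pd
  exact deriv_const_mul_field c

theorem pd_sum {ι : Type*} (s : Finset ι) (G : ι → V → ℝ) (hG : ∀ i ∈ s, Differentiable ℝ (G i))
    (x : V) (j : Fin 3) : pd j (fun y => ∑ i ∈ s, G i y) x = ∑ i ∈ s, pd j (G i) x := by
  unfold pd
  apply deriv_fun_sum
  intro i hi
  exact (((hG i hi) _).hasFDerivAt.comp_hasDerivAt _ (hasDerivAt_update x j (x j))).differentiableAt

/-! ### Schedules -/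

/-- An infinite schedule of shears: phase `n` is active during `[n, n+1]`, it moves points in
direction `dir n` with profile `g n`, which does not depend on the coordinate `dir n`. -/
structure Schedule where
  dir : ℕ → Fin 3
  g : ℕ → V → ℝ
  smooth : ∀ n, ContDiff ℝ ∞ (g n)
  periodic : ∀ n, Periodic3 (g n)
  indep : ∀ n x s, g n (Function.update x (dir n) s) = g n x

namespace Schedule

variable (P : Schedule)

/-- The Laplacian of a scalar function. -/
noncomputable def lap (g : V → ℝ) (x : V) : ℝ := ∑ j, pd j (pd j g) x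

/-- The velocity field. -/
noncomputable def vel (t : ℝ) (x : V) : V := fun i =>
  ∑ n ∈ Finset.range ⌈t⌉₊, if P.dir n = i then deriv S (t - n) * P.g n x else 0

/-- The force. -/
noncomputable def force (ν : ℝ) (t : ℝ) (x : V) : V := fun i =>
  ∑ n ∈ Finset.range ⌈t⌉₊, if P.dir n = i then
    deriv (deriv S) (t - n) * P.g n x - ν * (deriv S (t - n) * lap (P.g n) x) else 0

theorem sum_range_ceil {F : ℕ → ℝ} {t : ℝ} {N : ℕ} (hN : ⌈t⌉₊ ≤ N)
    (hF : ∀ n : ℕ, t ≤ n → F n = 0) :
    ∑ n ∈ Finset.range ⌈t⌉₊, F n = ∑ n ∈ Finset.range N, F n := by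
  apply Finset.sum_subset
  · intro n hn
    rw [Finset.mem_range] at hn ⊢
    omega
  · intro n _ hn
    rw [Finset.mem_range, not_lt] at hn
    apply hF
    exact Nat.ceil_le.1 hn

theorem vel_eq {t : ℝ} {N : ℕ} (hN : ⌈t⌉₊ ≤ N) (x : V) (i : Fin 3) :
    P.vel t x i = ∑ n ∈ Finset.range N, if P.dir n = i then deriv S (t - n) * P.g n x else 0 := by
  apply sum_range_ceil hN
  intro n hn
  have : deriv S (t - n) = 0 := deriv_S_of_nonpos (by linarith)
  simp [this]

theorem force_eq (ν : ℝ) {t : ℝ} {N : ℕ} (hN : ⌈t⌉₊ ≤ N) (x : V) (i : Fin 3) :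
    P.force ν t x i = ∑ n ∈ Finset.range N, if P.dir n = i then
    deriv (deriv S) (t - n) * P.g n x - ν * (deriv S (t - n) * lap (P.g n) x) else 0 := by
  apply sum_range_ceil hN
  intro n hn
  have h1 : deriv S (t - n) = 0 := deriv_S_of_nonpos (by linarith)
  have h2 : deriv (deriv S) (t - n) = 0 := ddS_of_nonpos (by linarith)
  simp [h1, h2]

/-- Near a given time the number of terms can be frozen. -/
theorem ceil_eventually (t₀ : ℝ) : ∀ᶠ t in 𝓝 t₀, ⌈t⌉₊ ≤ ⌈t₀⌉₊ + 1 := by
  filter_upwards [Iio_mem_nhds (show t₀ < t₀ + 1 by linarith)] with t ht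
  apply Nat.ceil_le.2
  push_cast
  have := Nat.le_ceil t₀
  have h2 : t < t₀ + 1 := ht
  linarith

theorem lap_contDiff {g : V → ℝ} (hg : ContDiff ℝ ∞ g) : ContDiff ℝ ∞ (lap g) := by
  unfold lap
  apply ContDiff.sum
  intro j _
  exact pd_contDiff (pd_contDiff hg j) j

theorem lap_periodic {g : V → ℝ} (hg : Periodic3 g) : Periodic3 (lap g) := by
  intro x k
  unfold lap
  apply Finset.sum_congr rfl
  intro j _
  exact pd_periodic (pd_periodic hg j) j x k

theorem vel_contDiff : ContDiff ℝ ∞ (fun q : ℝ × V => P.vel q.1 q.2) := by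
  rw [contDiff_iff_contDiffAt]
  rintro ⟨t₀, x₀⟩
  rw [contDiffAt_pi]
  intro i
  have h : (fun q : ℝ × V => P.vel q.1 q.2 i) =ᶠ[𝓝 (t₀, x₀)] fun q : ℝ × V =>
      ∑ n ∈ Finset.range (⌈t₀⌉₊ + 1), if P.dir n = i then deriv S (q.1 - n) * P.g n q.2 else 0 := by
    have := (continuous_fst.tendsto (t₀, x₀)).eventually (ceil_eventually t₀)
    filter_upwards [this] with q hq
    exact P.vel_eq hq q.2 i
  apply ContDiffAt.congr_of_eventuallyEq _ h
  apply ContDiff.contDiffAt
  apply ContDiff.sum
  intro n _
  by_cases hd : P.dir n = i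
  · simp only [hd, if_true]
    exact (dS_contDiff.comp (contDiff_fst.sub contDiff_const)).mul ((P.smooth n).comp contDiff_snd)
  · simp only [hd, if_false]
    exact contDiff_const

theorem force_contDiff (ν : ℝ) : ContDiff ℝ ∞ (fun q : ℝ × V => P.force ν q.1 q.2) := by
  rw [contDiff_iff_contDiffAt]
  rintro ⟨t₀, x₀⟩
  rw [contDiffAt_pi]
  intro i
  have h : (fun q : ℝ × V => P.force ν q.1 q.2 i) =ᶠ[𝓝 (t₀, x₀)] fun q : ℝ × V =>
      ∑ n ∈ Finset.range (⌈t₀⌉₊ + 1), if P.dir n = i then
        deriv (deriv S) (q.1 - n) * P.g n q.2 - ν * (deriv S (q.1 - n) * lap (P.g n) q.2) else 0 := by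
    have := (continuous_fst.tendsto (t₀, x₀)).eventually (ceil_eventually t₀)
    filter_upwards [this] with q hq
    exact P.force_eq ν hq q.2 i
  apply ContDiffAt.congr_of_eventuallyEq _ h
  apply ContDiff.contDiffAt
  apply ContDiff.sum
  intro n _
  by_cases hd : P.dir n = i
  · simp only [hd, if_true]
    refine ((ddS_contDiff.comp (contDiff_fst.sub contDiff_const)).mul
      ((P.smooth n).comp contDiff_snd)).sub (contDiff_const.mul
      ((dS_contDiff.comp (contDiff_fst.sub contDiff_const)).mul
      ((lap_contDiff (P.smooth n)).comp contDiff_snd)))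
  · simp only [hd, if_false]
    exact contDiff_const

theorem vel_periodic (t : ℝ) : Periodic3 (P.vel t) := by
  intro x k
  funext i
  unfold vel
  apply Finset.sum_congr rfl
  intro n _
  rw [P.periodic n x k]

theorem force_periodic (ν t : ℝ) : Periodic3 (P.force ν t) := by
  intro x k
  funext i
  unfold force
  apply Finset.sum_congr rfl
  intro n _
  rw [P.periodic n x k, lap_periodic (P.periodic n) x k]

theorem pd_dir (n : ℕ) (x : V) : pd (P.dir n) (P.g n) x = 0 := by
  unfold pd
  have : (fun s : ℝ => P.g n (Function.update x (P.dir n) s)) = fun _ => P.g n x := by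
    funext s; exact P.indep n x s
  rw [this, deriv_const]

theorem pd_vel (t : ℝ) (i j : Fin 3) (x : V) :
    pd j (fun y => P.vel t y i) x
      = ∑ n ∈ Finset.range ⌈t⌉₊, if P.dir n = i then deriv S (t - n) * pd j (P.g n) x else 0 := by
  unfold vel
  rw [pd_sum]
  · apply Finset.sum_congr rfl
    intro n _
    by_cases hd : P.dir n = i
    · simp only [hd, if_true]
      exact pd_const_smul _ _
    · simp only [hd, if_false]
      simp [pd]
  · intro n _
    by_cases hd : P.dir n = i
    · simp only [hd, if_true]
      exact ((P.smooth n).differentiable (by simp)).const_mul _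
    · simp only [hd, if_false]
      exact differentiable_const _

theorem pd_pd_vel (t : ℝ) (i j k : Fin 3) (x : V) :
    pd k (pd j (fun y => P.vel t y i)) x
      = ∑ n ∈ Finset.range ⌈t⌉₊,
        if P.dir n = i then deriv S (t - n) * pd k (pd j (P.g n)) x else 0 := by
  have h : pd j (fun y => P.vel t y i) = fun x => ∑ n ∈ Finset.range ⌈t⌉₊,
      if P.dir n = i then deriv S (t - n) * pd j (P.g n) x else 0 := by
    funext x; exact P.pd_vel t i j x
  rw [h, pd_sum]
  · apply Finset.sum_congr rfl
    intro n _
    by_cases hd : P.dir n = i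
    · simp only [hd, if_true]
      exact pd_const_smul _ _
    · simp only [hd, if_false]
      simp [pd]
  · intro n _
    by_cases hd : P.dir n = i
    · simp only [hd, if_true]
      exact ((pd_contDiff (P.smooth n) j).differentiable (by simp)).const_mul _
    · simp only [hd, if_false]
      exact differentiable_const _

/-- At a given time at most one phase is active. -/
theorem deriv_S_eq_zero_of_ne {t : ℝ} {m n : ℕ} (h : deriv S (t - m) ≠ 0) (hmn : n ≠ m) :
    deriv S (t - n) = 0 := by
  have h1 : 0 < t - m := by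
    by_contra hc; exact h (deriv_S_of_nonpos (not_lt.1 hc))
  have h2 : t - m < 1 := by
    by_contra hc; exact h (deriv_S_of_one_le (not_lt.1 hc))
  rcases lt_or_gt_of_ne hmn with h3 | h3
  · apply deriv_S_of_one_le
    have : (n : ℝ) + 1 ≤ m := by exact_mod_cast h3
    linarith
  · apply deriv_S_of_nonpos
    have : (m : ℝ) + 1 ≤ n := by exact_mod_cast h3
    linarith

theorem hasDerivAt_vel (t : ℝ) (x : V) :
    HasDerivAt (fun s => P.vel s x) (fun i => ∑ n ∈ Finset.range (⌈t⌉₊ + 1),
      if P.dir n = i then deriv (deriv S) (t - n) * P.g n x else 0) t := by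
  rw [hasDerivAt_pi]
  intro i
  have h : (fun s => P.vel s x i) =ᶠ[𝓝 t] fun s => ∑ n ∈ Finset.range (⌈t⌉₊ + 1),
      if P.dir n = i then deriv S (s - n) * P.g n x else 0 := by
    filter_upwards [ceil_eventually t] with s hs
    exact P.vel_eq hs x i
  apply HasDerivAt.congr_of_eventuallyEq _ h
  apply HasDerivAt.fun_sum
  intro n _
  by_cases hd : P.dir n = i
  · simp only [hd, if_true]
    apply HasDerivAt.mul_const
    have h1 : HasDerivAt (deriv S) (deriv (deriv S) (t - n)) (t - n) :=
      ((dS_contDiff.differentiable (by simp)) _).hasDerivAt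
    exact h1.comp_sub_const t (n : ℝ)
  · simp only [hd, if_false]
    exact hasDerivAt_const _ _

/-- The nonlinear term vanishes identically. -/
theorem advection_zero (t : ℝ) (x : V) (i : Fin 3) :
    ∑ j, P.vel t x j * pd j (fun y => P.vel t y i) x = 0 := by
  apply Finset.sum_eq_zero
  intro j _
  rw [P.pd_vel t i j x]
  unfold vel
  rw [Finset.sum_mul_sum]
  apply Finset.sum_eq_zero
  intro n _
  apply Finset.sum_eq_zero
  intro m _
  by_cases h1 : P.dir n = j
  · by_cases h2 : P.dir m = i
    · simp only [h1, h2, if_true]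
      by_cases hmn : n = m
      · subst hmn
        rw [← h1, P.pd_dir n x]
        simp
      · by_cases h3 : deriv S (t - m) = 0
        · rw [h3]; ring
        · rw [deriv_S_eq_zero_of_ne h3 hmn]; ring
    · simp [h2]
  · simp [h1]

theorem vel_at_zero (x : V) : P.vel 0 x = 0 := by
  funext i
  simp [vel]

/-- The velocity field with zero pressure is a classical solution. -/
theorem isClassicalSolution (ν T : ℝ) :
    IsClassicalSolution ν (P.force ν) T P.vel (fun _ _ => 0) where
  periodic_u t _ := P.vel_periodic t
  periodic_p t _ := fun x k => rfl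
  smooth_u t _ := by
    have h := P.vel_contDiff
    have h2 : ContDiff ℝ ∞ (fun x : V => P.vel t x) :=
      h.comp (contDiff_const.prodMk contDiff_id)
    exact_mod_cast contDiff_infty.1 h2 2
  smooth_p t _ := contDiff_const
  cont_u := P.vel_contDiff.continuous.continuousOn
  cont_du i j := by
    apply Continuous.continuousOn
    rw [continuous_iff_continuousAt]
    rintro ⟨t₀, x₀⟩
    have h : (fun q : ℝ × V => pd j (fun x => P.vel q.1 x i) q.2) =ᶠ[𝓝 (t₀, x₀)] fun q : ℝ × V =>
        ∑ n ∈ Finset.range (⌈t₀⌉₊ + 1),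
          if P.dir n = i then deriv S (q.1 - n) * pd j (P.g n) q.2 else 0 := by
      have := (continuous_fst.tendsto (t₀, x₀)).eventually (ceil_eventually t₀)
      filter_upwards [this] with q hq
      rw [P.pd_vel q.1 i j q.2]
      apply sum_range_ceil hq
      intro n hn
      have : deriv S (q.1 - n) = 0 := deriv_S_of_nonpos (by linarith)
      simp [this]
    apply ContinuousAt.congr _ h.symm
    apply Continuous.continuousAt
    apply continuous_finsetSum
    intro n _
    by_cases hd : P.dir n = i
    · simp only [hd, if_true]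
      exact (dS_contDiff.continuous.comp (continuous_fst.sub continuous_const)).mul
        ((pd_contDiff (P.smooth n) j).continuous.comp continuous_snd)
    · simp only [hd, if_false]
      exact continuous_const
  cont_ddu i j k := by
    apply Continuous.continuousOn
    rw [continuous_iff_continuousAt]
    rintro ⟨t₀, x₀⟩
    have h : (fun q : ℝ × V => pd k (pd j (fun x => P.vel q.1 x i)) q.2) =ᶠ[𝓝 (t₀, x₀)]
        fun q : ℝ × V => ∑ n ∈ Finset.range (⌈t₀⌉₊ + 1),
          if P.dir n = i then deriv S (q.1 - n) * pd k (pd j (P.g n)) q.2 else 0 := by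
      have := (continuous_fst.tendsto (t₀, x₀)).eventually (ceil_eventually t₀)
      filter_upwards [this] with q hq
      rw [P.pd_pd_vel q.1 i j k q.2]
      apply sum_range_ceil hq
      intro n hn
      have : deriv S (q.1 - n) = 0 := deriv_S_of_nonpos (by linarith)
      simp [this]
    apply ContinuousAt.congr _ h.symm
    apply Continuous.continuousAt
    apply continuous_finsetSum
    intro n _
    by_cases hd : P.dir n = i
    · simp only [hd, if_true]
      exact (dS_contDiff.continuous.comp (continuous_fst.sub continuous_const)).mul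
        ((pd_contDiff (pd_contDiff (P.smooth n) j) k).continuous.comp continuous_snd)
    · simp only [hd, if_false]
      exact continuous_const
  cont_p := continuousOn_const
  cont_dp j := by
    have : (fun q : ℝ × V => pd j (fun _ : V => (0 : ℝ)) q.2) = fun _ => 0 := by
      funext q; simp [pd]
    rw [this]
    exact continuousOn_const
  momentum := by
    refine ⟨fun t x i => ∑ n ∈ Finset.range (⌈t⌉₊ + 1),
      if P.dir n = i then deriv (deriv S) (t - n) * P.g n x else 0, ?_, ?_⟩
    · apply Continuous.continuousOn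
      rw [continuous_iff_continuousAt]
      rintro ⟨t₀, x₀⟩
      rw [continuousAt_pi]
      intro i
      have h : (fun q : ℝ × V => ∑ n ∈ Finset.range (⌈q.1⌉₊ + 1),
          if P.dir n = i then deriv (deriv S) (q.1 - n) * P.g n q.2 else 0) =ᶠ[𝓝 (t₀, x₀)]
          fun q : ℝ × V => ∑ n ∈ Finset.range (⌈t₀⌉₊ + 1),
          if P.dir n = i then deriv (deriv S) (q.1 - n) * P.g n q.2 else 0 := by
        have := (continuous_fst.tendsto (t₀, x₀)).eventually (ceil_eventually t₀)
        filter_upwards [this] with q hq
        rw [← sum_range_ceil hq, ← sum_range_ceil (Nat.le_succ _)]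
        · intro n hn
          have : deriv (deriv S) (q.1 - n) = 0 := ddS_of_nonpos (by linarith)
          simp [this]
        · intro n hn
          have : deriv (deriv S) (q.1 - n) = 0 := ddS_of_nonpos (by linarith)
          simp [this]
      apply ContinuousAt.congr _ h.symm
      apply Continuous.continuousAt
      apply continuous_finsetSum
      intro n _
      by_cases hd : P.dir n = i
      · simp only [hd, if_true]
        exact (ddS_contDiff.continuous.comp (continuous_fst.sub continuous_const)).mul
          ((P.smooth n).continuous.comp continuous_snd)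
      · simp only [hd, if_false]
        exact continuous_const
    · intro t _ x
      refine ⟨(P.hasDerivAt_vel t x).hasDerivWithinAt, ?_⟩
      intro i
      rw [P.advection_zero t x i]
      have h0 : pd i (fun _ : V => (0 : ℝ)) x = 0 := by simp [pd]
      rw [h0, P.force_eq ν (Nat.le_succ _)]
      have h1 : ∑ j, pd j (pd j (fun y => P.vel t y i)) x = ∑ n ∈ Finset.range (⌈t⌉₊ + 1),
          if P.dir n = i then deriv S (t - n) * lap (P.g n) x else 0 := by
        simp_rw [P.pd_pd_vel t i]
        rw [Finset.sum_comm, ← sum_range_ceil (Nat.le_succ _)]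
        · apply Finset.sum_congr rfl
          intro n _
          by_cases hd : P.dir n = i
          · simp only [hd, if_true, lap, Finset.mul_sum]
          · simp [hd]
        · intro n hn
          have : deriv S (t - n) = 0 := deriv_S_of_nonpos (by linarith)
          simp [this]
      rw [h1, Finset.mul_sum, neg_zero, zero_add, add_zero, ← Finset.sum_add_distrib]
      apply Finset.sum_congr rfl
      intro n _
      by_cases hd : P.dir n = i
      · simp only [hd, if_true]; ring
      · simp [hd]
  div_free t _ x := by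
    apply Finset.sum_eq_zero
    intro j _
    rw [P.pd_vel t j j x]
    apply Finset.sum_eq_zero
    intro n _
    by_cases hd : P.dir n = j
    · simp only [hd, if_true]
      rw [← hd, P.pd_dir n x, mul_zero]
    · simp [hd]
  initial x := P.vel_at_zero x
  mean_zero t _ := by simp

/-! ### Trajectories -/

/-- Position at integer times. -/
noncomputable def pos (a : V) : ℕ → V
  | 0 => a
  | n + 1 => Function.update (pos a n) (P.dir n) (pos a n (P.dir n) + P.g n (pos a n))

/-- Position during phase `n`. -/
noncomputable def path (a : V) (n : ℕ) (t : ℝ) : V :=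
  Function.update (P.pos a n) (P.dir n) (P.pos a n (P.dir n) + S (t - n) * P.g n (P.pos a n))

theorem vel_on {n : ℕ} {t : ℝ} (h1 : (n : ℝ) ≤ t) (h2 : t ≤ n + 1) (x : V) (i : Fin 3) :
    P.vel t x i = if P.dir n = i then deriv S (t - n) * P.g n x else 0 := by
  have hc : ⌈t⌉₊ ≤ n + 1 := Nat.ceil_le.2 (by push_cast; exact h2)
  rw [P.vel_eq hc, Finset.sum_range_succ, Finset.sum_eq_zero, zero_add]
  intro m hm
  rw [Finset.mem_range] at hm
  have : deriv S (t - m) = 0 := by
    apply deriv_S_of_one_le
    have : (m : ℝ) + 1 ≤ n := by exact_mod_cast hm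
    linarith
  simp [this]

theorem traj_on (a : V) {X : ℝ → V} (hX : IsTrajectory P.vel a X) (n : ℕ)
    (hn : X n = P.pos a n) : ∀ t ∈ Icc (n : ℝ) (n + 1), X t = P.path a n t := by
  have hcont : ContinuousOn X (Icc (n : ℝ) (n + 1)) := by
    intro t ht
    have h0 : (0 : ℝ) ≤ t := le_trans (Nat.cast_nonneg n) ht.1
    exact (hX.2 t h0).continuousWithinAt.mono (fun s hs => le_trans (Nat.cast_nonneg n) hs.1)
  have hder : ∀ t ∈ Ico (n : ℝ) (n + 1), ∀ i, HasDerivWithinAt (fun s => X s i)
      (if P.dir n = i then deriv S (t - n) * P.g n (X t) else 0) (Ici t) t := by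
    intro t ht i
    have h0 : (0 : ℝ) ≤ t := le_trans (Nat.cast_nonneg n) ht.1
    have h1 := (hasDerivWithinAt_pi.1 (hX.2 t h0)) i
    rw [P.vel_on ht.1 (le_of_lt ht.2)] at h1
    exact h1.mono (fun s hs => le_trans h0 hs)
  -- coordinates other than the active one are constant
  have hconst : ∀ i, P.dir n ≠ i → ∀ t ∈ Icc (n : ℝ) (n + 1), X t i = X n i := by
    intro i hi
    apply constant_of_has_deriv_right_zero (f := fun s => X s i)
    · exact (continuous_apply i).comp_continuousOn hcont
    · intro t ht
      have := hder t ht i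
      simpa [hi] using this
  have hg : ∀ t ∈ Icc (n : ℝ) (n + 1), P.g n (X t) = P.g n (P.pos a n) := by
    intro t ht
    have : X t = Function.update (P.pos a n) (P.dir n) (X t (P.dir n)) := by
      funext i
      by_cases hi : P.dir n = i
      · subst hi; simp
      · rw [Function.update_of_ne (Ne.symm hi), hconst i hi t ht, hn]
    rw [this, P.indep]
  have hact : ∀ t ∈ Icc (n : ℝ) (n + 1),
      X t (P.dir n) - S (t - n) * P.g n (P.pos a n)
        = X n (P.dir n) - S ((n : ℝ) - n) * P.g n (P.pos a n) := by
    apply constant_of_has_deriv_right_zero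
      (f := fun s => X s (P.dir n) - S (s - n) * P.g n (P.pos a n))
    · apply ContinuousOn.sub
      · exact (continuous_apply _).comp_continuousOn hcont
      · apply Continuous.continuousOn
        exact (S_contDiff'.continuous.comp (continuous_id.sub continuous_const)).mul continuous_const
    · intro t ht
      have h1 := hder t ht (P.dir n)
      simp only [if_true] at h1
      rw [hg t ⟨ht.1, le_of_lt ht.2⟩] at h1
      have h2 : HasDerivAt (fun s => S (s - n) * P.g n (P.pos a n))
          (deriv S (t - n) * P.g n (P.pos a n)) t := by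
        apply HasDerivAt.mul_const
        have h3 : HasDerivAt S (deriv S (t - n)) (t - n) :=
          ((S_contDiff'.differentiable (by simp)) _).hasDerivAt
        exact h3.comp_sub_const t (n : ℝ)
      have h4 := h1.fun_sub h2.hasDerivWithinAt
      simpa using h4
  intro t ht
  funext i
  unfold path
  by_cases hi : P.dir n = i
  · subst hi
    have := hact t ht
    rw [hn] at this
    simp only [sub_self, S_of_nonpos (le_refl (0 : ℝ)), zero_mul, sub_zero] at this
    simp only [Function.update_self]
    linarith
  · rw [Function.update_of_ne (Ne.symm hi), hconst i hi t ht, hn]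

theorem path_end (a : V) (n : ℕ) : P.path a n (n + 1) = P.pos a (n + 1) := by
  simp [path, pos, S_of_one_le]

theorem path_start (a : V) (n : ℕ) : P.path a n n = P.pos a n := by
  simp [path, S_of_nonpos]

theorem traj_pos (a : V) {X : ℝ → V} (hX : IsTrajectory P.vel a X) (n : ℕ) :
    X n = P.pos a n := by
  induction n with
  | zero => simpa [pos] using hX.1
  | succ n ih =>
    have := P.traj_on a hX n ih (n + 1) ⟨by linarith, le_refl _⟩
    push_cast
    rw [this, path_end]

/-- Every trajectory is given by the explicit formula. -/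
theorem traj_eq (a : V) {X : ℝ → V} (hX : IsTrajectory P.vel a X) (n : ℕ) {t : ℝ}
    (ht : t ∈ Icc (n : ℝ) (n + 1)) : X t = P.path a n t :=
  P.traj_on a hX n (P.traj_pos a hX n) t ht

/-- The explicit trajectory. -/
noncomputable def traj (a : V) (t : ℝ) : V := fun i =>
  a i + ∑ n ∈ Finset.range ⌈t⌉₊, if P.dir n = i then S (t - n) * P.g n (P.pos a n) else 0

theorem pos_eq_sum (a : V) (n : ℕ) (i : Fin 3) :
    P.pos a n i = a i + ∑ m ∈ Finset.range n, if P.dir m = i then P.g m (P.pos a m) else 0 := by
  induction n with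
  | zero => simp [pos]
  | succ n ih =>
    rw [Finset.sum_range_succ, ← add_assoc, ← ih]
    by_cases hi : P.dir n = i
    · subst hi; simp [pos]
    · simp [pos, hi, Function.update_of_ne (Ne.symm hi)]

theorem traj_eq_sum (a : V) {t : ℝ} {N : ℕ} (hN : ⌈t⌉₊ ≤ N) (i : Fin 3) :
    P.traj a t i = a i + ∑ n ∈ Finset.range N,
      if P.dir n = i then S (t - n) * P.g n (P.pos a n) else 0 := by
  unfold traj
  congr 1
  apply sum_range_ceil hN
  intro n hn
  have : S (t - n) = 0 := S_of_nonpos (by linarith)
  simp [this]

theorem traj_on_path (a : V) {n : ℕ} {t : ℝ} (h1 : (n : ℝ) ≤ t) (h2 : t ≤ n + 1) :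
    P.traj a t = P.path a n t := by
  funext i
  have hc : ⌈t⌉₊ ≤ n + 1 := Nat.ceil_le.2 (by push_cast; exact h2)
  rw [P.traj_eq_sum a hc, Finset.sum_range_succ, ← add_assoc]
  have h3 : ∑ m ∈ Finset.range n, (if P.dir m = i then S (t - m) * P.g m (P.pos a m) else 0)
      = ∑ m ∈ Finset.range n, if P.dir m = i then P.g m (P.pos a m) else 0 := by
    apply Finset.sum_congr rfl
    intro m hm
    rw [Finset.mem_range] at hm
    have : S (t - m) = 1 := by
      apply S_of_one_le
      have : (m : ℝ) + 1 ≤ n := by exact_mod_cast hm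
      linarith
    rw [this, one_mul]
  rw [h3, ← P.pos_eq_sum a n i]
  unfold path
  by_cases hi : P.dir n = i
  · subst hi; simp
  · simp [hi, Function.update_of_ne (Ne.symm hi)]

theorem isTrajectory_traj (a : V) : IsTrajectory P.vel a (P.traj a) := by
  constructor
  · funext i; simp [traj]
  · intro t ht
    apply HasDerivAt.hasDerivWithinAt
    rw [hasDerivAt_pi]
    intro i
    set n := ⌊t⌋₊ with hn
    have hn1 : (n : ℝ) ≤ t := Nat.floor_le ht
    have hn2 : t < n + 1 := Nat.lt_floor_add_one t
    have h : (fun s => P.traj a s i) =ᶠ[𝓝 t] fun s => a i + ∑ m ∈ Finset.range (⌈t⌉₊ + 1),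
        if P.dir m = i then S (s - m) * P.g m (P.pos a m) else 0 := by
      filter_upwards [ceil_eventually t] with s hs
      exact P.traj_eq_sum a hs i
    apply HasDerivAt.congr_of_eventuallyEq _ h
    have hd : HasDerivAt (fun s => a i + ∑ m ∈ Finset.range (⌈t⌉₊ + 1),
        if P.dir m = i then S (s - m) * P.g m (P.pos a m) else 0)
        (∑ m ∈ Finset.range (⌈t⌉₊ + 1),
        if P.dir m = i then deriv S (t - m) * P.g m (P.pos a m) else 0) t := by
      apply HasDerivAt.const_add
      apply HasDerivAt.fun_sum
      intro m _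
      by_cases hdm : P.dir m = i
      · simp only [hdm, if_true]
        apply HasDerivAt.mul_const
        have h3 : HasDerivAt S (deriv S (t - m)) (t - m) :=
          ((S_contDiff'.differentiable (by simp)) _).hasDerivAt
        exact h3.comp_sub_const t (m : ℝ)
      · simp only [hdm, if_false]
        exact hasDerivAt_const _ _
    suffices heq : P.vel t (P.traj a t) i = ∑ m ∈ Finset.range (⌈t⌉₊ + 1),
        if P.dir m = i then deriv S (t - m) * P.g m (P.pos a m) else 0 by
      rw [heq]; exact hd
    rw [P.vel_eq (Nat.le_succ _)]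
    apply Finset.sum_congr rfl
    intro m _
    by_cases hdm : P.dir m = i
    · simp only [hdm, if_true]
      by_cases h0 : deriv S (t - m) = 0
      · rw [h0]; ring
      · have hm : m = n := by
          have h1 : 0 < t - m := by
            by_contra hc; exact h0 (deriv_S_of_nonpos (not_lt.1 hc))
          have h2 : t - m < 1 := by
            by_contra hc; exact h0 (deriv_S_of_one_le (not_lt.1 hc))
          have h3 : (m : ℝ) < n + 1 := by linarith
          have h4 : (n : ℝ) < m + 1 := by linarith
          have h3' : m < n + 1 := by exact_mod_cast h3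
          have h4' : n < m + 1 := by exact_mod_cast h4
          omega
        subst hm
        rw [P.traj_on_path a hn1 (le_of_lt hn2)]
        unfold path
        rw [P.indep]
    · simp [hdm]

end Schedule

end Vale.Agent.P113
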