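import Vale.Agent.P113.Period

/-!
# P113: one period of the flow is one machine step; the target set is entered iff a flag is reached
-/

open MeasureTheory Set Filter Topology
open scoped ContDiff

namespace Vale.Agent.P113

namespace RevMachine

variable {m : RevMachine}

theorem vec0 (x y z : ℝ) : (![x, y, z] : V) 0 = x := rfl
theorem vec1 (x y z : ℝ) : (![x, y, z] : V) 1 = y := rfl
theorem vec2 (x y z : ℝ) : (![x, y, z] : V) 2 = z := rfl

theorem shearX_eval {c : MConf} (h : m.Ok c) {s' w d : ℕ}
    (htr : m.tr c.s (c.R 0) = some (s', w, d)) (cc : ℕ → ℕ → RatCode) {x y : ℝ}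
    (hy : |y| ≤ 1 / 4) :
    Profile.eval 1 (shearXP m.ns m.nd m.tr cc) ![x, y, m.kap (m.clab c)]
      = RatCode.val (cc (base m.ns m.nd) d) * y := by
  have := ctrl_eval h ![x, y, m.kap (m.clab c)] (vec2 _ _ _)
    (fun _ _ _ _ _ d => cc (base m.ns m.nd) d) oneFac linFac
  rw [htr] at this
  simp only [vec1, one_eval, lin_eval hy, one_mul] at this
  exact this

theorem shearY_eval {c : MConf} (h : m.Ok c) {s' w d : ℕ}
    (htr : m.tr c.s (c.R 0) = some (s', w, d)) (cc : ℕ → ℕ → RatCode) {x y : ℝ}
    (hx : |x| ≤ 1 / 4) :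
    Profile.eval 1 (shearYP m.ns m.nd m.tr cc) ![x, y, m.kap (m.clab c)]
      = RatCode.val (cc (base m.ns m.nd) d) * x := by
  have := ctrl_eval h ![x, y, m.kap (m.clab c)] (vec2 _ _ _)
    (fun _ _ _ _ _ d => cc (base m.ns m.nd) d) linFac oneFac
  rw [htr] at this
  simp only [vec0, one_eval, lin_eval hx, mul_one] at this
  exact this

theorem transX_eval {c : MConf} (h : m.Ok c) {s' w d : ℕ}
    (htr : m.tr c.s (c.R 0) = some (s', w, d)) {x y : ℝ} :
    Profile.eval 1 (transXP m.ns m.nd m.tr) ![x, y, m.kap (m.clab c)]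
      = RatCode.val (c5 (base m.ns m.nd) (c.R 0) (c.L 0) w d) := by
  have := ctrl_eval h ![x, y, m.kap (m.clab c)] (vec2 _ _ _)
    (fun _ r l _ w d => c5 (base m.ns m.nd) r l w d) oneFac oneFac
  rw [htr] at this
  simp only [one_eval, mul_one] at this
  exact this

theorem transY_eval {c : MConf} (h : m.Ok c) {s' w d : ℕ}
    (htr : m.tr c.s (c.R 0) = some (s', w, d)) {x y : ℝ} :
    Profile.eval 1 (transYP m.ns m.nd m.tr) ![x, y, m.kap (m.clab c)]
      = RatCode.val (c6 (base m.ns m.nd) c.s (c.L 0) s' w d) := by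
  have := ctrl_eval h ![x, y, m.kap (m.clab c)] (vec2 _ _ _)
    (fun s _ l s' w d => c6 (base m.ns m.nd) s l s' w d) oneFac oneFac
  rw [htr] at this
  simp only [one_eval, mul_one] at this
  exact this

theorem val_zero : RatCode.val ((0, 0, 0) : RatCode) = 0 := by simp [RatCode.val]

/-- Effect of the four linear shears for each move. -/
theorem shears {s0 : ℕ} {R : List ℕ} {n : ℕ} {c : MConf} (hc : m.Ok c) {s' w d : ℕ}
    (htr : m.tr c.s (c.R 0) = some (s', w, d))
    (h : m.P s0 R (2 + 9 * n + 2) = m.pt c (m.kap (m.clab c))) :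
    m.P s0 R (2 + 9 * n + 6) = ![(if d = 0 then m.sg * m.X c / m.b else if d = 1 then m.sg * m.X c
        else m.sg * m.X c * m.b),
      (if d = 0 then m.sg * m.Y c * m.b else if d = 1 then m.sg * m.Y c
        else m.sg * m.Y c / m.b), m.kap (m.clab c)] := by
  have hbpos := m.b_pos
  have hb2 := m.b_ge
  have hsg := m.sg_pos
  have hsb := m.sg_mul_b
  have hsl := m.sg_le
  have hX0 := m.X_nonneg c
  have hY0 := m.Y_nonneg c
  have hX1 := X_le hc
  have hY1 := Y_le hc
  have hb : ((base m.ns m.nd : ℕ) : ℝ) = m.b := by rw [base_eq]; rfl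
  have hbn : 0 < base m.ns m.nd := m.base_pos
  -- elementary bounds
  have bx0 : 0 ≤ m.sg * m.X c := by positivity
  have by0 : 0 ≤ m.sg * m.Y c := by positivity
  have bx1 : m.sg * m.X c ≤ 1 / 64 := by nlinarith
  have by1 : m.sg * m.Y c ≤ 1 / 64 := by nlinarith
  have cx : m.sg * m.X c * m.b ≤ 1 / 32 := by
    have : m.sg * m.X c * m.b = (m.sg * m.b) * m.X c := by ring
    rw [this, hsb]; linarith
  have cy : m.sg * m.Y c * m.b ≤ 1 / 32 := by
    have : m.sg * m.Y c * m.b = (m.sg * m.b) * m.Y c := by ring
    rw [this, hsb]; linarith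
  have cx0 : 0 ≤ m.sg * m.X c * m.b := by positivity
  have cy0 : 0 ≤ m.sg * m.Y c * m.b := by positivity
  have dx0 : 0 ≤ m.sg * m.X c / m.b := by positivity
  have dy0 : 0 ≤ m.sg * m.Y c / m.b := by positivity
  have dx1 : m.sg * m.X c / m.b ≤ 1 / 64 := by
    rw [div_le_iff₀ hbpos]; nlinarith
  have dy1 : m.sg * m.Y c / m.b ≤ 1 / 64 := by
    rw [div_le_iff₀ hbpos]; nlinarith
  have hp2 : periodP m.ns m.nd m.tr m.hs 2 = shearXP m.ns m.nd m.tr c1 := by simp [periodP]
  have hp3 : periodP m.ns m.nd m.tr m.hs 3 = shearYP m.ns m.nd m.tr c2 := by simp [periodP]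
  have hp4 : periodP m.ns m.nd m.tr m.hs 4 = shearXP m.ns m.nd m.tr c3 := by simp [periodP]
  have hp5 : periodP m.ns m.nd m.tr m.hs 5 = shearYP m.ns m.nd m.tr c4 := by simp [periodP]
  have hd2 : periodDir 2 = 0 := by decide
  have hd3 : periodDir 3 = 1 := by decide
  have hd4 : periodDir 4 = 0 := by decide
  have hd5 : periodDir 5 = 1 := by decide
  set x := m.sg * m.X c with hx
  set y := m.sg * m.Y c with hy
  set κ := m.kap (m.clab c) with hκ
  have h' : m.P s0 R (2 + 9 * n + 2) = ![x, y, κ] := h
  have e2 := phaseX (by norm_num) hd2 hp2 h'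
        (shearX_eval hc htr c1 (by rw [abs_le]; constructor <;> linarith))
  by_cases hd0 : d = 0
  · subst hd0
    simp only [if_true]
    have v1 : RatCode.val (c1 (base m.ns m.nd) 0) = -m.b := by
      simp [c1, RatCode.val, hb]
    have v2 : RatCode.val (c2 (base m.ns m.nd) 0) = (1 - m.b) / m.b := by
      simp only [c2, if_true]; rw [val_pred hbn, hb]; simp
    have v3 : RatCode.val (c3 (base m.ns m.nd) 0) = 1 := by
      simp [c3, RatCode.val]
    have v4 : RatCode.val (c4 (base m.ns m.nd) 0) = m.b - 1 := by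
      simp [c4, RatCode.val, hb]
    rw [v1] at e2
    have e2' : m.P s0 R (2 + 9 * n + 3) = ![x - y * m.b, y, κ] := by
      rw [e2]; congr 1; ring
    have e3 := phaseY (by norm_num) hd3 hp3 e2'
        (shearY_eval hc htr c2 (by rw [abs_le]; constructor <;> linarith))
    rw [v2] at e3
    have e3' : m.P s0 R (2 + 9 * n + 4) = ![x - y * m.b, y * m.b + x / m.b - x, κ] := by
      rw [e3]; congr 2; field_simp; ring
    have e4 := phaseX (by norm_num) hd4 hp4 e3'
        (shearX_eval hc htr c3 (by rw [abs_le]; constructor <;> linarith))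
    rw [v3] at e4
    have e4' : m.P s0 R (2 + 9 * n + 5) = ![x / m.b, y * m.b + x / m.b - x, κ] := by
      rw [e4]; congr 1; ring
    have e5 := phaseY (by norm_num) hd5 hp5 e4'
        (shearY_eval hc htr c4 (by rw [abs_le]; constructor <;> linarith))
    rw [v4] at e5
    rw [e5]; congr 2; field_simp; ring
  · by_cases hd1 : d = 1
    · subst hd1
      simp only [one_ne_zero, if_false, if_true]
      have v1 : RatCode.val (c1 (base m.ns m.nd) 1) = 0 := by
        simp [c1, RatCode.val]
      have v2 : RatCode.val (c2 (base m.ns m.nd) 1) = 0 := by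
        simp [c2, RatCode.val]
      have v3 : RatCode.val (c3 (base m.ns m.nd) 1) = 0 := by
        simp [c3, RatCode.val]
      have v4 : RatCode.val (c4 (base m.ns m.nd) 1) = 0 := by
        simp [c4, RatCode.val]
      rw [v1] at e2
      have e2' : m.P s0 R (2 + 9 * n + 3) = ![x, y, κ] := by
        rw [e2]; congr 1; ring
      have e3 := phaseY (by norm_num) hd3 hp3 e2'
        (shearY_eval hc htr c2 (by rw [abs_le]; constructor <;> linarith))
      rw [v2] at e3
      have e3' : m.P s0 R (2 + 9 * n + 4) = ![x, y, κ] := by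
        rw [e3]; congr 2; ring
      have e4 := phaseX (by norm_num) hd4 hp4 e3'
        (shearX_eval hc htr c3 (by rw [abs_le]; constructor <;> linarith))
      rw [v3] at e4
      have e4' : m.P s0 R (2 + 9 * n + 5) = ![x, y, κ] := by
        rw [e4]; congr 1; ring
      have e5 := phaseY (by norm_num) hd5 hp5 e4'
        (shearY_eval hc htr c4 (by rw [abs_le]; constructor <;> linarith))
      rw [v4] at e5
      rw [e5]; congr 2; ring
    · simp only [hd0, hd1, if_false]
      have v1 : RatCode.val (c1 (base m.ns m.nd) d) = -(1 / m.b) := by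
        simp only [c1, hd0, hd1, if_false]; rw [val_pred hbn, hb]; simp; ring
      have v2 : RatCode.val (c2 (base m.ns m.nd) d) = m.b - 1 := by
        simp [c2, RatCode.val, hb, hd0, hd1]
      have v3 : RatCode.val (c3 (base m.ns m.nd) d) = 1 := by
        simp [c3, RatCode.val, hd0, hd1]
      have v4 : RatCode.val (c4 (base m.ns m.nd) d) = (1 - m.b) / m.b := by
        simp only [c4, hd0, hd1, if_false]; rw [val_pred hbn, hb]; simp
      rw [v1] at e2
      have e2' : m.P s0 R (2 + 9 * n + 3) = ![x - y / m.b, y, κ] := by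
        rw [e2]; congr 1; ring
      have e3 := phaseY (by norm_num) hd3 hp3 e2'
        (shearY_eval hc htr c2 (by rw [abs_le]; constructor <;> linarith))
      rw [v2] at e3
      have e3' : m.P s0 R (2 + 9 * n + 4) = ![x - y / m.b, y / m.b + x * m.b - x, κ] := by
        rw [e3]; congr 2; field_simp; ring
      have e4 := phaseX (by norm_num) hd4 hp4 e3'
        (shearX_eval hc htr c3 (by rw [abs_le]; constructor <;> linarith))
      rw [v3] at e4
      have e4' : m.P s0 R (2 + 9 * n + 5) = ![x * m.b, y / m.b + x * m.b - x, κ] := by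
        rw [e4]; congr 1; ring
      have e5 := phaseY (by norm_num) hd5 hp5 e4'
        (shearY_eval hc htr c4 (by rw [abs_le]; constructor <;> linarith))
      rw [v4] at e5
      rw [e5]; congr 2; field_simp; ring

/-- One full period performs one machine step. -/
theorem period_step {s0 : ℕ} {R : List ℕ} {n : ℕ} {c : MConf} (hc : m.Ok c)
    (htr : m.tr c.s (c.R 0) ≠ none)
    (h : m.P s0 R (2 + 9 * n + 2) = m.pt c (m.kap (m.clab c))) :
    m.P s0 R (2 + 9 * n + 9) = m.pt (m.step c) 0 := by
  obtain ⟨p, hp⟩ := Option.ne_none_iff_exists'.1 htr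
  obtain ⟨s', w, d⟩ := p
  have hok := step_ok hc
  have hbd := m.bound c.s (c.R 0) s' w d hc.1 (hc.2.2 0) hp
  have hbpos := m.b_pos
  have hb : ((base m.ns m.nd : ℕ) : ℝ) = m.b := by rw [base_eq]; rfl
  have hbn : 0 < base m.ns m.nd := m.base_pos
  have e5 := shears hc hp h
  have hp6 : periodP m.ns m.nd m.tr m.hs 6 = transXP m.ns m.nd m.tr := by simp [periodP]
  have hp7 : periodP m.ns m.nd m.tr m.hs 7 = transYP m.ns m.nd m.tr := by simp [periodP]
  have hp8 : periodP m.ns m.nd m.tr m.hs 8 = unlabelP m.ns m.nd m.tr := by simp [periodP]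
  have hd6 : periodDir 6 = 0 := by decide
  have hd7 : periodDir 7 = 1 := by decide
  have hd8 : periodDir 8 = 2 := by decide
  have e6 := phaseX (by norm_num) hd6 hp6 e5 (transX_eval hc hp)
  have e7 := phaseY (by norm_num) hd7 hp7 e6 (transY_eval hc hp)
  have hst : m.step c = if d = 0 then ⟨s', stail c.L, scons (c.L 0) (scons w (stail c.R))⟩
    else if d = 1 then ⟨s', c.L, scons w (stail c.R)⟩
    else ⟨s', scons w c.L, stail c.R⟩ := by
    unfold step; rw [hp]
  have hXc := X_eq hc
  have hYc := Y_eq hc
  have hLc := L_eq hc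
  have hXs := X_eq hok
  have hYs := Y_eq hok
  have hLs := L_eq hok
  have hw : w < m.q := by unfold q; omega
  have key : m.P s0 R (2 + 9 * n + 8)
      = ![m.sg * m.X (m.step c), m.sg * m.Y (m.step c), m.kap (m.clab c)] := by
    rw [e7]
    by_cases hd0 : d = 0
    · subst hd0
      rw [if_pos rfl] at hst
      simp only [if_true]
      have hv5 : RatCode.val (c5 (base m.ns m.nd) (c.R 0) (c.L 0) w 0)
          = m.sg * ((c.L 0 : ℝ) * m.b + w - c.R 0) / m.b ^ 2 := by
        simp only [c5, if_true]
        rw [val_pred (by positivity)]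
        push_cast
        rw [hb]; unfold sg; field_simp
      have hv6 : RatCode.val (c6 (base m.ns m.nd) c.s (c.L 0) s' w 0)
          = m.sg * ((s' : ℝ) - m.b * c.s - c.L 0) / m.b := by
        simp only [c6, if_true]
        rw [val_pred (by positivity)]
        push_cast
        rw [hb]; unfold sg; field_simp; ring
      have hX' : m.X (m.step c) = ((c.L 0 : ℝ) + (w + ev (2 * m.q) (stail c.R)) / m.b) / m.b := by
        rw [hXs, hst]
        have h2 := ev_scons m.q_pos (f := stail c.R) (a := w) (fun i => hc.R_lt (i + 1)) hw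
        simp only [stail_scons]
        rw [h2]
        rfl
      have hY' : m.Y (m.step c) = ((s' : ℝ) + ev (2 * m.q) (stail c.L)) / m.b := by
        rw [hYs, hst]
      rw [hv5, hv6, hX', hY', hXc, hYc, hLc]
      congr 1
      · field_simp; ring
      · congr 1
        field_simp; ring
    · by_cases hd1 : d = 1
      · subst hd1
        rw [if_neg one_ne_zero, if_pos rfl] at hst
        simp only [one_ne_zero, if_false, if_true]
        have hv5 : RatCode.val (c5 (base m.ns m.nd) (c.R 0) (c.L 0) w 1)
            = m.sg * ((w : ℝ) - c.R 0) / m.b := by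
          simp only [c5, one_ne_zero, if_false, if_true]
          rw [val_pred (by positivity)]
          push_cast
          rw [hb]; unfold sg; field_simp
        have hv6 : RatCode.val (c6 (base m.ns m.nd) c.s (c.L 0) s' w 1)
            = m.sg * ((s' : ℝ) - c.s) / m.b := by
          simp only [c6, one_ne_zero, if_false, if_true]
          rw [val_pred (by positivity)]
          push_cast
          rw [hb]; unfold sg; field_simp
        have hX' : m.X (m.step c) = ((w : ℝ) + ev (2 * m.q) (stail c.R)) / m.b := by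
          rw [hXs, hst]; rfl
        have hY' : m.Y (m.step c) = ((s' : ℝ) + ev (2 * m.q) c.L) / m.b := by
          rw [hYs, hst]
        rw [hv5, hv6, hX', hY', hXc, hYc]
        congr 1
        · field_simp; ring
        · congr 1
          field_simp; ring
      · rw [if_neg hd0, if_neg hd1] at hst
        simp only [hd0, hd1, if_false]
        have hv5 : RatCode.val (c5 (base m.ns m.nd) (c.R 0) (c.L 0) w d)
            = -(m.sg * (c.R 0 : ℝ)) := by
          simp only [c5, hd0, hd1, if_false]
          rw [val_pred (by positivity)]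
          push_cast
          rw [hb]; unfold sg; field_simp; ring
        have hv6 : RatCode.val (c6 (base m.ns m.nd) c.s (c.L 0) s' w d)
            = m.sg * ((s' : ℝ) * m.b + w - c.s) / m.b ^ 2 := by
          simp only [c6, hd0, hd1, if_false]
          rw [val_pred (by positivity)]
          push_cast
          rw [hb]; unfold sg; field_simp
        have hX' : m.X (m.step c) = ev (2 * m.q) (stail c.R) := by
          unfold X; rw [hst]
        have hY' : m.Y (m.step c) = ((s' : ℝ) + (w + ev (2 * m.q) c.L) / m.b) / m.b := by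
          rw [hYs, hst]
          have h2 := ev_scons m.q_pos (f := c.L) (a := w) hc.L_lt hw
          simp only
          rw [h2]
          rfl
        rw [hv5, hv6, hX', hY', hXc, hYc]
        congr 1
        · field_simp; ring
        · congr 1
          field_simp; ring
  have h1 := m.P_succ s0 R (2 + 9 * n + 8)
  rw [progProf_period s0 R n 8 (by norm_num), progDir_period n 8 (by norm_num), key, hp8, hd8,
    unlabel_eval hc _ htr (vec0 _ _ _) (vec1 _ _ _)] at h1
  rw [show 2 + 9 * n + 9 = 2 + 9 * n + 8 + 1 from rfl, h1]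
  funext i
  fin_cases i <;> simp [pt]

end RevMachine

end Vale.Agent.P113
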